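import Crest.Agent.R034.BSG
import Crest.Agent.R034.SumProd

/-! Additive combinatorics part of the BKT module of row 34. -/

set_option autoImplicit false
set_option maxHeartbeats 1000000

namespace Crest.Agent.R034.BKT

open Finset Crest.Agent.R034
open scoped Pointwise

/-- many witnesses for each value -/
theorem fiber_bound {ω β : Type*} [DecidableEq ω] [DecidableEq β] (W : Finset ω) (V : Finset β)
    (ψ : ω → β) (r : ℝ) (h : ∀ v ∈ V, r ≤ #{w ∈ W | ψ w = v}) : (#V : ℝ) * r ≤ #W := by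
  have h1 : (∑ v ∈ V, #{w ∈ W | ψ w = v}) ≤ #W := by
    rw [← card_biUnion]
    · exact card_le_card (biUnion_subset.mpr fun v _ => filter_subset _ _)
    · intro v _ v' _ hvv'
      rw [Function.onFun, disjoint_left]
      intro w hw hw'
      rw [mem_filter] at hw hw'
      exact hvv' (hw.2.symm.trans hw'.2)
  have h2 : ((∑ v ∈ V, #{w ∈ W | ψ w = v} : ℕ) : ℝ) ≤ #W := by exact_mod_cast h1
  rw [Nat.cast_sum] at h2
  calc (#V : ℝ) * r = ∑ v ∈ V, r := by rw [sum_const, nsmul_eq_mul]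
    _ ≤ ∑ v ∈ V, (#{w ∈ W | ψ w = v} : ℝ) := sum_le_sum h
    _ ≤ #W := h2

variable {F : Type} [Field F] [DecidableEq F]

theorem ruzsa_sub (A B : Finset F) : #(A - A) * #B ≤ #(A + B) * #(A + B) := by
  have := ruzsa_triangle_inequality_sub_add_add A B A
  exact this

theorem ruzsa_div (A B : Finset F) (hA : (0 : F) ∉ A) (hB : (0 : F) ∉ B) :
    #(A / A) * #B ≤ #(B / A) * #(B / A) := by
  classical
  have hex : ∀ d ∈ A / A, ∃ a : F × F, a.1 ∈ A ∧ a.2 ∈ A ∧ a.1 / a.2 = d := by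
    intro d hd
    obtain ⟨a, ha, b, hb, rfl⟩ := mem_div.mp hd
    exact ⟨(a, b), ha, hb, rfl⟩
  choose! g hg1 hg2 hg3 using hex
  rw [← card_product, ← card_product]
  apply card_le_card_of_injOn (fun p : F × F => (p.2 / (g p.1).2, p.2 / (g p.1).1))
  · rintro ⟨d, b⟩ hp
    simp only [coe_product, Set.mem_prod, mem_coe] at hp
    simp only [coe_product, Set.mem_prod, mem_coe]
    exact ⟨div_mem_div hp.2 (hg2 d hp.1), div_mem_div hp.2 (hg1 d hp.1)⟩
  · rintro ⟨d, b⟩ hp ⟨d', b'⟩ hp' h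
    simp only [coe_product, Set.mem_prod, mem_coe] at hp hp'
    simp only [Prod.mk.injEq] at h ⊢
    have b0 : b ≠ 0 := fun h => hB (h ▸ hp.2)
    have b0' : b' ≠ 0 := fun h => hB (h ▸ hp'.2)
    have x1 : (g d).1 ≠ 0 := fun h => hA (h ▸ hg1 d hp.1)
    have x2 : (g d).2 ≠ 0 := fun h => hA (h ▸ hg2 d hp.1)
    have y1 : (g d').1 ≠ 0 := fun h => hA (h ▸ hg1 d' hp'.1)
    have y2 : (g d').2 ≠ 0 := fun h => hA (h ▸ hg2 d' hp'.1)
    have hd : d = d' := by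
      have e1 : d = (b / (g d).2) / (b / (g d).1) := by
        rw [div_div_div_cancel_left' _ _ b0]; exact (hg3 d hp.1).symm
      have e2 : d' = (b' / (g d').2) / (b' / (g d').1) := by
        rw [div_div_div_cancel_left' _ _ b0']; exact (hg3 d' hp'.1).symm
      rw [e1, e2, h.1, h.2]
    subst hd
    refine ⟨rfl, ?_⟩
    have := h.1
    rw [div_left_inj' x2] at this
    exact this

/-- paths of length three give few sums -/
theorem sum_bound (X Y : Finset F) (E : Finset (F × F)) (_hE : E ⊆ X ×ˢ Y)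
    (A' B' : Finset F) (r : ℝ)
    (hp : ∀ x ∈ A', ∀ y ∈ B', r ≤ #{p ∈ Y ×ˢ X | (x, p.1) ∈ E ∧ (p.2, p.1) ∈ E ∧ (p.2, y) ∈ E}) :
    (#(A' + B') : ℝ) * r ≤ (#(E.image (fun e => e.1 + e.2)) : ℝ) ^ 3 := by
  classical
  set Sg := E.image (fun e => e.1 + e.2) with hSg
  have hmem : ∀ a b, (a, b) ∈ E → a + b ∈ Sg := fun a b h =>
    mem_image.mpr ⟨(a, b), h, rfl⟩
  have key := fiber_bound (Sg ×ˢ (Sg ×ˢ Sg)) (A' + B') (fun w => w.1 - w.2.1 + w.2.2) r ?_
  · rw [card_product, card_product] at key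
    push_cast at key
    calc _ ≤ _ := key
      _ = _ := by ring
  · intro v hv
    obtain ⟨a, ha, b, hb, rfl⟩ := mem_add.mp hv
    refine le_trans (hp a ha b hb) ?_
    norm_cast
    apply card_le_card_of_injOn (fun p : F × F => (a + p.1, p.2 + p.1, p.2 + b))
    · rintro ⟨y', x'⟩ h
      simp only [coe_filter, mem_product, Set.mem_ofPred_eq] at h ⊢
      refine ⟨⟨hmem _ _ h.2.1, hmem _ _ h.2.2.1, hmem _ _ h.2.2.2⟩, by ring⟩
    · rintro ⟨y', x'⟩ _ ⟨y'', x''⟩ _ h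
      simp only [Prod.mk.injEq] at h ⊢
      exact ⟨add_left_cancel h.1, add_right_cancel h.2.2⟩

/-- paths of length three give few ratios -/
theorem div_bound (X Y : Finset F) (E : Finset (F × F)) (_hE : E ⊆ X ×ˢ Y)
    (h0 : ∀ e ∈ E, e.1 ≠ 0 ∧ e.2 ≠ 0)
    (A' B' : Finset F) (hA : (0 : F) ∉ A') (hB : (0 : F) ∉ B') (r : ℝ)
    (hp : ∀ x ∈ A', ∀ y ∈ B', r ≤ #{p ∈ Y ×ˢ X | (x, p.1) ∈ E ∧ (p.2, p.1) ∈ E ∧ (p.2, y) ∈ E}) :
    (#(B' / A') : ℝ) * r ≤ (#(E.image (fun e => e.2 / e.1)) : ℝ) ^ 3 := by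
  classical
  set Sg := E.image (fun e => e.2 / e.1) with hSg
  have hmem : ∀ a b, (a, b) ∈ E → b / a ∈ Sg := fun a b h =>
    mem_image.mpr ⟨(a, b), h, rfl⟩
  have key := fiber_bound (Sg ×ˢ (Sg ×ˢ Sg)) (B' / A') (fun w => w.1 / w.2.1 * w.2.2) r ?_
  · rw [card_product, card_product] at key
    push_cast at key
    calc _ ≤ _ := key
      _ = _ := by ring
  · intro v hv
    obtain ⟨b, hb, a, ha, rfl⟩ := mem_div.mp hv
    have a0 : a ≠ 0 := fun h => hA (h ▸ ha)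
    have b0 : b ≠ 0 := fun h => hB (h ▸ hb)
    refine le_trans (hp a ha b hb) ?_
    norm_cast
    apply card_le_card_of_injOn (fun p : F × F => (p.1 / a, p.1 / p.2, b / p.2))
    · rintro ⟨y', x'⟩ h
      simp only [coe_filter, mem_product, Set.mem_ofPred_eq] at h ⊢
      have h1 := h0 _ h.2.1
      have h2 := h0 _ h.2.2.2
      simp only at h1 h2
      have y0 := h1.2
      have x0 := h2.1
      refine ⟨⟨hmem _ _ h.2.1, hmem _ _ h.2.2.1, hmem _ _ h.2.2.2⟩, ?_⟩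
      field_simp
    · rintro ⟨y', x'⟩ h1 ⟨y'', x''⟩ h2 h
      simp only [coe_filter, mem_product, Set.mem_ofPred_eq] at h1 h2
      simp only [Prod.mk.injEq] at h ⊢
      have x0 := (h0 _ h1.2.2.2).1
      have x0' := (h0 _ h2.2.2.2).1
      simp only at x0 x0'
      refine ⟨(div_left_inj' a0).mp h.1, ?_⟩
      have := h.2.2
      rw [div_eq_div_iff x0 x0'] at this
      exact (mul_left_cancel₀ b0 this).symm

variable [Fintype F]

theorem additive (hns : ¬ IsSquare (Fintype.card F)) (n Λ : ℝ) (hn0 : 0 < n)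
    (hn : n ^ 2 = Fintype.card F) (hΛ : 2 ≤ Λ) {ι : Type*} [DecidableEq ι] (G : Finset ι)
    (x y : ι → F) (hinj : ∀ s ∈ G, ∀ s' ∈ G, x s = x s' → y s = y s' → s = s')
    (hx0 : ∀ s ∈ G, x s ≠ 0) (hy0 : ∀ s ∈ G, y s ≠ 0)
    (hX : (#(G.image x) : ℝ) ≤ 2 * Λ * n) (hY : (#(G.image y) : ℝ) ≤ 2 * Λ * n)
    (hS : (#(G.image (fun s => x s + y s)) : ℝ) ≤ 2 * Λ * n)
    (hD : (#(G.image (fun s => y s / x s)) : ℝ) ≤ 2 * Λ * n)
    (hG : n ^ 2 ≤ Λ ^ 50 * #G) : (Fintype.card F : ℝ) ≤ Λ ^ 90000 := by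
  classical
  set X := G.image x with hXd
  set Y := G.image y with hYd
  set E := G.image (fun s => (x s, y s)) with hEd
  have hEcard : #E = #G := by
    apply card_image_of_injOn
    intro s hs s' hs' h
    simp only [Prod.mk.injEq] at h
    exact hinj s hs s' hs' h.1 h.2
  have hEXY : E ⊆ X ×ˢ Y := by
    intro e he
    obtain ⟨s, hs, rfl⟩ := mem_image.mp he
    exact mem_product.mpr ⟨mem_image_of_mem _ hs, mem_image_of_mem _ hs⟩
  have hE0 : ∀ e ∈ E, e.1 ≠ 0 ∧ e.2 ≠ 0 := by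
    intro e he
    obtain ⟨s, hs, rfl⟩ := mem_image.mp he
    exact ⟨hx0 s hs, hy0 s hs⟩
  have hΛ0 : 0 < Λ := by linarith
  have hΛ1 : 1 ≤ Λ := by linarith
  have hn2 : 0 < n ^ 2 := by positivity
  have hGpos : (0 : ℝ) < #G := by
    by_contra h
    have h0 : (#G : ℝ) = 0 := le_antisymm (not_lt.mp h) (Nat.cast_nonneg _)
    rw [h0, mul_zero] at hG
    linarith
  have hGne : G.Nonempty := card_pos.mp (by exact_mod_cast hGpos)
  have hXne : X.Nonempty := hGne.image _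
  have hYne : Y.Nonempty := hGne.image _
  have hXpos : (0 : ℝ) < #X := by exact_mod_cast hXne.card_pos
  have hYpos : (0 : ℝ) < #Y := by exact_mod_cast hYne.card_pos
  have hEle : (#G : ℝ) ≤ #X * #Y := by
    have := card_le_card hEXY
    rw [card_product, hEcard] at this
    exact_mod_cast this
  have hXYlow : n ^ 2 ≤ Λ ^ 50 * (#X * #Y) :=
    hG.trans (mul_le_mul_of_nonneg_left hEle (by positivity))
  -- the density constant
  have h2pow : ∀ k : ℕ, (2 : ℝ) ^ k ≤ Λ ^ k := fun k => pow_le_pow_left₀ (by norm_num) hΛ k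
  have hd : (#X : ℝ) * #Y ≤ Λ ^ 54 * #E := by
    rw [hEcard]
    calc (#X : ℝ) * #Y ≤ (2 * Λ * n) * (2 * Λ * n) := mul_le_mul hX hY hYpos.le (by positivity)
      _ = 4 * Λ ^ 2 * n ^ 2 := by ring
      _ ≤ 4 * Λ ^ 2 * (Λ ^ 50 * #G) := mul_le_mul_of_nonneg_left hG (by positivity)
      _ = 2 ^ 2 * (Λ ^ 52 * #G) := by ring
      _ ≤ Λ ^ 2 * (Λ ^ 52 * #G) := mul_le_mul_of_nonneg_right (h2pow 2) (by positivity)
      _ = Λ ^ 54 * #G := by ring
  obtain ⟨A', hA', B', hB', hAl, hBl, hpaths⟩ :=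
    exists_many_paths X Y E hEXY hXne hYne (Λ ^ 54) (one_le_pow₀ hΛ1) hd
  set r : ℝ := (#X : ℝ) * #Y / (3072 * (Λ ^ 54) ^ 5) with hr
  have hpaths' : ∀ a ∈ A', ∀ b ∈ B',
      r ≤ #{p ∈ Y ×ˢ X | (a, p.1) ∈ E ∧ (p.2, p.1) ∈ E ∧ (p.2, b) ∈ E} := by
    intro a ha b hb
    rw [hr, div_le_iff₀ (by positivity)]
    calc _ ≤ _ := hpaths a ha b hb
      _ = _ := by ring
  have hA0 : (0 : F) ∉ A' := by
    intro h
    obtain ⟨s, hs, h⟩ := mem_image.mp (hA' h)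
    exact hx0 s hs h
  have hB0 : (0 : F) ∉ B' := by
    intro h
    obtain ⟨s, hs, h⟩ := mem_image.mp (hB' h)
    exact hy0 s hs h
  have hrlow : n ^ 2 ≤ Λ ^ 332 * r := by
    rw [hr]
    have : Λ ^ 332 * ((#X : ℝ) * #Y / (3072 * (Λ ^ 54) ^ 5)) =
        Λ ^ 12 / 3072 * (Λ ^ 50 * (#X * #Y)) := by
      rw [mul_div_assoc', div_mul_eq_mul_div, div_eq_div_iff (by positivity) (by norm_num)]
      ring
    rw [this]
    have h1 : (1 : ℝ) ≤ Λ ^ 12 / 3072 := by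
      rw [le_div_iff₀ (by norm_num)]
      calc (1 : ℝ) * 3072 ≤ 2 ^ 12 := by norm_num
        _ ≤ Λ ^ 12 := h2pow 12
    calc n ^ 2 ≤ 1 * (Λ ^ 50 * (#X * #Y)) := by rw [one_mul]; exact hXYlow
      _ ≤ _ := mul_le_mul_of_nonneg_right h1 (by positivity)
  have hr0 : 0 < r := by rw [hr]; positivity
  have final_of : ∀ (V Sg : ℝ), 0 ≤ V → 0 ≤ Sg → Sg ≤ 2 * Λ * n → V * r ≤ Sg ^ 3 →
      V ≤ Λ ^ 338 * n := by
    intro V Sg hV hSg hSgn h
    have h1 : V * n ^ 2 ≤ Λ ^ 338 * n * n ^ 2 := by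
      calc V * n ^ 2 ≤ V * (Λ ^ 332 * r) := mul_le_mul_of_nonneg_left hrlow hV
        _ = Λ ^ 332 * (V * r) := by ring
        _ ≤ Λ ^ 332 * Sg ^ 3 := mul_le_mul_of_nonneg_left h (by positivity)
        _ ≤ Λ ^ 332 * (2 * Λ * n) ^ 3 :=
            mul_le_mul_of_nonneg_left (pow_le_pow_left₀ hSg hSgn 3) (by positivity)
        _ = 2 ^ 3 * (Λ ^ 335 * n ^ 3) := by ring
        _ ≤ Λ ^ 3 * (Λ ^ 335 * n ^ 3) := mul_le_mul_of_nonneg_right (h2pow 3) (by positivity)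
        _ = Λ ^ 338 * n * n ^ 2 := by ring
    exact le_of_mul_le_mul_right h1 hn2
  have hsum : (#(A' + B') : ℝ) ≤ Λ ^ 338 * n := by
    refine final_of _ (#(G.image (fun s => x s + y s))) (by positivity) (by positivity) hS ?_
    have := sum_bound X Y E hEXY A' B' r hpaths'
    have h2 : E.image (fun e => e.1 + e.2) = G.image (fun s => x s + y s) := by
      rw [hEd, image_image]; rfl
    rw [h2] at this
    exact this
  have hratio : (#(B' / A') : ℝ) ≤ Λ ^ 338 * n := by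
    refine final_of _ (#(G.image (fun s => y s / x s))) (by positivity) (by positivity) hD ?_
    have := div_bound X Y E hEXY hE0 A' B' hA0 hB0 r hpaths'
    have h2 : E.image (fun e => e.2 / e.1) = G.image (fun s => y s / x s) := by
      rw [hEd, image_image]; rfl
    rw [h2] at this
    exact this
  -- sizes of A', B'
  have hXlow : n ≤ Λ ^ 52 * #X := by
    have h1 : n ^ 2 ≤ Λ ^ 50 * (#X * (2 * Λ * n)) :=
      hXYlow.trans (mul_le_mul_of_nonneg_left (mul_le_mul_of_nonneg_left hY hXpos.le)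
        (by positivity))
    have h2 : n * n ≤ (2 * Λ ^ 51 * #X) * n := by nlinarith
    have h3 : n ≤ 2 * Λ ^ 51 * #X := le_of_mul_le_mul_right h2 hn0
    calc n ≤ 2 * (Λ ^ 51 * #X) := by linarith
      _ ≤ Λ * (Λ ^ 51 * #X) := mul_le_mul_of_nonneg_right hΛ (by positivity)
      _ = _ := by ring
  have hYlow : n ≤ Λ ^ 52 * #Y := by
    have h1 : n ^ 2 ≤ Λ ^ 50 * ((2 * Λ * n) * #Y) :=
      hXYlow.trans (mul_le_mul_of_nonneg_left (mul_le_mul_of_nonneg_right hX hYpos.le)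
        (by positivity))
    have h2 : n * n ≤ (2 * Λ ^ 51 * #Y) * n := by nlinarith
    have h3 : n ≤ 2 * Λ ^ 51 * #Y := le_of_mul_le_mul_right h2 hn0
    calc n ≤ 2 * (Λ ^ 51 * #Y) := by linarith
      _ ≤ Λ * (Λ ^ 51 * #Y) := mul_le_mul_of_nonneg_right hΛ (by positivity)
      _ = _ := by ring
  have hAlow : n ≤ Λ ^ 109 * #A' := by
    calc n ≤ Λ ^ 52 * #X := hXlow
      _ ≤ Λ ^ 52 * (6 * Λ ^ 54 * #A') := mul_le_mul_of_nonneg_left hAl (by positivity)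
      _ = 6 * (Λ ^ 106 * #A') := by ring
      _ ≤ 2 ^ 3 * (Λ ^ 106 * #A') := mul_le_mul_of_nonneg_right (by norm_num)
            (mul_nonneg (pow_nonneg hΛ0.le _) (Nat.cast_nonneg _))
      _ ≤ Λ ^ 3 * (Λ ^ 106 * #A') := mul_le_mul_of_nonneg_right (h2pow 3)
            (mul_nonneg (pow_nonneg hΛ0.le _) (Nat.cast_nonneg _))
      _ = _ := by ring
  have hBlow : n ≤ Λ ^ 108 * #B' := by
    calc n ≤ Λ ^ 52 * #Y := hYlow
      _ ≤ Λ ^ 52 * (4 * Λ ^ 54 * #B') := mul_le_mul_of_nonneg_left hBl (by positivity)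
      _ = 2 ^ 2 * (Λ ^ 106 * #B') := by ring
      _ ≤ Λ ^ 2 * (Λ ^ 106 * #B') := mul_le_mul_of_nonneg_right (h2pow 2)
            (mul_nonneg (pow_nonneg hΛ0.le _) (Nat.cast_nonneg _))
      _ = _ := by ring
  have fin2 : ∀ (D V : ℝ), 0 ≤ D → 0 ≤ V → V ≤ Λ ^ 338 * n → D * #B' ≤ V * V →
      D ≤ Λ ^ 893 * #A' := by
    intro D V hD0 hV0 hV h
    have h1 : D * n ≤ Λ ^ 784 * n * n := by
      calc D * n ≤ D * (Λ ^ 108 * #B') := mul_le_mul_of_nonneg_left hBlow hD0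
        _ = Λ ^ 108 * (D * #B') := by ring
        _ ≤ Λ ^ 108 * (V * V) := mul_le_mul_of_nonneg_left h (by positivity)
        _ ≤ Λ ^ 108 * ((Λ ^ 338 * n) * (Λ ^ 338 * n)) :=
            mul_le_mul_of_nonneg_left (mul_le_mul hV hV hV0 (by positivity)) (by positivity)
        _ = _ := by ring
    have h2 : D ≤ Λ ^ 784 * n := le_of_mul_le_mul_right h1 hn0
    calc D ≤ Λ ^ 784 * n := h2
      _ ≤ Λ ^ 784 * (Λ ^ 109 * #A') := mul_le_mul_of_nonneg_left hAlow (by positivity)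
      _ = _ := by ring
  obtain ⟨K, hK⟩ : ∃ K : ℝ, K = Λ ^ 893 := ⟨_, rfl⟩
  rw [← hK] at fin2
  have hK0 : 0 < K := by rw [hK]; exact pow_pos hΛ0 _
  have hKge : ∀ j : ℕ, j ≤ 893 → Λ ^ j ≤ K := by
    intro j hj; rw [hK]; exact pow_le_pow_right₀ hΛ1 hj
  have hK1 : 1 ≤ K := by simpa using hKge 0 (by norm_num)
  have hsub : (#(A' - A') : ℝ) ≤ K * #A' := by
    refine fin2 _ (#(A' + B')) (by positivity) (by positivity) hsum ?_
    exact_mod_cast ruzsa_sub A' B'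
  have hdiv : (#(A' / A') : ℝ) ≤ K * #A' := by
    refine fin2 _ (#(B' / A')) (by positivity) (by positivity) hratio ?_
    exact_mod_cast ruzsa_div A' B' hA0 hB0
  have hAX : (#A' : ℝ) ≤ 2 * Λ * n := by
    refine le_trans ?_ hX
    exact_mod_cast card_le_card hA'
  have hlow : (Fintype.card F : ℝ) ≤ (K * #A') ^ 2 := by
    rw [← hn]
    refine pow_le_pow_left₀ hn0.le (hAlow.trans ?_) 2
    exact mul_le_mul_of_nonneg_right (hKge _ (by norm_num)) (by positivity)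
  have hhigh : (#A' : ℝ) ^ 2 ≤ K ^ 2 * Fintype.card F := by
    rw [← hn, ← mul_pow]
    refine pow_le_pow_left₀ (by positivity) (hAX.trans ?_) 2
    refine mul_le_mul_of_nonneg_right ?_ hn0.le
    calc 2 * Λ ≤ Λ * Λ := mul_le_mul_of_nonneg_right hΛ hΛ0.le
      _ = Λ ^ 2 := by ring
      _ ≤ K := hKge _ (by norm_num)
  have hfin := sum_product hns A' hA0 K hK1 hlow hhigh hsub hdiv
  calc (Fintype.card F : ℝ) ≤ 2 ^ 24 * K ^ 96 := hfin
    _ ≤ Λ ^ 24 * K ^ 96 := mul_le_mul_of_nonneg_right (h2pow 24) (by positivity)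
    _ = Λ ^ (24 + 893 * 96) := by rw [hK, ← pow_mul, ← pow_add]
    _ ≤ Λ ^ 90000 := pow_le_pow_right₀ hΛ1 (by norm_num)

end Crest.Agent.R034.BKT
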