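import Crest.Agent.R034.Plane

/-! Homogeneous coordinates for the BKT module of row 34. -/

set_option autoImplicit false

namespace Crest.Agent.R034.BKT

open Finset Crest.Agent.R034

variable {F : Type} [Field F]

/-- first homogeneous coordinate -/
def h0 : Pt F → F
  | (some _, _) => 1
  | (none, _) => 0
/-- second homogeneous coordinate -/
def h1 : Pt F → F
  | (some x, _) => x
  | (none, _) => 1
/-- third homogeneous coordinate -/
def h2 (z : Pt F) : F := z.2

theorem on_iff_h (z : Pt F) (l : Ln F) : On z l ↔ h2 z = l.1 * h1 z + l.2 * h0 z := by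
  obtain ⟨_ | x, y⟩ := z
  · simp [On, h0, h1, h2, eq_comm]
  · simp [On, h0, h1, h2, eq_comm]

/-- determinant of three points -/
def det (p q r : Pt F) : F :=
  h0 p * (h1 q * h2 r - h2 q * h1 r) - h1 p * (h0 q * h2 r - h2 q * h0 r)
    + h2 p * (h0 q * h1 r - h1 q * h0 r)

theorem posd_ne {p q : Pt F} (h : p.1 ≠ q.1) : h0 p * h1 q - h1 p * h0 q ≠ 0 := by
  obtain ⟨_ | x, y⟩ := p <;> obtain ⟨_ | x', y'⟩ := q
  · exact absurd rfl h
  · simp [h0, h1]
  · simp [h0, h1]
  · simp only [h0, h1, one_mul, mul_one]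
    intro h'
    exact h (by rw [sub_eq_zero.mp h'])

theorem det_of_on {p q r : Pt F} {l : Ln F} (hp : On p l) (hq : On q l) :
    det p q r = (h0 p * h1 q - h1 p * h0 q) * (h2 r - (l.1 * h1 r + l.2 * h0 r)) := by
  rw [on_iff_h] at hp hq
  unfold det; rw [hp, hq]; ring

theorem det_ne {p q r : Pt F} {l : Ln F} (hpq : p ≠ q) (hp : On p l) (hq : On q l)
    (hr : ¬ On r l) : det p q r ≠ 0 := by
  rw [det_of_on hp hq]
  refine mul_ne_zero (posd_ne (pos_ne_of_on hp hq hpq)) ?_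
  rw [on_iff_h] at hr
  exact sub_ne_zero.mpr hr

theorem on_of_det {p q r : Pt F} {l : Ln F} (hpq : p ≠ q) (hp : On p l) (hq : On q l)
    (h : det p q r = 0) : On r l := by
  by_contra hr
  exact det_ne hpq hp hq hr h

/-- linear functionals -/
def IsLin (W : Pt F → F) : Prop := ∃ w0 w1 w2 : F, ∀ z, W z = w0 * h0 z + w1 * h1 z + w2 * h2 z

theorem IsLin.add {W W' : Pt F → F} (h : IsLin W) (h' : IsLin W') :
    IsLin (fun z => W z + W' z) := by
  obtain ⟨a, b, c, h⟩ := h
  obtain ⟨a', b', c', h'⟩ := h'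
  refine ⟨a + a', b + b', c + c', fun z => ?_⟩
  show W z + W' z = _
  rw [h, h']; ring

theorem IsLin.rel {W : Pt F → F} (hW : IsLin W) {s s' P : Pt F} {l : Ln F}
    (hs : On s l) (hs' : On s' l) (hP : On P l) (hWP : W P = 0) :
    (h0 s' * h1 P - h1 s' * h0 P) * W s = (h0 s * h1 P - h1 s * h0 P) * W s' := by
  obtain ⟨a, b, c, h⟩ := hW
  rw [on_iff_h] at hs hs' hP
  rw [h] at hWP
  rw [hP] at hWP
  rw [h, h, hs, hs']
  linear_combination (h0 s' * h1 s - h1 s' * h0 s) * hWP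

theorem IsLin.ratio {W Z : Pt F → F} (hW : IsLin W) (hZ : IsLin Z) {s s' P : Pt F} {l : Ln F}
    (hs : On s l) (hs' : On s' l) (hP : On P l) (hWP : W P = 0) (hZP : Z P = 0)
    (h : s.1 ≠ P.1) (h' : s'.1 ≠ P.1) : W s * Z s' = W s' * Z s := by
  have e1 := hW.rel hs hs' hP hWP
  have e2 := hZ.rel hs hs' hP hZP
  have n1 := posd_ne h
  have n2 := posd_ne h'
  have : (h0 s * h1 P - h1 s * h0 P) * (h0 s' * h1 P - h1 s' * h0 P) * (W s * Z s')
      = (h0 s * h1 P - h1 s * h0 P) * (h0 s' * h1 P - h1 s' * h0 P) * (W s' * Z s) := by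
    linear_combination (h0 s * h1 P - h1 s * h0 P) * Z s' * e1 -
      (h0 s * h1 P - h1 s * h0 P) * W s' * e2
  exact mul_left_cancel₀ (mul_ne_zero n1 n2) this

theorem coords {P1 P2 P3 P4 : Pt F} {l0 : Ln F} (h12 : P1 ≠ P2) (h13 : P1 ≠ P3) (h23 : P2 ≠ P3)
    (o1 : On P1 l0) (o2 : On P2 l0) (o3 : On P3 l0) (o4 : ¬ On P4 l0) :
    ∃ x y : Pt F → F,
      (∀ s s', ¬ On s l0 → ¬ On s' l0 → x s = x s' → y s = y s' → s = s') ∧
      (∀ s s' l, ¬ On s l0 → ¬ On s' l0 → On s l → On s' l → On P1 l → y s = y s') ∧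
      (∀ s s' l, ¬ On s l0 → ¬ On s' l0 → On s l → On s' l → On P2 l → x s = x s') ∧
      (∀ s s' l, ¬ On s l0 → ¬ On s' l0 → On s l → On s' l → On P3 l → x s + y s = x s' + y s') ∧
      (∀ s s' l, ¬ On s l0 → ¬ On s' l0 → s.1 ≠ P4.1 → s'.1 ≠ P4.1 → On s l → On s' l → On P4 l →
        x s ≠ 0 → x s' ≠ 0 → y s / x s = y s' / x s') ∧
      (∀ s, ¬ On s l0 → s.1 ≠ P2.1 → x s = 0 → On s (thru P2 P4)) ∧
      (∀ s, ¬ On s l0 → s.1 ≠ P1.1 → y s = 0 → On s (thru P1 P4)) := by
  have p12 := pos_ne_of_on o1 o2 h12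
  have p13 := pos_ne_of_on o1 o3 h13
  have p23 := pos_ne_of_on o2 o3 h23
  have h14 : P1 ≠ P4 := fun h => o4 (h ▸ o1)
  have h24 : P2 ≠ P4 := fun h => o4 (h ▸ o2)
  set Zf : Pt F → F := fun s => det P1 P2 s with hZf
  set Xf : Pt F → F := fun s => det s P2 P4 * det P1 P3 P4 with hXf
  set Yf : Pt F → F := fun s => - det P1 s P4 * det P3 P2 P4 with hYf
  have d134 : det P1 P3 P4 ≠ 0 := det_ne h13 o1 o3 o4
  have d324 : det P3 P2 P4 ≠ 0 := det_ne (Ne.symm h23) o3 o2 o4
  have d124 : det P1 P2 P4 ≠ 0 := det_ne h12 o1 o2 o4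
  have linZ : IsLin Zf := by
    refine ⟨h1 P1 * h2 P2 - h2 P1 * h1 P2, h2 P1 * h0 P2 - h0 P1 * h2 P2,
      h0 P1 * h1 P2 - h1 P1 * h0 P2, fun z => ?_⟩
    simp only [hZf, det]; ring
  have linX : IsLin Xf := by
    refine ⟨(h1 P2 * h2 P4 - h2 P2 * h1 P4) * det P1 P3 P4,
      - (h0 P2 * h2 P4 - h2 P2 * h0 P4) * det P1 P3 P4,
      (h0 P2 * h1 P4 - h1 P2 * h0 P4) * det P1 P3 P4, fun z => ?_⟩
    simp only [hXf]
    rw [show det z P2 P4 = h0 z * (h1 P2 * h2 P4 - h2 P2 * h1 P4) - h1 z * (h0 P2 * h2 P4 - h2 P2 * h0 P4)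
      + h2 z * (h0 P2 * h1 P4 - h1 P2 * h0 P4) from rfl]
    ring
  have linY : IsLin Yf := by
    refine ⟨-(h2 P1 * h1 P4 - h1 P1 * h2 P4) * det P3 P2 P4,
      - (h0 P1 * h2 P4 - h2 P1 * h0 P4) * det P3 P2 P4,
      - (h1 P1 * h0 P4 - h0 P1 * h1 P4) * det P3 P2 P4, fun z => ?_⟩
    simp only [hYf]
    rw [show det P1 z P4 = h0 P1 * (h1 z * h2 P4 - h2 z * h1 P4) - h1 P1 * (h0 z * h2 P4 - h2 z * h0 P4)
      + h2 P1 * (h0 z * h1 P4 - h1 z * h0 P4) from rfl]
    ring
  have Z1 : Zf P1 = 0 := by simp only [hZf, det]; ring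
  have Z2 : Zf P2 = 0 := by simp only [hZf, det]; ring
  have Z3 : Zf P3 = 0 := by
    simp only [hZf]
    rw [det_of_on o1 o2]
    rw [on_iff_h] at o3
    rw [o3]; ring
  have X2 : Xf P2 = 0 := by
    have : det P2 P2 P4 = 0 := by simp only [det]; ring
    simp only [hXf, this, zero_mul]
  have X4 : Xf P4 = 0 := by
    have : det P4 P2 P4 = 0 := by simp only [det]; ring
    simp only [hXf, this, zero_mul]
  have Y1 : Yf P1 = 0 := by
    have : det P1 P1 P4 = 0 := by simp only [det]; ring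
    simp only [hYf, this, zero_mul, neg_zero]
  have Y4 : Yf P4 = 0 := by
    have : det P1 P4 P4 = 0 := by simp only [det]; ring
    simp only [hYf, this, zero_mul, neg_zero]
  have XY3 : Xf P3 + Yf P3 = 0 := by simp only [hXf, hYf]; ring
  have Zne : ∀ s, ¬ On s l0 → Zf s ≠ 0 := fun s hs => det_ne h12 o1 o2 hs
  have posne : ∀ s P l, ¬ On s l0 → On P l0 → On s l → On P l → s.1 ≠ P.1 := by
    intro s P l hs hP hsl hPl
    exact pos_ne_of_on hsl hPl (fun h => hs (h ▸ hP))
  refine ⟨fun s => Xf s / Zf s, fun s => Yf s / Zf s, ?_, ?_, ?_, ?_, ?_, ?_, ?_⟩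
  · intro s s' hs hs' hx hy
    have z1 := Zne s hs
    have z2 := Zne s' hs'
    simp only at hx hy
    rw [div_eq_div_iff z1 z2] at hx hy
    -- cancel the constants
    have hx' : det s P2 P4 * Zf s' = det s' P2 P4 * Zf s := by
      apply mul_left_cancel₀ d134
      simp only [hXf] at hx
      linear_combination hx
    have hy' : det P1 s P4 * Zf s' = det P1 s' P4 * Zf s := by
      apply mul_left_cancel₀ d324
      simp only [hYf] at hy
      linear_combination - hy
    -- Cramer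
    have c0 : ∀ z : Pt F, det P1 P2 P4 * h0 z
        = det z P2 P4 * h0 P1 + det P1 z P4 * h0 P2 + Zf z * h0 P4 := by
      intro z; simp only [det, hZf]; ring
    have c1 : ∀ z : Pt F, det P1 P2 P4 * h1 z
        = det z P2 P4 * h1 P1 + det P1 z P4 * h1 P2 + Zf z * h1 P4 := by
      intro z; simp only [det, hZf]; ring
    have c2 : ∀ z : Pt F, det P1 P2 P4 * h2 z
        = det z P2 P4 * h2 P1 + det P1 z P4 * h2 P2 + Zf z * h2 P4 := by
      intro z; simp only [det, hZf]; ring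
    have e0 : h0 s * Zf s' = h0 s' * Zf s := by
      apply mul_left_cancel₀ d124
      linear_combination Zf s' * c0 s - Zf s * c0 s' + h0 P1 * hx' + h0 P2 * hy'
    have e1 : h1 s * Zf s' = h1 s' * Zf s := by
      apply mul_left_cancel₀ d124
      linear_combination Zf s' * c1 s - Zf s * c1 s' + h1 P1 * hx' + h1 P2 * hy'
    have e2 : h2 s * Zf s' = h2 s' * Zf s := by
      apply mul_left_cancel₀ d124
      linear_combination Zf s' * c2 s - Zf s * c2 s' + h2 P1 * hx' + h2 P2 * hy'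
    clear_value Zf Xf Yf
    obtain ⟨_ | a, b⟩ := s <;> obtain ⟨_ | a', b'⟩ := s'
    · simp only [h0, h1, h2, one_mul] at e0 e1 e2
      rw [e1] at e2
      rw [mul_right_cancel₀ z1 e2]
    · simp only [h0, h1, h2, one_mul, zero_mul] at e0 e1 e2
      exact absurd e0.symm z1
    · simp only [h0, h1, h2, one_mul, zero_mul] at e0 e1 e2
      exact absurd e0 z2
    · simp only [h0, h1, h2, one_mul] at e0 e1 e2
      rw [e0] at e1 e2
      rw [mul_right_cancel₀ z1 e1, mul_right_cancel₀ z1 e2]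
  · intro s s' l hs hs' hl hl' hP
    have := linY.ratio linZ hl hl' hP Y1 Z1 (posne s P1 l hs o1 hl hP) (posne s' P1 l hs' o1 hl' hP)
    simp only
    rw [div_eq_div_iff (Zne s hs) (Zne s' hs'), this]
  · intro s s' l hs hs' hl hl' hP
    have := linX.ratio linZ hl hl' hP X2 Z2 (posne s P2 l hs o2 hl hP) (posne s' P2 l hs' o2 hl' hP)
    simp only
    rw [div_eq_div_iff (Zne s hs) (Zne s' hs'), this]
  · intro s s' l hs hs' hl hl' hP
    have := (linX.add linY).ratio linZ hl hl' hP XY3 Z3 (posne s P3 l hs o3 hl hP)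
      (posne s' P3 l hs' o3 hl' hP)
    simp only
    rw [← add_div, ← add_div, div_eq_div_iff (Zne s hs) (Zne s' hs'), this]
  · intro s s' l hs hs' n n' hl hl' hP hx hx'
    have := linY.ratio linX hl hl' hP Y4 X4 n n'
    simp only at hx hx' ⊢
    have z1 := Zne s hs
    have z2 := Zne s' hs'
    have x1 : Xf s ≠ 0 := fun h => hx (by rw [h, zero_div])
    have x2 : Xf s' ≠ 0 := fun h => hx' (by rw [h, zero_div])
    rw [div_div_div_cancel_right₀ z1, div_div_div_cancel_right₀ z2, div_eq_div_iff x1 x2, this]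
  · intro s hs hn hx
    simp only at hx
    have hd : det s P2 P4 = 0 := by
      rcases div_eq_zero_iff.mp hx with h | h
      · rcases mul_eq_zero.mp h with h | h
        · exact h
        · exact absurd h d134
      · exact absurd h (Zne s hs)
    have hon : On P4 (thru s P2) :=
      on_of_det (fun h => hn (by rw [h])) (on_thru_left hn) (on_thru_right hn) hd
    have p24 := pos_ne_of_on (on_thru_right hn) hon h24
    rw [← eq_thru p24 (on_thru_right hn) hon]
    exact on_thru_left hn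
  · intro s hs hn hy
    simp only at hy
    have hd : det P1 s P4 = 0 := by
      rcases div_eq_zero_iff.mp hy with h | h
      · rcases mul_eq_zero.mp h with h | h
        · exact neg_eq_zero.mp h
        · exact absurd h d324
      · exact absurd h (Zne s hs)
    have hon : On P4 (thru P1 s) :=
      on_of_det (fun h => hn (by rw [h])) (on_thru_left hn.symm) (on_thru_right hn.symm) hd
    have p14 := pos_ne_of_on (on_thru_left hn.symm) hon h14
    rw [← eq_thru p14 (on_thru_left hn.symm) hon]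
    exact on_thru_right hn.symm

end Crest.Agent.R034.BKT
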