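import Crest.Agent.R034.Plane

/-! Incidence part of the BKT module of row 34: selection of four base points. -/

set_option autoImplicit false
set_option maxHeartbeats 1000000

namespace Crest.Agent.R034.BKT

open Finset Crest.Agent.R034
open scoped Classical in
theorem pigeon {α β : Type*} (T : Finset α) (Q : Finset β) (r : α → β → Prop)
    (M δ : ℝ) (hM : (#Q : ℝ) ≤ M) (hT : T.Nonempty) (hδ0 : 0 < δ)
    (hδ : ∀ t ∈ T, δ ≤ #{p ∈ Q | r t p}) :
    ∃ p ∈ Q, (#T : ℝ) * δ ≤ M * #{t ∈ T | r t p} := by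
  by_contra hcon
  push Not at hcon
  have h2 : (∑ t ∈ T, #{p ∈ Q | r t p}) = ∑ p ∈ Q, #{t ∈ T | r t p} :=
    sum_card_bipartiteAbove_eq_sum_card_bipartiteBelow r
  have h2' : ∑ t ∈ T, (#{p ∈ Q | r t p} : ℝ) = ∑ p ∈ Q, (#{t ∈ T | r t p} : ℝ) := by
    exact_mod_cast h2
  have h1 : (#T : ℝ) * δ ≤ ∑ t ∈ T, (#{p ∈ Q | r t p} : ℝ) := by
    rw [← nsmul_eq_mul, ← sum_const]
    exact sum_le_sum hδ
  have hTpos : (0 : ℝ) < #T := by exact_mod_cast hT.card_pos
  have hpos : 0 < (#T : ℝ) * δ := mul_pos hTpos hδ0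
  have hQ : Q.Nonempty := by
    obtain ⟨t, ht⟩ := hT
    have := lt_of_lt_of_le hδ0 (hδ t ht)
    have h3 : 0 < #{p ∈ Q | r t p} := by exact_mod_cast this
    exact (card_pos.mp h3).mono (filter_subset _ _)
  have hM0 : 0 < M := lt_of_lt_of_le (by exact_mod_cast hQ.card_pos) hM
  have h3 : ∑ p ∈ Q, M * (#{t ∈ T | r t p} : ℝ) < ∑ p ∈ Q, (#T : ℝ) * δ :=
    sum_lt_sum_of_nonempty hQ hcon
  rw [← mul_sum, ← h2', sum_const, nsmul_eq_mul] at h3
  have h4 : (#Q : ℝ) * (#T * δ) ≤ M * (#T * δ) := mul_le_mul_of_nonneg_right hM hpos.le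
  have h5 : M * (#T * δ) ≤ M * ∑ t ∈ T, (#{p ∈ Q | r t p} : ℝ) :=
    mul_le_mul_of_nonneg_left h1 hM0.le
  linarith

theorem card_image_le_of_factor {α β γ : Type*} [DecidableEq β] [DecidableEq γ]
    (G : Finset α) (f : α → β) (g : α → γ)
    (h : ∀ s ∈ G, ∀ s' ∈ G, g s = g s' → f s = f s') : #(G.image f) ≤ #(G.image g) := by
  classical
  rcases G.eq_empty_or_nonempty with rfl | ⟨s0, _⟩
  · simp
  have : Nonempty α := ⟨s0⟩
  have hex : ∀ v ∈ G.image f, ∃ s, s ∈ G ∧ f s = v := by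
    intro v hv
    obtain ⟨s, hs, h⟩ := mem_image.mp hv
    exact ⟨s, hs, h⟩
  choose! k hk1 hk2 using hex
  apply card_le_card_of_injOn (fun v => g (k v))
  · intro v hv
    exact mem_coe.mpr (mem_image_of_mem _ (hk1 v (mem_coe.mp hv)))
  · intro v hv v' hv' hvv'
    have := h _ (hk1 v (mem_coe.mp hv)) _ (hk1 v' (mem_coe.mp hv')) hvv'
    rw [hk2 v (mem_coe.mp hv), hk2 v' (mem_coe.mp hv')] at this
    exact this

variable {F : Type} [Field F] [Fintype F] [DecidableEq F]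

open scoped Classical in
/-- the rich lines -/
noncomputable def rich (S : Finset (Pt F)) (n Λ : ℝ) : Finset (Ln F) :=
  univ.filter (fun l => n ≤ Λ * #(S.filter (fun z => On z l)))

/-- adjacency: on a common rich line -/
def adj (S : Finset (Pt F)) (n Λ : ℝ) (s t : Pt F) : Prop := s.1 ≠ t.1 ∧ thru s t ∈ rich S n Λ

theorem mem_rich {S : Finset (Pt F)} {n Λ : ℝ} {l : Ln F} :
    l ∈ rich S n Λ ↔ n ≤ Λ * #(S.filter (fun z => On z l)) := by
  simp [rich]

theorem adj_comm {S : Finset (Pt F)} {n Λ : ℝ} {s t : Pt F} :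
    adj S n Λ s t ↔ adj S n Λ t s := by
  unfold adj
  constructor
  · rintro ⟨h, h'⟩
    exact ⟨h.symm, by rwa [thru_comm h] at h'⟩
  · rintro ⟨h, h'⟩
    exact ⟨h.symm, by rwa [thru_comm h] at h'⟩

theorem rich_through (S : Finset (Pt F)) (n Λ : ℝ) (hΛ : 2 ≤ Λ) (hn : 2 * Λ ≤ n)
    (hS : (#S : ℝ) ≤ n ^ 2) (P : Pt F) :
    (#((rich S n Λ).filter (fun l => On P l)) : ℝ) ≤ 2 * Λ * n := by
  have hn0 : 0 < n := by linarith
  set RP := (rich S n Λ).filter (fun l => On P l) with hRP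
  have hdisj : (RP : Set (Ln F)).PairwiseDisjoint
      (fun l => (S.filter (fun z => On z l)).erase P) := by
    intro l hl l' hl' hne
    rw [Function.onFun, disjoint_left]
    intro z hz hz'
    rw [mem_erase, mem_filter] at hz hz'
    rw [hRP, mem_coe, mem_filter] at hl hl'
    exact hne (eq_of_on (pos_ne_of_on hz.2.2 hl.2 hz.1) hz.2.2 hz'.2.2 hl.2 hl'.2)
  have h1 : ∑ l ∈ RP, #((S.filter (fun z => On z l)).erase P) ≤ #S := by
    rw [← card_biUnion hdisj]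
    exact card_le_card (biUnion_subset.mpr fun l _ => (erase_subset _ _).trans (filter_subset _ _))
  have h2 : ∀ l ∈ RP, n / (2 * Λ) ≤ (#((S.filter (fun z => On z l)).erase P) : ℝ) := by
    intro l hl
    rw [hRP, mem_filter, mem_rich] at hl
    have h3 : #(S.filter (fun z => On z l)) ≤ #((S.filter (fun z => On z l)).erase P) + 1 :=
      Nat.le_add_of_sub_le pred_card_le_card_erase
    have h3' : (#(S.filter (fun z => On z l)) : ℝ) ≤
        #((S.filter (fun z => On z l)).erase P) + 1 := by exact_mod_cast h3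
    rw [div_le_iff₀ (by linarith)]
    nlinarith [hl.1]
  have h4 : (#RP : ℝ) * (n / (2 * Λ)) ≤ n ^ 2 := by
    calc (#RP : ℝ) * (n / (2 * Λ)) = ∑ l ∈ RP, n / (2 * Λ) := by rw [sum_const, nsmul_eq_mul]
      _ ≤ ∑ l ∈ RP, (#((S.filter (fun z => On z l)).erase P) : ℝ) := sum_le_sum h2
      _ ≤ #S := by exact_mod_cast h1
      _ ≤ n ^ 2 := hS
  rw [mul_div_assoc', div_le_iff₀ (by linarith)] at h4
  have h5 : (#RP : ℝ) * n ≤ (2 * Λ * n) * n := by nlinarith
  exact le_of_mul_le_mul_right h5 hn0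

theorem rich_card (S : Finset (Pt F)) (n Λ : ℝ) (hΛ : 2 ≤ Λ) (hn : 2 * Λ ≤ n)
    (hS : (#S : ℝ) ≤ n ^ 2) : (#(rich S n Λ) : ℝ) ≤ 2 * Λ ^ 2 * n ^ 2 := by
  have hn0 : 0 < n := by linarith
  have h1 : (∑ l ∈ rich S n Λ, #(S.filter (fun z => On z l)))
      = ∑ P ∈ S, #((rich S n Λ).filter (fun l => On P l)) :=
    sum_card_bipartiteAbove_eq_sum_card_bipartiteBelow (fun (l : Ln F) (z : Pt F) => On z l)
  have h1' : ∑ l ∈ rich S n Λ, (#(S.filter (fun z => On z l)) : ℝ)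
      = ∑ P ∈ S, (#((rich S n Λ).filter (fun l => On P l)) : ℝ) := by exact_mod_cast h1
  have h2 : (#(rich S n Λ) : ℝ) * n ≤ Λ * (2 * Λ * n * n ^ 2) := by
    calc (#(rich S n Λ) : ℝ) * n = ∑ l ∈ rich S n Λ, n := by rw [sum_const, nsmul_eq_mul]
      _ ≤ ∑ l ∈ rich S n Λ, Λ * (#(S.filter (fun z => On z l)) : ℝ) :=
          sum_le_sum fun l hl => mem_rich.mp hl
      _ = Λ * ∑ P ∈ S, (#((rich S n Λ).filter (fun l => On P l)) : ℝ) := by
          rw [← mul_sum, h1']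
      _ ≤ Λ * ∑ P ∈ S, (2 * Λ * n) := by
          apply mul_le_mul_of_nonneg_left _ (by linarith)
          exact sum_le_sum fun P _ => rich_through S n Λ hΛ hn hS P
      _ = Λ * (#S * (2 * Λ * n)) := by rw [sum_const, nsmul_eq_mul]
      _ ≤ Λ * (n ^ 2 * (2 * Λ * n)) := by
          apply mul_le_mul_of_nonneg_left _ (by linarith)
          apply mul_le_mul_of_nonneg_right hS
          positivity
      _ = Λ * (2 * Λ * n * n ^ 2) := by ring
  have h3 : (#(rich S n Λ) : ℝ) * n ≤ (2 * Λ ^ 2 * n ^ 2) * n := by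
    calc _ ≤ _ := h2
      _ = _ := by ring
  exact le_of_mul_le_mul_right h3 hn0

open scoped Classical in
theorem deg_le (S : Finset (Pt F)) (n Λ : ℝ)
    (hl : ∀ l : Ln F, (#(S.filter (fun z => On z l)) : ℝ) ≤ Λ * n)
    (S1 : Finset (Pt F)) (hS1 : S1 ⊆ S) (P : Pt F) :
    (#(S1.filter (fun s => adj S n Λ s P)) : ℝ) ≤
      #((rich S n Λ).filter (fun l => On P l)) * (Λ * n) := by
  have h1 : S1.filter (fun s => adj S n Λ s P) ⊆
      ((rich S n Λ).filter (fun l => On P l)).biUnion (fun l => S.filter (fun z => On z l)) := by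
    intro s hs
    rw [mem_filter] at hs
    rw [mem_biUnion]
    refine ⟨thru s P, mem_filter.mpr ⟨hs.2.2, on_thru_right hs.2.1⟩, ?_⟩
    exact mem_filter.mpr ⟨hS1 hs.1, on_thru_left hs.2.1⟩
  have h2 : #(S1.filter (fun s => adj S n Λ s P)) ≤
      ∑ l ∈ (rich S n Λ).filter (fun l => On P l), #(S.filter (fun z => On z l)) :=
    (card_le_card h1).trans card_biUnion_le
  have h2' : (#(S1.filter (fun s => adj S n Λ s P)) : ℝ) ≤
      ∑ l ∈ (rich S n Λ).filter (fun l => On P l), (#(S.filter (fun z => On z l)) : ℝ) := by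
    exact_mod_cast h2
  calc _ ≤ _ := h2'
    _ ≤ ∑ l ∈ (rich S n Λ).filter (fun l => On P l), Λ * n := sum_le_sum fun l _ => hl l
    _ = _ := by rw [sum_const, nsmul_eq_mul]

open scoped Classical in
theorem select (S : Finset (Pt F)) (n Λ : ℝ) (hΛ : 2 ≤ Λ) (hn : Λ ^ 20 ≤ n)
    (hS : (#S : ℝ) ≤ n ^ 2) (hl : ∀ l : Ln F, (#(S.filter (fun z => On z l)) : ℝ) ≤ Λ * n)
    (hE : n ^ 4 ≤ Λ * #((S ×ˢ S).filter (fun p => adj S n Λ p.1 p.2))) :
    ∃ (l0 : Ln F) (P1 P2 P3 P4 : Pt F) (G : Finset (Pt F)), P1 ≠ P2 ∧ P1 ≠ P3 ∧ P2 ≠ P3 ∧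
      On P1 l0 ∧ On P2 l0 ∧ On P3 l0 ∧ ¬ On P4 l0 ∧
      (∀ s ∈ G, s ∈ S ∧ ¬ On s l0 ∧ adj S n Λ s P1 ∧ adj S n Λ s P2 ∧ adj S n Λ s P3 ∧
        adj S n Λ s P4) ∧ n ^ 2 ≤ Λ ^ 49 * #G := by
  have hΛ0 : 0 < Λ := by linarith
  have hΛ1 : 1 ≤ Λ := by linarith
  have h2pow : ∀ k : ℕ, (2 : ℝ) ^ k ≤ Λ ^ k := fun k => pow_le_pow_left₀ (by norm_num) hΛ k
  have hpown : ∀ k : ℕ, k ≤ 20 → Λ ^ k ≤ n := fun k hk => (pow_le_pow_right₀ hΛ1 hk).trans hn
  have hn0 : 0 < n := lt_of_lt_of_le (by positivity) hn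
  have hn2Λ : 2 * Λ ≤ n := by
    have := hpown 2 (by norm_num)
    nlinarith
  set deg : Pt F → ℝ := fun s => (#(S.filter (fun t => adj S n Λ s t)) : ℝ) with hdeg
  set S1 := S.filter (fun s => n ^ 2 / (2 * Λ) ≤ deg s) with hS1
  have hS1S : S1 ⊆ S := filter_subset _ _
  -- total degree
  have hdegsum : (#((S ×ˢ S).filter (fun p => adj S n Λ p.1 p.2)) : ℝ) = ∑ s ∈ S, deg s := by
    have : #((S ×ˢ S).filter (fun p => adj S n Λ p.1 p.2)) =
        ∑ s ∈ S, #(S.filter (fun t => adj S n Λ s t)) := by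
      rw [card_filter, sum_product]
      refine sum_congr rfl fun x _ => ?_
      rw [card_filter]
    rw [this, Nat.cast_sum]
  rw [hdegsum] at hE
  have hS1deg : n ^ 4 / (2 * Λ) ≤ ∑ s ∈ S1, deg s := by
    have hsplit : ∑ s ∈ S, deg s = ∑ s ∈ S1, deg s +
        ∑ s ∈ S.filter (fun s => ¬ (n ^ 2 / (2 * Λ) ≤ deg s)), deg s := by
      rw [hS1, sum_filter_add_sum_filter_not]
    have hrest : ∑ s ∈ S.filter (fun s => ¬ (n ^ 2 / (2 * Λ) ≤ deg s)), deg s
        ≤ n ^ 2 * (n ^ 2 / (2 * Λ)) := by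
      calc _ ≤ ∑ s ∈ S.filter (fun s => ¬ (n ^ 2 / (2 * Λ) ≤ deg s)), n ^ 2 / (2 * Λ) := by
            refine sum_le_sum fun x hx => ?_
            rw [mem_filter] at hx
            linarith [hx.2]
        _ = (#(S.filter (fun s => ¬ (n ^ 2 / (2 * Λ) ≤ deg s))) : ℝ) * (n ^ 2 / (2 * Λ)) := by
            rw [sum_const, nsmul_eq_mul]
        _ ≤ n ^ 2 * (n ^ 2 / (2 * Λ)) := by
            apply mul_le_mul_of_nonneg_right _ (by positivity)
            refine le_trans ?_ hS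
            exact_mod_cast card_le_card (filter_subset _ _)
    have h3 : n ^ 4 / Λ ≤ ∑ s ∈ S, deg s := by rw [div_le_iff₀ hΛ0]; linarith
    have h4 : n ^ 4 / Λ = n ^ 4 / (2 * Λ) + n ^ 2 * (n ^ 2 / (2 * Λ)) := by field_simp; ring
    linarith
  set deg1 : Pt F → ℝ := fun P => (#(S1.filter (fun s => adj S n Λ s P)) : ℝ) with hdeg1
  have hdeg1sum : ∑ P ∈ S, deg1 P = ∑ s ∈ S1, deg s := by
    have h1 : (∑ s ∈ S1, #(S.filter (fun t => adj S n Λ s t)))
        = ∑ P ∈ S, #(S1.filter (fun s => adj S n Λ s P)) :=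
      sum_card_bipartiteAbove_eq_sum_card_bipartiteBelow (fun s t => adj S n Λ s t)
    have h2 := congrArg (Nat.cast : ℕ → ℝ) h1
    rw [Nat.cast_sum, Nat.cast_sum] at h2
    exact h2.symm
  set rr : Pt F → ℝ := fun P => (#((rich S n Λ).filter (fun l => On P l)) : ℝ) with hrr
  have hdeg1le : ∀ P, deg1 P ≤ rr P * (Λ * n) := fun P => deg_le S n Λ hl S1 hS1S P
  have hdeg1nn : ∀ P, 0 ≤ deg1 P := fun P => by positivity
  have hCS : (∑ P ∈ S, deg1 P) ^ 2 ≤ #S * ∑ P ∈ S, deg1 P ^ 2 := sq_sum_le_card_mul_sum_sq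
  have hsq : n ^ 6 / (4 * Λ ^ 2) ≤ ∑ P ∈ S, deg1 P ^ 2 := by
    have h1 : (n ^ 4 / (2 * Λ)) ^ 2 ≤ (∑ P ∈ S, deg1 P) ^ 2 := by
      apply pow_le_pow_left₀ (by positivity)
      rw [hdeg1sum]; exact hS1deg
    have h2 : (n ^ 4 / (2 * Λ)) ^ 2 ≤ n ^ 2 * ∑ P ∈ S, deg1 P ^ 2 := by
      refine (h1.trans hCS).trans (mul_le_mul_of_nonneg_right hS ?_)
      exact sum_nonneg fun P _ => by positivity
    have h3 : n ^ 2 * (n ^ 6 / (4 * Λ ^ 2)) ≤ n ^ 2 * ∑ P ∈ S, deg1 P ^ 2 := by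
      calc n ^ 2 * (n ^ 6 / (4 * Λ ^ 2)) = (n ^ 4 / (2 * Λ)) ^ 2 := by field_simp; ring
        _ ≤ _ := h2
    exact le_of_mul_le_mul_left h3 (by positivity)
  have hsum5 : n ^ 5 / (4 * Λ ^ 3) ≤ ∑ P ∈ S, rr P * deg1 P := by
    have h1 : ∑ P ∈ S, deg1 P ^ 2 ≤ (Λ * n) * ∑ P ∈ S, rr P * deg1 P := by
      rw [mul_sum]
      refine sum_le_sum fun P _ => ?_
      have := mul_le_mul_of_nonneg_right (hdeg1le P) (hdeg1nn P)
      nlinarith
    have h2 : (Λ * n) * (n ^ 5 / (4 * Λ ^ 3)) ≤ (Λ * n) * ∑ P ∈ S, rr P * deg1 P := by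
      calc (Λ * n) * (n ^ 5 / (4 * Λ ^ 3)) = n ^ 6 / (4 * Λ ^ 2) := by field_simp
        _ ≤ _ := hsq.trans h1
    exact le_of_mul_le_mul_left h2 (by positivity)
  -- choose the line `l0`
  set ff : Ln F → ℝ := fun l => ∑ P ∈ S.filter (fun z => On z l), deg1 P with hff
  have hffsum : ∑ l ∈ rich S n Λ, ff l = ∑ P ∈ S, rr P * deg1 P := by
    simp only [hff, hrr]
    have : ∀ l, ∑ P ∈ S.filter (fun z => On z l), deg1 P
        = ∑ P ∈ S, if On P l then deg1 P else 0 := fun l => by rw [sum_filter]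
    simp_rw [this]
    rw [sum_comm]
    refine sum_congr rfl fun P _ => ?_
    rw [← sum_filter, sum_const, nsmul_eq_mul]
  obtain ⟨l0, hl0, hffl0⟩ : ∃ l0 ∈ rich S n Λ, n ^ 5 / (4 * Λ ^ 3) ≤ 2 * Λ ^ 2 * n ^ 2 * ff l0 := by
    by_contra hcon
    push Not at hcon
    have hpos : 0 < n ^ 5 / (4 * Λ ^ 3) := by positivity
    have hne : (rich S n Λ).Nonempty := by
      rw [nonempty_iff_ne_empty]
      intro h
      rw [← hffsum, h, sum_empty] at hsum5
      linarith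
    have h1 : ∑ l ∈ rich S n Λ, 2 * Λ ^ 2 * n ^ 2 * ff l <
        ∑ l ∈ rich S n Λ, n ^ 5 / (4 * Λ ^ 3) := sum_lt_sum_of_nonempty hne hcon
    rw [← mul_sum, hffsum, sum_const, nsmul_eq_mul] at h1
    have h2 : (#(rich S n Λ) : ℝ) * (n ^ 5 / (4 * Λ ^ 3)) ≤
        2 * Λ ^ 2 * n ^ 2 * (n ^ 5 / (4 * Λ ^ 3)) :=
      mul_le_mul_of_nonneg_right (rich_card S n Λ hΛ hn2Λ hS) hpos.le
    have h3 : 2 * Λ ^ 2 * n ^ 2 * (n ^ 5 / (4 * Λ ^ 3)) ≤
        2 * Λ ^ 2 * n ^ 2 * ∑ P ∈ S, rr P * deg1 P :=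
      mul_le_mul_of_nonneg_left hsum5 (by positivity)
    linarith
  set Q1 := S.filter (fun z => On z l0) with hQ1
  have hQ1c : (#Q1 : ℝ) ≤ Λ * n := hl l0
  set dd : Pt F → ℝ := fun s => (#(Q1.filter (fun P => adj S n Λ s P)) : ℝ) with hdd
  have hddle : ∀ s, dd s ≤ Λ * n := by
    intro s
    refine le_trans ?_ hQ1c
    simp only [hdd]
    exact_mod_cast card_le_card (filter_subset _ _)
  have hffdd : ff l0 = ∑ s ∈ S1, dd s := by
    have h1 : (∑ s ∈ S1, #(Q1.filter (fun t => adj S n Λ s t)))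
        = ∑ P ∈ Q1, #(S1.filter (fun s => adj S n Λ s P)) :=
      sum_card_bipartiteAbove_eq_sum_card_bipartiteBelow (fun s t => adj S n Λ s t)
    have h2 := congrArg (Nat.cast : ℕ → ℝ) h1
    rw [Nat.cast_sum, Nat.cast_sum] at h2
    exact h2.symm
  have hff0 : n ^ 3 / (8 * Λ ^ 5) ≤ ∑ s ∈ S1, dd s := by
    rw [← hffdd]
    have h2 : (2 * Λ ^ 2 * n ^ 2) * (n ^ 3 / (8 * Λ ^ 5)) ≤ (2 * Λ ^ 2 * n ^ 2) * ff l0 := by
      calc (2 * Λ ^ 2 * n ^ 2) * (n ^ 3 / (8 * Λ ^ 5)) = n ^ 5 / (4 * Λ ^ 3) := by field_simp; ring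
        _ ≤ _ := hffl0
    exact le_of_mul_le_mul_left h2 (by positivity)
  -- the set `T0`
  set T0 := S1.filter (fun s => ¬ On s l0 ∧ n / Λ ^ 10 ≤ dd s) with hT0
  have hT0S1 : T0 ⊆ S1 := filter_subset _ _
  have hT0c : n ^ 2 ≤ Λ ^ 10 * #T0 := by
    have h1 : ∑ s ∈ S1, dd s ≤ #T0 * (Λ * n) + (Λ * n) * (Λ * n) + n ^ 2 * (n / Λ ^ 10) := by
      have hb : ∀ s ∈ S1, dd s ≤ (if s ∈ T0 then Λ * n else 0) + (if On s l0 then Λ * n else 0)
          + n / Λ ^ 10 := by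
        intro s hs
        have hp1 : 0 ≤ n / Λ ^ 10 := by positivity
        have hp2 : 0 ≤ Λ * n := by positivity
        by_cases h1 : On s l0
        · rw [if_pos h1]
          have : (0 : ℝ) ≤ if s ∈ T0 then Λ * n else 0 := by split_ifs <;> positivity
          linarith [hddle s]
        · by_cases h2 : n / Λ ^ 10 ≤ dd s
          · rw [if_pos (mem_filter.mpr ⟨hs, h1, h2⟩), if_neg h1]
            linarith [hddle s]
          · push Not at h2
            have h3 : (0 : ℝ) ≤ if s ∈ T0 then Λ * n else 0 := by split_ifs <;> positivity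
            rw [if_neg h1]
            linarith
      calc ∑ s ∈ S1, dd s ≤ ∑ s ∈ S1, ((if s ∈ T0 then Λ * n else 0) +
            (if On s l0 then Λ * n else 0) + n / Λ ^ 10) := sum_le_sum hb
        _ = #(S1.filter (fun s => s ∈ T0)) * (Λ * n) + #(S1.filter (fun s => On s l0)) * (Λ * n)
            + #S1 * (n / Λ ^ 10) := by
            rw [sum_add_distrib, sum_add_distrib, ← sum_filter, ← sum_filter, sum_const, sum_const,
              sum_const, nsmul_eq_mul, nsmul_eq_mul, nsmul_eq_mul]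
        _ ≤ _ := by
            have e1 : (#(S1.filter (fun s => s ∈ T0)) : ℝ) ≤ #T0 := by
              have : S1.filter (fun s => s ∈ T0) ⊆ T0 := fun x hx => (mem_filter.mp hx).2
              exact_mod_cast card_le_card this
            have e2 : (#(S1.filter (fun s => On s l0)) : ℝ) ≤ Λ * n := by
              refine le_trans ?_ hQ1c
              exact_mod_cast card_le_card (filter_subset_filter _ hS1S)
            have e3 : (#S1 : ℝ) ≤ n ^ 2 := by
              refine le_trans ?_ hS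
              exact_mod_cast card_le_card hS1S
            have p1 : 0 ≤ Λ * n := by positivity
            have p2 : 0 ≤ n / Λ ^ 10 := by positivity
            have f1 := mul_le_mul_of_nonneg_right e1 p1
            have f2 := mul_le_mul_of_nonneg_right e2 p1
            have f3 := mul_le_mul_of_nonneg_right e3 p2
            linarith
    -- numeric: the last two terms are at most half of `n^3/(8Λ^5)`
    have h2 : n ^ 2 * (n / Λ ^ 10) ≤ n ^ 3 / (32 * Λ ^ 5) := by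
      have : n ^ 2 * (n / Λ ^ 10) = n ^ 3 / Λ ^ 10 := by ring
      rw [this]
      apply div_le_div_of_nonneg_left (by positivity) (by positivity)
      calc 32 * Λ ^ 5 = 2 ^ 5 * Λ ^ 5 := by norm_num
        _ ≤ Λ ^ 5 * Λ ^ 5 := mul_le_mul_of_nonneg_right (h2pow 5) (by positivity)
        _ = Λ ^ 10 := by ring
    have h3 : (Λ * n) * (Λ * n) ≤ n ^ 3 / (32 * Λ ^ 5) := by
      rw [le_div_iff₀ (by positivity)]
      calc Λ * n * (Λ * n) * (32 * Λ ^ 5) = 2 ^ 5 * (Λ ^ 7 * n ^ 2) := by ring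
        _ ≤ Λ ^ 5 * (Λ ^ 7 * n ^ 2) := mul_le_mul_of_nonneg_right (h2pow 5) (by positivity)
        _ = Λ ^ 12 * n ^ 2 := by ring
        _ ≤ n * n ^ 2 := mul_le_mul_of_nonneg_right (hpown 12 (by norm_num)) (by positivity)
        _ = n ^ 3 := by ring
    have h4 : n ^ 3 / (16 * Λ ^ 5) ≤ #T0 * (Λ * n) := by
      have e : n ^ 3 / (8 * Λ ^ 5) = n ^ 3 / (16 * Λ ^ 5) + n ^ 3 / (32 * Λ ^ 5)
          + n ^ 3 / (32 * Λ ^ 5) := by field_simp; ring
      linarith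
    rw [div_le_iff₀ (by positivity)] at h4
    have h5 : n * n ^ 2 ≤ n * (Λ ^ 10 * #T0) := by
      calc n * n ^ 2 = n ^ 3 := by ring
        _ ≤ #T0 * (Λ * n) * (16 * Λ ^ 5) := h4
        _ = 2 ^ 4 * (Λ ^ 6 * #T0 * n) := by ring
        _ ≤ Λ ^ 4 * (Λ ^ 6 * #T0 * n) := mul_le_mul_of_nonneg_right (h2pow 4) (by positivity)
        _ = _ := by ring
    exact le_of_mul_le_mul_left h5 hn0
  have hne_of : ∀ (T : Finset (Pt F)) (c : ℝ), 0 ≤ c → n ^ 2 ≤ c * #T → T.Nonempty := by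
    intro T c _ h
    rw [nonempty_iff_ne_empty]
    rintro rfl
    rw [card_empty, Nat.cast_zero, mul_zero] at h
    have : 0 < n ^ 2 := by positivity
    linarith
  have hδ : n / Λ ^ 11 ≤ n / Λ ^ 10 - 2 := by
    have h1 : Λ ^ 11 * 2 ≤ n := by
      calc Λ ^ 11 * 2 ≤ Λ ^ 11 * Λ := mul_le_mul_of_nonneg_left hΛ (by positivity)
        _ = Λ ^ 12 := by ring
        _ ≤ n := hpown 12 (by norm_num)
    have h2 : 2 ≤ n / Λ ^ 11 := by rw [le_div_iff₀ (by positivity)]; linarith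
    have h3 : n / Λ ^ 10 = Λ * (n / Λ ^ 11) := by field_simp
    rw [h3]
    nlinarith
  have hδ0 : 0 < n / Λ ^ 11 := by positivity
  -- P1
  obtain ⟨P1, hP1, hc1⟩ := pigeon T0 Q1 (fun s P => adj S n Λ s P) (Λ * n) (n / Λ ^ 11) hQ1c
    (hne_of T0 _ (by positivity) hT0c) hδ0 (by
      intro t ht
      have := (mem_filter.mp ht).2.2
      simp only [hdd] at this
      linarith)
  set T1 := T0.filter (fun s => adj S n Λ s P1) with hT1
  have step : ∀ (A B : ℝ), A * (n / Λ ^ 11) ≤ Λ * n * B → A ≤ Λ ^ 12 * B := by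
    intro A B h
    rw [mul_div_assoc', div_le_iff₀ (by positivity)] at h
    have h2 : A * n ≤ (Λ ^ 12 * B) * n := by
      calc A * n ≤ _ := h
        _ = _ := by ring
    exact le_of_mul_le_mul_right h2 hn0
  have hT1c : n ^ 2 ≤ Λ ^ 22 * #T1 := by
    calc n ^ 2 ≤ Λ ^ 10 * #T0 := hT0c
      _ ≤ Λ ^ 10 * (Λ ^ 12 * #T1) := mul_le_mul_of_nonneg_left (step _ _ hc1) (by positivity)
      _ = _ := by ring
  have hT1T0 : T1 ⊆ T0 := filter_subset _ _
  -- P2
  have herase : ∀ (Q : Finset (Pt F)) (P s : Pt F), (#(Q.filter (fun t => adj S n Λ s t)) : ℝ) - 1 ≤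
      #((Q.erase P).filter (fun t => adj S n Λ s t)) := by
    intro Q P s
    have h1 : (Q.erase P).filter (fun t => adj S n Λ s t) =
        (Q.filter (fun t => adj S n Λ s t)).erase P := by
      ext t; simp only [mem_filter, mem_erase]; tauto
    rw [h1]
    have h3 : #(Q.filter (fun t => adj S n Λ s t)) ≤
      #((Q.filter (fun t => adj S n Λ s t)).erase P) + 1 :=
      Nat.le_add_of_sub_le pred_card_le_card_erase
    have h3' : (#(Q.filter (fun t => adj S n Λ s t)) : ℝ) ≤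
        #((Q.filter (fun t => adj S n Λ s t)).erase P) + 1 := by exact_mod_cast h3
    linarith
  obtain ⟨P2, hP2, hc2⟩ := pigeon T1 (Q1.erase P1) (fun s P => adj S n Λ s P) (Λ * n) (n / Λ ^ 11)
    (le_trans (by exact_mod_cast card_le_card (erase_subset _ _)) hQ1c)
    (hne_of T1 _ (by positivity) hT1c) hδ0 (by
      intro t ht
      have h1 := (mem_filter.mp (hT1T0 ht)).2.2
      simp only [hdd] at h1
      have h2 := herase Q1 P1 t
      linarith)
  set T2 := T1.filter (fun s => adj S n Λ s P2) with hT2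
  have hT2T1 : T2 ⊆ T1 := filter_subset _ _
  have hT2c : n ^ 2 ≤ Λ ^ 34 * #T2 := by
    calc n ^ 2 ≤ Λ ^ 22 * #T1 := hT1c
      _ ≤ Λ ^ 22 * (Λ ^ 12 * #T2) := mul_le_mul_of_nonneg_left (step _ _ hc2) (by positivity)
      _ = _ := by ring
  -- P3
  obtain ⟨P3, hP3, hc3⟩ := pigeon T2 ((Q1.erase P1).erase P2) (fun s P => adj S n Λ s P) (Λ * n)
    (n / Λ ^ 11)
    (le_trans (by exact_mod_cast card_le_card ((erase_subset _ _).trans (erase_subset _ _))) hQ1c)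
    (hne_of T2 _ (by positivity) hT2c) hδ0 (by
      intro t ht
      have h1 := (mem_filter.mp (hT1T0 (hT2T1 ht))).2.2
      simp only [hdd] at h1
      have h2 := herase Q1 P1 t
      have h3 := herase (Q1.erase P1) P2 t
      linarith)
  set T3 := T2.filter (fun s => adj S n Λ s P3) with hT3
  have hT3T2 : T3 ⊆ T2 := filter_subset _ _
  have hT3c : n ^ 2 ≤ Λ ^ 46 * #T3 := by
    calc n ^ 2 ≤ Λ ^ 34 * #T2 := hT2c
      _ ≤ Λ ^ 34 * (Λ ^ 12 * #T3) := mul_le_mul_of_nonneg_left (step _ _ hc3) (by positivity)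
      _ = _ := by ring
  -- P4
  obtain ⟨P4, hP4, hc4⟩ := pigeon T3 (S.filter (fun z => ¬ On z l0)) (fun s P => adj S n Λ s P)
    (n ^ 2) (n ^ 2 / Λ ^ 3)
    (le_trans (by exact_mod_cast card_le_card (filter_subset _ _)) hS)
    (hne_of T3 _ (by positivity) hT3c) (by positivity) (by
      intro t ht
      have h0 := hT1T0 (hT2T1 (hT3T2 ht))
      have h1 : n ^ 2 / (2 * Λ) ≤ deg t := (mem_filter.mp (hT0S1 h0)).2
      have h2 : deg t ≤ #((S.filter (fun z => ¬ On z l0)).filter (fun P => adj S n Λ t P)) + dd t := by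
        simp only [hdeg, hdd, hQ1]
        have h3 : S.filter (fun P => adj S n Λ t P) =
            (S.filter (fun z => ¬ On z l0)).filter (fun P => adj S n Λ t P) ∪
            (S.filter (fun z => On z l0)).filter (fun P => adj S n Λ t P) := by
          ext z
          simp only [mem_filter, mem_union]
          tauto
        rw [h3]
        exact_mod_cast card_union_le _ _
      have h3 := hddle t
      have h4 : n ^ 2 / Λ ^ 3 ≤ n ^ 2 / (2 * Λ) - Λ * n := by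
        have e1 : n ^ 2 / (2 * Λ) ≥ 2 * (n ^ 2 / Λ ^ 3) := by
          have : 2 * (n ^ 2 / Λ ^ 3) = n ^ 2 / (Λ ^ 3 / 2) := by field_simp
          rw [this]
          apply div_le_div_of_nonneg_left (by positivity) (by positivity)
          have : (2 : ℝ) ^ 2 ≤ Λ ^ 2 := h2pow 2
          nlinarith
        have e2 : Λ * n ≤ n ^ 2 / Λ ^ 3 := by
          rw [le_div_iff₀ (by positivity)]
          calc Λ * n * Λ ^ 3 = Λ ^ 4 * n := by ring
            _ ≤ n * n := mul_le_mul_of_nonneg_right (hpown 4 (by norm_num)) hn0.le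
            _ = n ^ 2 := by ring
        linarith
      linarith)
  set T4 := T3.filter (fun s => adj S n Λ s P4) with hT4
  have hT4c : n ^ 2 ≤ Λ ^ 49 * #T4 := by
    have h1 : (#T3 : ℝ) ≤ Λ ^ 3 * #T4 := by
      rw [mul_div_assoc', div_le_iff₀ (by positivity)] at hc4
      have h2 : (#T3 : ℝ) * n ^ 2 ≤ (Λ ^ 3 * #T4) * n ^ 2 := by
        calc _ ≤ _ := hc4
          _ = _ := by ring
      exact le_of_mul_le_mul_right h2 (by positivity)
    calc n ^ 2 ≤ Λ ^ 46 * #T3 := hT3c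
      _ ≤ Λ ^ 46 * (Λ ^ 3 * #T4) := mul_le_mul_of_nonneg_left h1 (by positivity)
      _ = _ := by ring
  rw [mem_erase] at hP2 hP3
  rw [mem_erase] at hP3
  refine ⟨l0, P1, P2, P3, P4, T4, hP2.1.symm, hP3.2.1.symm, hP3.1.symm, (mem_filter.mp hP1).2,
    (mem_filter.mp hP2.2).2, (mem_filter.mp hP3.2.2).2, (mem_filter.mp hP4).2, ?_, hT4c⟩
  intro s hs
  rw [hT4, mem_filter, hT3, mem_filter, hT2, mem_filter, hT1, mem_filter, hT0, mem_filter] at hs
  obtain ⟨⟨⟨⟨⟨h1, h2, _⟩, a1⟩, a2⟩, a3⟩, a4⟩ := hs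
  exact ⟨hS1S h1, h2, a1, a2, a3, a4⟩

end Crest.Agent.R034.BKT
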