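import Crest.Agent.R034.Spec
import Crest.Agent.R034.BKTCoord
import Crest.Agent.R034.BKTAdd
import Crest.Agent.R034.BKTSel

/-! The BKT module of row 34. -/

set_option autoImplicit false
set_option maxHeartbeats 1000000

namespace Crest.Agent.R034

open Finset Crest.Agent.R034.BKT

theorem specBKT : SpecBKT := by
  classical
  refine ⟨90000, ?_⟩
  intro F _ _ _ hns L hL S hScard hline _ hpairs
  set Λ : ℝ := (L : ℝ) with hΛd
  set n : ℝ := Real.sqrt (ord F) with hnd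
  have hΛ : 2 ≤ Λ := by rw [hΛd]; exact_mod_cast hL
  have hΛ0 : 0 < Λ := by linarith
  have hΛ1 : 1 ≤ Λ := by linarith
  have hn2 : n ^ 2 = Fintype.card F := Real.sq_sqrt (Nat.cast_nonneg _)
  have hqpos : (0 : ℝ) < Fintype.card F := by exact_mod_cast Fintype.card_pos
  have hn0 : 0 < n := Real.sqrt_pos.mpr hqpos
  suffices h : (Fintype.card F : ℝ) ≤ Λ ^ 90000 by
    have h' : ((ord F : ℕ) : ℝ) ≤ ((L ^ 90000 : ℕ) : ℝ) := by
      rw [Nat.cast_pow]; exact h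
    exact Nat.cast_le.mp h'
  by_cases hbig : Λ ^ 60 ≤ n
  swap
  · push Not at hbig
    calc (Fintype.card F : ℝ) = n ^ 2 := hn2.symm
      _ ≤ (Λ ^ 60) ^ 2 := pow_le_pow_left₀ hn0.le hbig.le 2
      _ = Λ ^ 120 := by ring
      _ ≤ Λ ^ 90000 := pow_le_pow_right₀ hΛ1 (by norm_num)
  have hS : (#S : ℝ) ≤ n ^ 2 := by rw [hn2]; exact_mod_cast hScard
  have hE : n ^ 4 ≤ Λ * #((S ×ˢ S).filter (fun p => adj S n Λ p.1 p.2)) := by
    have h1 : n ^ 4 = (ord F : ℝ) ^ 2 := by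
      rw [show n ^ 4 = (n ^ 2) ^ 2 by ring, hn2]
    rw [h1]
    refine hpairs.trans (mul_le_mul_of_nonneg_left ?_ hΛ0.le)
    have h2 : (S ×ˢ S).filter (fun p => p.1.1 ≠ p.2.1 ∧
        n ≤ Λ * ((S.filter (fun z => On z (thru p.1 p.2))).card : ℝ)) ⊆
        (S ×ˢ S).filter (fun p => adj S n Λ p.1 p.2) := by
      intro p hp
      rw [mem_filter] at hp ⊢
      exact ⟨hp.1, hp.2.1, mem_rich.mpr hp.2.2⟩
    have h3 := card_le_card h2
    have h4 : #((S ×ˢ S).filter (fun p => p.1.1 ≠ p.2.1 ∧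
        n ≤ Λ * ((S.filter (fun z => On z (thru p.1 p.2))).card : ℝ))) ≤
        #((S ×ˢ S).filter (fun p => adj S n Λ p.1 p.2)) := h3
    exact_mod_cast (by convert h4)
  have hn20 : Λ ^ 20 ≤ n := (pow_le_pow_right₀ hΛ1 (by norm_num)).trans hbig
  obtain ⟨l0, P1, P2, P3, P4, G0, h12, h13, h23, o1, o2, o3, o4, hG0, hG0c⟩ :=
    select S n Λ hΛ hn20 hS hline hE
  obtain ⟨x, y, inj, f1, f2, f3, f4, vx, vy⟩ := coords h12 h13 h23 o1 o2 o3 o4
  set G := G0.filter (fun s => x s ≠ 0 ∧ y s ≠ 0) with hG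
  have hGG0 : G ⊆ G0 := filter_subset _ _
  -- the removed part
  have hrem : (#G0 : ℝ) ≤ #G + 2 * (Λ * n) := by
    have h1 : G0 ⊆ G ∪ (S.filter (fun z => On z (thru P2 P4)) ∪
        S.filter (fun z => On z (thru P1 P4))) := by
      intro s hs
      obtain ⟨hsS, hs0, a1, a2, a3, a4⟩ := hG0 s hs
      by_cases hx : x s = 0
      · exact mem_union_right _ (mem_union_left _ (mem_filter.mpr ⟨hsS, vx s hs0 a2.1 hx⟩))
      · by_cases hy : y s = 0
        · exact mem_union_right _ (mem_union_right _ (mem_filter.mpr ⟨hsS, vy s hs0 a1.1 hy⟩))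
        · exact mem_union_left _ (mem_filter.mpr ⟨hs, hx, hy⟩)
    have h2 : #G0 ≤ #G + (#(S.filter (fun z => On z (thru P2 P4))) +
        #(S.filter (fun z => On z (thru P1 P4)))) :=
      ((card_le_card h1).trans (card_union_le _ _)).trans
        (Nat.add_le_add_left (card_union_le _ _) _)
    have h3 : (#G0 : ℝ) ≤ #G + (#(S.filter (fun z => On z (thru P2 P4))) +
        #(S.filter (fun z => On z (thru P1 P4)))) := by exact_mod_cast h2
    have h4 := hline (thru P2 P4)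
    have h5 := hline (thru P1 P4)
    linarith
  have hGc : n ^ 2 ≤ Λ ^ 50 * #G := by
    have h1 : n ^ 2 ≤ Λ ^ 49 * #G + Λ ^ 49 * (2 * (Λ * n)) := by
      calc n ^ 2 ≤ Λ ^ 49 * #G0 := hG0c
        _ ≤ Λ ^ 49 * (#G + 2 * (Λ * n)) := mul_le_mul_of_nonneg_left hrem (by positivity)
        _ = _ := by ring
    have h2 : 2 * (Λ ^ 49 * (2 * (Λ * n))) ≤ n ^ 2 := by
      have h3 : (2 : ℝ) ^ 2 ≤ Λ ^ 2 := pow_le_pow_left₀ (by norm_num) hΛ 2
      calc 2 * (Λ ^ 49 * (2 * (Λ * n))) = 2 ^ 2 * (Λ ^ 50 * n) := by ring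
        _ ≤ Λ ^ 2 * (Λ ^ 50 * n) := mul_le_mul_of_nonneg_right h3 (by positivity)
        _ = Λ ^ 52 * n := by ring
        _ ≤ n * n := mul_le_mul_of_nonneg_right
            ((pow_le_pow_right₀ hΛ1 (by norm_num)).trans hbig) hn0.le
        _ = n ^ 2 := by ring
    calc n ^ 2 ≤ 2 * (Λ ^ 49 * #G) := by linarith
      _ ≤ Λ * (Λ ^ 49 * #G) := mul_le_mul_of_nonneg_right hΛ (by positivity)
      _ = _ := by ring
  -- number of directions
  have hn2Λ : 2 * Λ ≤ n := by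
    have h2 : Λ ^ 2 ≤ n := (pow_le_pow_right₀ hΛ1 (by norm_num)).trans hbig
    nlinarith
  have dirs : ∀ (P : Pt F), (∀ s ∈ G, adj S n Λ s P) → ∀ f : Pt F → F,
      (∀ s ∈ G, ∀ s' ∈ G, ∀ l, On s l → On s' l → On P l → f s = f s') →
      (#(G.image f) : ℝ) ≤ 2 * Λ * n := by
    intro P hP f hf
    refine le_trans ?_ (rich_through S n Λ hΛ hn2Λ hS P)
    norm_cast
    refine (card_image_le_of_factor G f (fun s => thru s P) ?_).trans ?_
    · intro s hs s' hs' h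
      have a := hP s hs
      have a' := hP s' hs'
      refine hf s hs s' hs' (thru s P) (on_thru_left a.1) ?_ (on_thru_right a.1)
      rw [h]
      exact on_thru_left a'.1
    · apply card_le_card
      intro l hl
      obtain ⟨s, hs, rfl⟩ := mem_image.mp hl
      have a := hP s hs
      exact mem_filter.mpr ⟨a.2, on_thru_right a.1⟩
  have g0 : ∀ s ∈ G, ¬ On s l0 := fun s hs => (hG0 s (hGG0 hs)).2.1
  have gx : ∀ s ∈ G, x s ≠ 0 := fun s hs => (mem_filter.mp hs).2.1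
  have gy : ∀ s ∈ G, y s ≠ 0 := fun s hs => (mem_filter.mp hs).2.2
  have a1 : ∀ s ∈ G, adj S n Λ s P1 := fun s hs => (hG0 s (hGG0 hs)).2.2.1
  have a2 : ∀ s ∈ G, adj S n Λ s P2 := fun s hs => (hG0 s (hGG0 hs)).2.2.2.1
  have a3 : ∀ s ∈ G, adj S n Λ s P3 := fun s hs => (hG0 s (hGG0 hs)).2.2.2.2.1
  have a4 : ∀ s ∈ G, adj S n Λ s P4 := fun s hs => (hG0 s (hGG0 hs)).2.2.2.2.2
  refine additive hns n Λ hn0 hn2 hΛ G x y
    (fun s hs s' hs' => inj s s' (g0 s hs) (g0 s' hs')) gx gy ?_ ?_ ?_ ?_ hGc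
  · exact dirs P2 a2 x fun s hs s' hs' l => f2 s s' l (g0 s hs) (g0 s' hs')
  · exact dirs P1 a1 y fun s hs s' hs' l => f1 s s' l (g0 s hs) (g0 s' hs')
  · exact dirs P3 a3 (fun s => x s + y s) fun s hs s' hs' l => f3 s s' l (g0 s hs) (g0 s' hs')
  · exact dirs P4 a4 (fun s => y s / x s) fun s hs s' hs' l h1 h2 h3 =>
      f4 s s' l (g0 s hs) (g0 s' hs') (a4 s hs).1 (a4 s' hs').1 h1 h2 h3 (gx s hs) (gx s' hs')

end Crest.Agent.R034
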