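import Mathlib

/-! Paths of length three in dense bipartite graphs (the graph part of Balog-Szemeredi-Gowers). -/

set_option autoImplicit false
set_option maxHeartbeats 1000000

namespace Crest.Agent.R034

open Finset

variable {α β : Type*} [DecidableEq α] [DecidableEq β]

/-- Graph lemma behind the Balog–Szemerédi–Gowers theorem: a bipartite graph `E ⊆ A × B` with
at least `#A * #B / K` edges has large `A' ⊆ A`, `B' ⊆ B` such that all pairs in `A' × B'` are joined by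
many paths of length three. -/
theorem exists_many_paths (A : Finset α) (B : Finset β) (E : Finset (α × β)) (hE : E ⊆ A ×ˢ B)
    (hA : A.Nonempty) (hB : B.Nonempty) (K : ℝ) (hK : 1 ≤ K) (hd : (#A : ℝ) * #B ≤ K * #E) :
    ∃ A' ⊆ A, ∃ B' ⊆ B, (#A : ℝ) ≤ 6 * K * #A' ∧ (#B : ℝ) ≤ 4 * K * #B' ∧
      ∀ x ∈ A', ∀ y ∈ B', (#A : ℝ) * #B ≤
        3072 * K ^ 5 * #{p ∈ B ×ˢ A | (x, p.1) ∈ E ∧ (p.2, p.1) ∈ E ∧ (p.2, y) ∈ E} := by
  classical
  have hK0 : 0 < K := by linarith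
  set a : ℝ := (#A : ℝ) with ha
  set b : ℝ := (#B : ℝ) with hb
  have ha0 : 0 < a := by rw [ha]; exact_mod_cast hA.card_pos
  have hb0 : 0 < b := by rw [hb]; exact_mod_cast hB.card_pos
  -- degrees
  set deg : α → ℝ := fun x => (#{y ∈ B | (x, y) ∈ E} : ℝ) with hdeg
  have hdegsum : ∑ x ∈ A, deg x = (#E : ℝ) := by
    have : #E = ∑ x ∈ A, #{y ∈ B | (x, y) ∈ E} := by
      have h1 : E = (A ×ˢ B).filter (fun p => p ∈ E) := by
        ext p; simp only [mem_filter]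
        exact ⟨fun h => ⟨hE h, h⟩, fun h => h.2⟩
      conv_lhs => rw [h1]
      rw [card_filter, sum_product]
      refine sum_congr rfl fun x _ => ?_
      rw [card_filter]
    have h2 := congrArg (Nat.cast : ℕ → ℝ) this
    rw [Nat.cast_sum] at h2
    exact h2.symm
  set A1 : Finset α := A.filter (fun x => b / (2 * K) ≤ deg x) with hA1
  have hA1A : A1 ⊆ A := filter_subset _ _
  have hA1sum : a * b / (2 * K) ≤ ∑ x ∈ A1, deg x := by
    have hsplit : ∑ x ∈ A, deg x = ∑ x ∈ A1, deg x + ∑ x ∈ A.filter (fun x => ¬ (b / (2 * K) ≤ deg x)), deg x := by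
      rw [hA1, sum_filter_add_sum_filter_not]
    have hrest : ∑ x ∈ A.filter (fun x => ¬ (b / (2 * K) ≤ deg x)), deg x ≤ a * (b / (2 * K)) := by
      calc ∑ x ∈ A.filter (fun x => ¬ (b / (2 * K) ≤ deg x)), deg x
          ≤ ∑ x ∈ A.filter (fun x => ¬ (b / (2 * K) ≤ deg x)), b / (2 * K) := by
            refine sum_le_sum fun x hx => ?_
            rw [mem_filter] at hx
            linarith [hx.2]
        _ = (#(A.filter (fun x => ¬ (b / (2 * K) ≤ deg x))) : ℝ) * (b / (2 * K)) := by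
            rw [sum_const, nsmul_eq_mul]
        _ ≤ a * (b / (2 * K)) := by
            have h0 : (#(A.filter (fun x => ¬ (b / (2 * K) ≤ deg x))) : ℝ) ≤ a := by
              rw [ha]; exact_mod_cast card_le_card (filter_subset _ _)
            exact mul_le_mul_of_nonneg_right h0 (by positivity)
    have h3 : a * b / K ≤ ∑ x ∈ A, deg x := by
      rw [hdegsum, div_le_iff₀ hK0]; linarith
    have h4 : a * b / K = a * b / (2 * K) + a * (b / (2 * K)) := by field_simp; ring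
    linarith
  -- neighbourhoods in A1
  set N : β → Finset α := fun y => A1.filter (fun x => (x, y) ∈ E) with hN
  have hNsum : ∀ S ⊆ A1, ∑ y ∈ B, (#(S.filter (fun x => (x, y) ∈ E)) : ℝ) = ∑ x ∈ S, deg x := by
    intro S hS
    have : ∑ y ∈ B, #(S.filter (fun x => (x, y) ∈ E)) = ∑ x ∈ S, #{y ∈ B | (x, y) ∈ E} := by
      simp_rw [card_filter]
      exact sum_comm
    have h2 : ((∑ y ∈ B, #(S.filter (fun x => (x, y) ∈ E)) : ℕ) : ℝ) =
      ((∑ x ∈ S, #{y ∈ B | (x, y) ∈ E} : ℕ) : ℝ) := by rw [this]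
    rw [Nat.cast_sum, Nat.cast_sum] at h2
    exact h2
  -- common neighbours
  set cn : α × α → ℝ := fun p => (#{y ∈ B | (p.1, y) ∈ E ∧ (p.2, y) ∈ E} : ℝ) with hcn
  set ε : ℝ := 1 / (16 * K) with hε
  have hε0 : 0 < ε := by positivity
  set δ : ℝ := ε / (8 * K ^ 2) with hδ
  have hδ0 : 0 < δ := by positivity
  set Ω : Finset (α × α) := (A1 ×ˢ A1).filter (fun p => cn p < δ * b) with hΩ
  -- choose y0
  have hsumN : a ^ 2 * b / (4 * K ^ 2) ≤ ∑ y ∈ B, (#(N y) : ℝ) ^ 2 := by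
    have h1 : (∑ y ∈ B, (#(N y) : ℝ)) ^ 2 ≤ b * ∑ y ∈ B, (#(N y) : ℝ) ^ 2 := by
      have := sq_sum_le_card_mul_sum_sq (s := B) (f := fun y => (#(N y) : ℝ))
      simpa [hb] using this
    have h2 : a * b / (2 * K) ≤ ∑ y ∈ B, (#(N y) : ℝ) := by
      rw [hN, hNsum A1 (Subset.refl _)]; exact hA1sum
    have h3 : (a * b / (2 * K)) ^ 2 ≤ b * ∑ y ∈ B, (#(N y) : ℝ) ^ 2 :=
      le_trans (by gcongr) h1
    have h4 : (a * b / (2 * K)) ^ 2 = b * (a ^ 2 * b / (4 * K ^ 2)) := by field_simp; ring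
    rw [h4] at h3
    exact le_of_mul_le_mul_left h3 hb0
  have hsumΩ : ∑ y ∈ B, (#(Ω.filter (fun p => (p.1, y) ∈ E ∧ (p.2, y) ∈ E)) : ℝ) ≤ δ * b * a ^ 2 := by
    have h1 : ∑ y ∈ B, (#(Ω.filter (fun p => (p.1, y) ∈ E ∧ (p.2, y) ∈ E)) : ℝ) = ∑ p ∈ Ω, cn p := by
      have : ∑ y ∈ B, #(Ω.filter (fun p => (p.1, y) ∈ E ∧ (p.2, y) ∈ E)) =
          ∑ p ∈ Ω, #{y ∈ B | (p.1, y) ∈ E ∧ (p.2, y) ∈ E} := by
        simp_rw [card_filter]
        exact sum_comm
      have h2 := congrArg (Nat.cast : ℕ → ℝ) this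
      rw [Nat.cast_sum, Nat.cast_sum] at h2
      exact h2
    rw [h1]
    calc ∑ p ∈ Ω, cn p ≤ ∑ p ∈ Ω, δ * b := by
          refine sum_le_sum fun p hp => ?_
          rw [hΩ, mem_filter] at hp
          exact hp.2.le
      _ = (#Ω : ℝ) * (δ * b) := by rw [sum_const, nsmul_eq_mul]
      _ ≤ a ^ 2 * (δ * b) := by
          gcongr
          have : #Ω ≤ #A * #A := by
            calc #Ω ≤ #(A1 ×ˢ A1) := card_le_card (filter_subset _ _)
              _ = #A1 * #A1 := card_product _ _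
              _ ≤ #A * #A := Nat.mul_le_mul (card_le_card hA1A) (card_le_card hA1A)
          rw [ha, sq]; exact_mod_cast this
      _ = δ * b * a ^ 2 := by ring
  obtain ⟨y0, hy0B, hy0⟩ : ∃ y ∈ B, a ^ 2 / (8 * K ^ 2) ≤
      (#(N y) : ℝ) ^ 2 - ε⁻¹ * (#(Ω.filter (fun p => (p.1, y) ∈ E ∧ (p.2, y) ∈ E)) : ℝ) := by
    by_contra hcon
    push Not at hcon
    have hlt : ∑ y ∈ B, ((#(N y) : ℝ) ^ 2 - ε⁻¹ * (#(Ω.filter (fun p => (p.1, y) ∈ E ∧ (p.2, y) ∈ E)) : ℝ))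
        < ∑ y ∈ B, a ^ 2 / (8 * K ^ 2) := sum_lt_sum_of_nonempty hB hcon
    rw [sum_sub_distrib, ← mul_sum, sum_const, nsmul_eq_mul] at hlt
    have h5 : ε⁻¹ * ∑ y ∈ B, (#(Ω.filter (fun p => (p.1, y) ∈ E ∧ (p.2, y) ∈ E)) : ℝ) ≤ ε⁻¹ * (δ * b * a ^ 2) := by
      gcongr
    have h6 : ε⁻¹ * (δ * b * a ^ 2) = b * (a ^ 2 / (8 * K ^ 2)) := by
      rw [hδ]; field_simp
    have h7 : a ^ 2 * b / (4 * K ^ 2) = b * (a ^ 2 / (8 * K ^ 2)) + b * (a ^ 2 / (8 * K ^ 2)) := by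
      field_simp; ring
    rw [← hb] at hlt
    linarith
  set A2 : Finset α := N y0 with hA2
  have hA2A1 : A2 ⊆ A1 := filter_subset _ _
  have hΩA2 : Ω.filter (fun p => (p.1, y0) ∈ E ∧ (p.2, y0) ∈ E) = Ω.filter (fun p => p.1 ∈ A2 ∧ p.2 ∈ A2) := by
    refine filter_congr fun p hp => ?_
    rw [hΩ, mem_filter, mem_product] at hp
    simp only [hA2, hN, mem_filter, hp.1.1, hp.1.2, true_and]
  rw [hΩA2] at hy0
  set n2 : ℝ := (#A2 : ℝ) with hn2
  have hn2sq : a ^ 2 / (8 * K ^ 2) ≤ n2 ^ 2 := by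
    have : 0 ≤ ε⁻¹ * (#(Ω.filter (fun p => p.1 ∈ A2 ∧ p.2 ∈ A2)) : ℝ) := by positivity
    linarith
  have hn2lb : a ≤ 3 * K * n2 := by
    have h0 : (0 : ℝ) ≤ 3 * K * n2 := by positivity
    refine abs_le_of_sq_le_sq' ?_ h0 |>.2
    rw [div_le_iff₀ (by positivity)] at hn2sq
    nlinarith [sq_nonneg (K * n2)]
  have hn2pos : 0 < n2 := by
    by_contra h
    have : n2 = 0 := le_antisymm (not_lt.1 h) (by positivity)
    rw [this] at hn2lb; linarith
  have hΩcard : (#(Ω.filter (fun p => p.1 ∈ A2 ∧ p.2 ∈ A2)) : ℝ) ≤ ε * n2 ^ 2 := by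
    have h0 : 0 ≤ a ^ 2 / (8 * K ^ 2) := by positivity
    have : ε⁻¹ * (#(Ω.filter (fun p => p.1 ∈ A2 ∧ p.2 ∈ A2)) : ℝ) ≤ n2 ^ 2 := by linarith
    rwa [inv_mul_le_iff₀ hε0] at this
  -- bad degree
  set bad : α → ℝ := fun x => (#(A2.filter (fun x' => (x, x') ∈ Ω)) : ℝ) with hbad
  have hbadsum : ∑ x ∈ A2, bad x = (#(Ω.filter (fun p => p.1 ∈ A2 ∧ p.2 ∈ A2)) : ℝ) := by
    have h1 : Ω.filter (fun p => p.1 ∈ A2 ∧ p.2 ∈ A2) = (A2 ×ˢ A2).filter (fun p => p ∈ Ω) := by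
      ext p
      simp only [mem_filter, mem_product]
      tauto
    have : #(Ω.filter (fun p => p.1 ∈ A2 ∧ p.2 ∈ A2)) = ∑ x ∈ A2, #(A2.filter (fun x' => (x, x') ∈ Ω)) := by
      rw [h1, card_filter, sum_product]
      refine sum_congr rfl fun x _ => ?_
      rw [card_filter]
    have h2 := congrArg (Nat.cast : ℕ → ℝ) this
    rw [Nat.cast_sum] at h2
    exact h2.symm
  set A' : Finset α := A2.filter (fun x => bad x ≤ 2 * ε * n2) with hA'
  have hA'A2 : A' ⊆ A2 := filter_subset _ _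
  have hA'card : n2 / 2 ≤ (#A' : ℝ) := by
    have hc : (#A' : ℝ) + #(A2.filter (fun x => ¬ bad x ≤ 2 * ε * n2)) = n2 := by
      rw [hn2, hA']
      exact_mod_cast card_filter_add_card_filter_not (s := A2) (fun x => bad x ≤ 2 * ε * n2)
    have h1 : (#(A2.filter (fun x => ¬ bad x ≤ 2 * ε * n2)) : ℝ) * (2 * ε * n2) ≤ ε * n2 ^ 2 := by
      calc (#(A2.filter (fun x => ¬ bad x ≤ 2 * ε * n2)) : ℝ) * (2 * ε * n2)
          = ∑ x ∈ A2.filter (fun x => ¬ bad x ≤ 2 * ε * n2), 2 * ε * n2 := by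
            rw [sum_const, nsmul_eq_mul]
        _ ≤ ∑ x ∈ A2.filter (fun x => ¬ bad x ≤ 2 * ε * n2), bad x := by
            refine sum_le_sum fun x hx => ?_
            rw [mem_filter] at hx
            linarith [hx.2]
        _ ≤ ∑ x ∈ A2, bad x := by
            refine sum_le_sum_of_subset_of_nonneg (filter_subset _ _) fun x _ _ => ?_
            rw [hbad]; positivity
        _ ≤ ε * n2 ^ 2 := by rw [hbadsum]; exact hΩcard
    have h2 : (#(A2.filter (fun x => ¬ bad x ≤ 2 * ε * n2)) : ℝ) ≤ n2 / 2 := by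
      have : (#(A2.filter (fun x => ¬ bad x ≤ 2 * ε * n2)) : ℝ) * (2 * ε * n2) ≤ (n2 / 2) * (2 * ε * n2) := by
        calc _ ≤ ε * n2 ^ 2 := h1
          _ = (n2 / 2) * (2 * ε * n2) := by ring
      exact le_of_mul_le_mul_right this (by positivity)
    linarith
  -- B'
  set dA2 : β → ℝ := fun y => (#(A2.filter (fun x => (x, y) ∈ E)) : ℝ) with hdA2
  set B' : Finset β := B.filter (fun y => n2 / (4 * K) ≤ dA2 y) with hB'
  have hdA2le : ∀ y, dA2 y ≤ n2 := by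
    intro y
    have : #(A2.filter (fun x => (x, y) ∈ E)) ≤ #A2 := card_le_card (filter_subset _ _)
    have h2 : ((#(A2.filter (fun x => (x, y) ∈ E)) : ℕ) : ℝ) ≤ ((#A2 : ℕ) : ℝ) := by exact_mod_cast this
    exact h2
  have hB'card : b ≤ 4 * K * #B' := by
    have h1 : n2 * (b / (2 * K)) ≤ ∑ y ∈ B, dA2 y := by
      rw [hdA2, hNsum A2 hA2A1]
      calc n2 * (b / (2 * K)) = ∑ x ∈ A2, b / (2 * K) := by rw [sum_const, nsmul_eq_mul]
        _ ≤ ∑ x ∈ A2, deg x := by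
            refine sum_le_sum fun x hx => ?_
            have := hA2A1 hx
            rw [hA1, mem_filter] at this
            exact this.2
    have hsplit : ∑ y ∈ B, dA2 y = ∑ y ∈ B', dA2 y + ∑ y ∈ B.filter (fun y => ¬ (n2 / (4 * K) ≤ dA2 y)), dA2 y := by
      rw [hB', sum_filter_add_sum_filter_not]
    have h2 : ∑ y ∈ B.filter (fun y => ¬ (n2 / (4 * K) ≤ dA2 y)), dA2 y ≤ b * (n2 / (4 * K)) := by
      calc ∑ y ∈ B.filter (fun y => ¬ (n2 / (4 * K) ≤ dA2 y)), dA2 y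
          ≤ ∑ y ∈ B.filter (fun y => ¬ (n2 / (4 * K) ≤ dA2 y)), n2 / (4 * K) := by
            refine sum_le_sum fun y hy => ?_
            rw [mem_filter] at hy
            linarith [hy.2]
        _ = (#(B.filter (fun y => ¬ (n2 / (4 * K) ≤ dA2 y))) : ℝ) * (n2 / (4 * K)) := by
            rw [sum_const, nsmul_eq_mul]
        _ ≤ b * (n2 / (4 * K)) := by
            have h0 : (#(B.filter (fun y => ¬ (n2 / (4 * K) ≤ dA2 y))) : ℝ) ≤ b := by
              rw [hb]; exact_mod_cast card_le_card (filter_subset _ _)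
            exact mul_le_mul_of_nonneg_right h0 (by positivity)
    have h3 : ∑ y ∈ B', dA2 y ≤ (#B' : ℝ) * n2 := by
      calc ∑ y ∈ B', dA2 y ≤ ∑ y ∈ B', n2 := sum_le_sum fun y _ => hdA2le y
        _ = (#B' : ℝ) * n2 := by rw [sum_const, nsmul_eq_mul]
    have h4 : n2 * (b / (2 * K)) = b * (n2 / (4 * K)) + n2 * (b / (4 * K)) := by field_simp; ring
    have h5 : n2 * (b / (4 * K)) ≤ n2 * #B' := by
      have : n2 * (b / (4 * K)) ≤ (#B' : ℝ) * n2 := by linarith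
      linarith
    have h6 : b / (4 * K) ≤ #B' := le_of_mul_le_mul_left h5 hn2pos
    rw [div_le_iff₀ (by positivity)] at h6
    linarith
  refine ⟨A', hA'A2.trans (hA2A1.trans hA1A), B', filter_subset _ _, ?_, hB'card, ?_⟩
  · nlinarith
  · intro x hx y hy
    rw [hA', mem_filter] at hx
    rw [hB', mem_filter] at hy
    obtain ⟨hxA2, hxbad⟩ := hx
    obtain ⟨hyB, hyd⟩ := hy
    set X : Finset α := A2.filter (fun x' => (x', y) ∈ E ∧ (x, x') ∉ Ω) with hX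
    have hXcard : n2 / (8 * K) ≤ (#X : ℝ) := by
      have h1 : A2.filter (fun x' => (x', y) ∈ E) ⊆ X ∪ A2.filter (fun x' => (x, x') ∈ Ω) := by
        intro x' hx'
        rw [mem_filter] at hx'
        by_cases h : (x, x') ∈ Ω
        · exact mem_union_right _ (mem_filter.2 ⟨hx'.1, h⟩)
        · exact mem_union_left _ (mem_filter.2 ⟨hx'.1, hx'.2, h⟩)
      have h2 : dA2 y ≤ (#X : ℝ) + bad x := by
        have := (card_le_card h1).trans (card_union_le _ _)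
        have h2 : ((#(A2.filter (fun x' => (x', y) ∈ E)) : ℕ) : ℝ) ≤
            ((#X : ℕ) : ℝ) + ((#(A2.filter (fun x' => (x, x') ∈ Ω)) : ℕ) : ℝ) := by exact_mod_cast this
        exact h2
      have h3 : n2 / (4 * K) = n2 / (8 * K) + 2 * ε * n2 := by rw [hε]; field_simp; ring
      linarith
    have hcnlb : ∀ x' ∈ X, δ * b ≤ (#{y' ∈ B | (x, y') ∈ E ∧ (x', y') ∈ E} : ℝ) := by
      intro x' hx'
      rw [hX, mem_filter] at hx'
      by_contra hlt
      apply hx'.2.2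
      rw [hΩ, mem_filter, mem_product]
      exact ⟨⟨hA2A1 hxA2, hA2A1 hx'.1⟩, not_le.1 hlt⟩
    have hcount : (∑ x' ∈ X, (#{y' ∈ B | (x, y') ∈ E ∧ (x', y') ∈ E} : ℝ)) ≤
        #{p ∈ B ×ˢ A | (x, p.1) ∈ E ∧ (p.2, p.1) ∈ E ∧ (p.2, y) ∈ E} := by
      have : ∑ x' ∈ X, #{y' ∈ B | (x, y') ∈ E ∧ (x', y') ∈ E} ≤
          #{p ∈ B ×ˢ A | (x, p.1) ∈ E ∧ (p.2, p.1) ∈ E ∧ (p.2, y) ∈ E} := by
        rw [← card_sigma]
        refine card_le_card_of_injOn (fun s => (s.2, s.1)) ?_ ?_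
        · rintro ⟨x', y'⟩ hs
          simp only [coe_sigma, Set.mem_sigma_iff, mem_coe, mem_filter, mem_product] at hs ⊢
          obtain ⟨h1, h2, h3, h4⟩ := hs
          rw [hX, mem_filter] at h1
          exact ⟨⟨h2, hA1A (hA2A1 h1.1)⟩, h3, h4, h1.2.1⟩
        · rintro ⟨x1, y1⟩ _ ⟨x2, y2⟩ _ h
          simp only [Prod.mk.injEq] at h
          obtain ⟨rfl, rfl⟩ := h
          rfl
      exact_mod_cast this
    have h1 : (#X : ℝ) * (δ * b) ≤ #{p ∈ B ×ˢ A | (x, p.1) ∈ E ∧ (p.2, p.1) ∈ E ∧ (p.2, y) ∈ E} := by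
      refine le_trans ?_ hcount
      calc (#X : ℝ) * (δ * b) = ∑ x' ∈ X, δ * b := by rw [sum_const, nsmul_eq_mul]
        _ ≤ _ := sum_le_sum hcnlb
    have h2 : n2 / (8 * K) * (δ * b) ≤ #{p ∈ B ×ˢ A | (x, p.1) ∈ E ∧ (p.2, p.1) ∈ E ∧ (p.2, y) ∈ E} :=
      le_trans (by gcongr) h1
    calc a * b ≤ (3 * K * n2) * b := by gcongr
      _ = 3072 * K ^ 5 * (n2 / (8 * K) * (δ * b)) := by
          rw [hδ, hε]; field_simp; ring
      _ ≤ _ := by gcongr

end Crest.Agent.R034
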