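import Crest.Agent.R034.Spec

/-! Row 34, module M12: cover analysis (`SpecCover`). -/

set_option autoImplicit false
set_option linter.unusedSectionVars false

namespace Crest.Agent.R034

open Finset

namespace Cover

section lines
variable {F : Type} [Field F]

theorem exists_agree (l l' : Ln F) : ∃ j, val l j = val l' j := by
  classical
  obtain ⟨m, b⟩ := l
  obtain ⟨m', b'⟩ := l'
  by_cases h : m = m'
  · exact ⟨none, h⟩
  · refine ⟨some ((b' - b) / (m - m')), ?_⟩
    have h' : m - m' ≠ 0 := sub_ne_zero.mpr h
    simp only [val]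
    field_simp
    ring

theorem agree_unique {l l' : Ln F} (h : l ≠ l') {j j' : Option F}
    (h1 : val l j = val l' j) (h2 : val l j' = val l' j') : j = j' := by
  obtain ⟨m, b⟩ := l
  obtain ⟨m', b'⟩ := l'
  rcases j with _ | x <;> rcases j' with _ | x'
  · rfl
  · simp only [val] at h1 h2
    subst h1
    exact absurd (by rw [add_left_cancel h2]) h
  · simp only [val] at h1 h2
    subst h2
    exact absurd (by rw [add_left_cancel h1]) h
  · simp only [val] at h1 h2
    have h3 : (m - m') * (x - x') = 0 := by linear_combination h1 - h2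
    rcases mul_eq_zero.mp h3 with h4 | h4
    · have h5 : m = m' := sub_eq_zero.mp h4
      subst h5
      exact absurd (by rw [add_left_cancel h1]) h
    · rw [sub_eq_zero.mp h4]

end lines

variable {F : Type} [Field F] [Fintype F] [DecidableEq F]

theorem line_card (l : Ln F) :
    (univ.filter (fun z : Pt F => On z l)).card = ord F + 1 := by
  have h : (univ.filter (fun z : Pt F => On z l))
      = (univ : Finset (Option F)).image (fun j => ((j, val l j) : Pt F)) := by
    ext ⟨j, y⟩
    simp only [mem_filter, mem_univ, true_and, mem_image, On, Prod.mk.injEq]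
    constructor
    · intro h
      exact ⟨j, rfl, h⟩
    · rintro ⟨a, rfl, h⟩
      exact h
  rw [h, card_image_of_injective]
  · rw [card_univ, Fintype.card_option]
  · intro a b hab
    exact (Prod.mk.inj hab).1

theorem pos_card (i : Option F) :
    (univ.filter (fun z : Pt F => z.1 = i)).card = ord F := by
  have h : (univ.filter (fun z : Pt F => z.1 = i))
      = (univ : Finset F).image (fun y => ((i, y) : Pt F)) := by
    ext ⟨j, y⟩
    simp only [mem_filter, mem_univ, true_and, mem_image, Prod.mk.injEq]
    constructor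
    · intro h
      exact ⟨y, h.symm, rfl⟩
    · rintro ⟨a, h, _⟩
      exact h.symm
  rw [h, card_image_of_injective]
  · rw [card_univ]
  · intro a b hab
    exact (Prod.mk.inj hab).2

/-- the old points of a vertex set -/
def old (T : Finset (Option F × Option F)) : Finset (Pt F) :=
  univ.filter (fun z => (z.1, some z.2) ∈ T)

theorem mem_old {T : Finset (Option F × Option F)} {z : Pt F} :
    z ∈ old T ↔ (z.1, some z.2) ∈ T := by
  simp [old]

theorem card_old (T : Finset (Option F × Option F)) (i : Option F) :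
    (old T).card + (if (i, (none : Option F)) ∈ T then 1 else 0) ≤ T.card := by
  classical
  have hinj : Function.Injective (fun z : Pt F => ((z.1, some z.2) : Option F × Option F)) := by
    rintro ⟨a, b⟩ ⟨c, d⟩ h
    simp only [Prod.mk.injEq, Option.some.injEq] at h
    exact Prod.ext h.1 h.2
  have h1 : ((old T).image (fun z : Pt F => ((z.1, some z.2) : Option F × Option F))).card
      = (old T).card := card_image_of_injective _ hinj
  by_cases hi : (i, (none : Option F)) ∈ T
  · rw [if_pos hi, ← h1]
    have hnot : (i, (none : Option F)) ∉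
        (old T).image (fun z : Pt F => ((z.1, some z.2) : Option F × Option F)) := by
      simp
    rw [← card_insert_of_notMem hnot]
    apply card_le_card
    intro w hw
    rcases mem_insert.mp hw with rfl | hw
    · exact hi
    · obtain ⟨z, hz, rfl⟩ := mem_image.mp hw
      exact mem_old.mp hz
  · rw [if_neg hi, add_zero, ← h1]
    apply card_le_card
    intro w hw
    obtain ⟨z, hz, rfl⟩ := mem_image.mp hw
    exact mem_old.mp hz

/-- double counting of (point of `D`, line of `V v`) versus covering points `Z` -/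
theorem count_pairs (D Z : Finset (Pt F)) (V : Pt F → Finset (Ln F))
    (hon : ∀ v ∈ D, ∀ u ∈ V v, On v u)
    (hne : ∀ z ∈ Z, z ∉ D)
    (hcov : ∀ v ∈ D, ∀ u ∈ V v, ∃ z ∈ Z, On z u) :
    ∑ v ∈ D, (V v).card ≤ ∑ z ∈ Z, (D.filter (fun v => ∃ u ∈ V v, On z u)).card := by
  classical
  have h1 : ∀ v ∈ D, (V v).card ≤ (Z.filter (fun z => ∃ u ∈ V v, On z u)).card := by
    intro v hv
    choose! f hf using hcov v hv
    apply card_le_card_of_injOn f
    · intro u hu
      have hu' : u ∈ V v := hu
      simp only [coe_filter, Set.mem_ofPred_eq]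
      exact ⟨(hf u hu').1, u, hu', (hf u hu').2⟩
    · intro u hu u' hu' heq
      have hu1 : u ∈ V v := hu
      have hu2 : u' ∈ V v := hu'
      by_contra hne'
      have a1 : On (f u) u := (hf u hu1).2
      have a2 : On (f u) u' := by rw [heq]; exact (hf u' hu2).2
      have b1 : On v u := hon v hv u hu1
      have b2 : On v u' := hon v hv u' hu2
      unfold On at a1 a2 b1 b2
      have hj : (f u).1 = v.1 :=
        agree_unique hne' (a1.trans a2.symm) (b1.trans b2.symm)
      have hfv : f u = v := by
        apply Prod.ext hj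
        rw [← a1, ← b1, hj]
      exact hne (f u) (hf u hu1).1 (hfv ▸ hv)
  refine (sum_le_sum h1).trans (le_of_eq ?_)
  simp only [card_filter]
  rw [sum_comm]

section gadget

variable {K : Finset (Pt F)} {X : Option F → Bool → Ln F}
  {lab : Option F → Bool → Option F → F} {U : Pt F → Finset (Ln F)}

/-- the edge of a line -/
def lineEdge (l : Ln F) : Option F → Option F := fun j => some (val l j)

/-- the altered edge -/
def altEdge (lab : Option F → Bool → Option F → F) (i : Option F) (s : Bool) :
    Option F → Option F := fun j => if j = i then none else some (lab i s j)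

/-- membership in the family -/
def IsEdge (K : Finset (Pt F)) (lab : Option F → Bool → Option F → F)
    (U : Pt F → Finset (Ln F)) (e : Option F → Option F) : Prop :=
  (∃ l, Avoids K l ∧ e = lineEdge l) ∨ (∃ v ∈ K, ∃ l ∈ U v, e = lineEdge l) ∨
    (∃ i s, e = altEdge lab i s)

theorem inter_line_line (l l' : Ln F) : ∃ j, lineEdge l j = lineEdge l' j := by
  obtain ⟨j, hj⟩ := exists_agree l l'
  exact ⟨j, by simp [lineEdge, hj]⟩

/-- the key: if the meeting point is not special then a line meets an altered edge -/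
theorem inter_line_alt_aux (G : Gadget K X lab U) {i : Option F} {s : Bool} {l : Ln F}
    {j : Option F} (hj : val l j = val (X i s) j) (hK : (j, val (X i s) j) ∉ K) :
    lineEdge l j = altEdge lab i s j := by
  have hji : j ≠ i := by
    rintro rfl
    exact hK (G.main_mem j s)
  simp [lineEdge, altEdge, hji, G.lab_nat i s j hji hK, hj]

theorem inter_plain_alt (G : Gadget K X lab U) {l : Ln F} (hl : Avoids K l) (i : Option F)
    (s : Bool) : ∃ j, lineEdge l j = altEdge lab i s j := by
  obtain ⟨j, hj⟩ := exists_agree l (X i s)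
  refine ⟨j, inter_line_alt_aux G hj ?_⟩
  rw [← hj]
  exact hl j

theorem inter_desig_alt (G : Gadget K X lab U) {v : Pt F} (hv : v ∈ K) {l : Ln F}
    (hl : l ∈ U v) (i : Option F) (s : Bool) : ∃ j, lineEdge l j = altEdge lab i s j := by
  by_cases hon : On v (X i s)
  · obtain ⟨j, hji, hj⟩ := G.serve i s v hv hon l hl
    exact ⟨j, by simp [lineEdge, altEdge, hji, hj]⟩
  · obtain ⟨j, hj⟩ := exists_agree l (X i s)
    refine ⟨j, inter_line_alt_aux G hj ?_⟩
    intro hK
    have hvl : On v l := G.U_on v hv l hl
    unfold On at hvl hon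
    by_cases hjv : j = v.1
    · apply hon
      rw [← hjv, ← hj, hjv]
      exact hvl
    · apply G.U_off v hv l hl j hjv
      rw [hj]
      exact hK

theorem inter_alt_alt (G : Gadget K X lab U) (i : Option F) (s : Bool) (i' : Option F)
    (s' : Bool) : ∃ j, altEdge lab i s j = altEdge lab i' s' j := by
  by_cases hii : i = i'
  · subst hii
    exact ⟨i, by simp [altEdge]⟩
  · obtain ⟨j, hj⟩ := exists_agree (X i s) (X i' s')
    have hK := G.priv i s i' s' j hii hj
    refine ⟨j, ?_⟩
    rw [← inter_line_alt_aux G (l := X i s) rfl hK, ← inter_line_alt_aux G (l := X i' s') rfl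
      (hj ▸ hK)]
    simp [lineEdge, hj]

theorem inter_all (G : Gadget K X lab U) {e f : Option F → Option F}
    (he : IsEdge K lab U e) (hf : IsEdge K lab U f) : ∃ j, e j = f j := by
  rcases he with ⟨l, hl, rfl⟩ | ⟨v, hv, l, hl, rfl⟩ | ⟨i, s, rfl⟩ <;>
  rcases hf with ⟨l', hl', rfl⟩ | ⟨v', hv', l', hl', rfl⟩ | ⟨i', s', rfl⟩
  · exact inter_line_line l l'
  · exact inter_line_line l l'
  · exact inter_plain_alt G hl i' s'
  · exact inter_line_line l l'
  · exact inter_line_line l l'
  · exact inter_desig_alt G hv hl i' s'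
  · obtain ⟨j, hj⟩ := inter_plain_alt G hl' i s
    exact ⟨j, hj.symm⟩
  · obtain ⟨j, hj⟩ := inter_desig_alt G hv' hl' i s
    exact ⟨j, hj.symm⟩
  · exact inter_alt_alt G i s i' s'

/-- a hit of a plain edge is a point of `old T` -/
theorem hit_line {T : Finset (Option F × Option F)} {l : Ln F}
    (h : ∃ j, (j, lineEdge l j) ∈ T) : ∃ z ∈ old T, On z l := by
  obtain ⟨j, hj⟩ := h
  exact ⟨(j, val l j), mem_old.mpr hj, rfl⟩

/-- a hit of an altered edge is the new vertex or a point of `old T` in another position -/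
theorem hit_alt {T : Finset (Option F × Option F)} {i : Option F} {s : Bool}
    (h : ∃ j, (j, altEdge lab i s j) ∈ T) :
    (i, (none : Option F)) ∈ T ∨ ∃ z ∈ old T, z.1 ≠ i ∧ lab i s z.1 = z.2 := by
  obtain ⟨j, hj⟩ := h
  by_cases hji : j = i
  · left
    subst hji
    simpa [altEdge] using hj
  · right
    refine ⟨(j, lab i s j), mem_old.mpr ?_, hji, rfl⟩
    simpa [altEdge, hji] using hj

/-- the line case, numbers: `Z` = points of `old T` off `l`, `D` = missing points of `l` -/
theorem line_numbers (T : Finset (Option F × Option F)) (i : Option F) (l : Ln F)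
    (hT : T.card ≤ ord F) :
    ((old T).filter (fun z => ¬ On z l)).card
      + (if (i, (none : Option F)) ∈ T then 1 else 0) + 1
      ≤ (univ.filter (fun z : Pt F => On z l ∧ z ∉ old T)).card := by
  have h1 := card_old T i
  have h2 := card_filter_add_card_filter_not (s := old T) (fun z => On z l)
  have h3 := card_filter_add_card_filter_not
    (s := univ.filter (fun z : Pt F => On z l)) (fun z => z ∈ old T)
  rw [line_card, filter_filter, filter_filter] at h3
  have h4 : (univ.filter (fun z : Pt F => On z l ∧ z ∈ old T))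
      = (old T).filter (fun z => On z l) := by
    ext z; simp [and_comm]
  rw [h4] at h3
  omega

theorem pos_numbers (T : Finset (Option F × Option F)) (i : Option F)
    (hT : T.card ≤ ord F) :
    ((old T).filter (fun z => ¬ z.1 = i)).card
      + (if (i, (none : Option F)) ∈ T then 1 else 0)
      ≤ (univ.filter (fun z : Pt F => z.1 = i ∧ z ∉ old T)).card := by
  have h1 := card_old T i
  have h2 := card_filter_add_card_filter_not (s := old T) (fun z => z.1 = i)
  have h3 := card_filter_add_card_filter_not
    (s := univ.filter (fun z : Pt F => z.1 = i)) (fun z => z ∈ old T)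
  rw [pos_card, filter_filter, filter_filter] at h3
  have h4 : (univ.filter (fun z : Pt F => z.1 = i ∧ z ∈ old T))
      = (old T).filter (fun z => z.1 = i) := by
    ext z; simp [and_comm]
  rw [h4] at h3
  omega

/-- designated lines (other than `l`) of missing points of `l` are hit off `l` -/
theorem hit_off_line (G : Gadget K X lab U) {T : Finset (Option F × Option F)} {l : Ln F}
    (hT : ∀ e, IsEdge K lab U e → ∃ j, (j, e j) ∈ T)
    {v : Pt F} (hv : v ∈ K) (hvl : On v l) (hvT : v ∉ old T) {u : Ln F} (hu : u ∈ U v)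
    (hul : u ≠ l) : ∃ z ∈ (old T).filter (fun z => ¬ On z l), On z u := by
  obtain ⟨z, hz, hzu⟩ := hit_line (hT _ (Or.inr (Or.inl ⟨v, hv, u, hu, rfl⟩)))
  refine ⟨z, mem_filter.mpr ⟨hz, ?_⟩, hzu⟩
  intro hzl
  have hvu : On v u := G.U_on v hv u hu
  unfold On at hzl hzu hvl hvu
  have h1 : z.1 = v.1 := agree_unique hul (hzu.trans hzl.symm) (hvu.trans hvl.symm)
  have h2 : z = v := by
    apply Prod.ext h1
    rw [← hzu, ← hvu, h1]
  exact hvT (h2 ▸ hz)

theorem case_line_plain (G : Gadget K X lab U) {T : Finset (Option F × Option F)}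
    (hcard : T.card ≤ ord F) (hT : ∀ e, IsEdge K lab U e → ∃ j, (j, e j) ∈ T) {l : Ln F}
    (hl : ∀ j, (j, val l j) ∉ K → (j, val l j) ∈ old T) (hX : ∀ i s, X i s ≠ l) : False := by
  classical
  set D := univ.filter (fun z : Pt F => On z l ∧ z ∉ old T) with hD
  set Z := (old T).filter (fun z => ¬ On z l) with hZ
  have hnum := line_numbers T none l hcard
  rw [← hD, ← hZ] at hnum
  have hDK : ∀ v ∈ D, v ∈ K := by
    intro v hv
    rw [hD, mem_filter] at hv
    obtain ⟨-, hv1, hv2⟩ := hv
    by_contra hvK
    have hv1' : val l v.1 = v.2 := hv1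
    apply hv2
    have : ((v.1, val l v.1) : Pt F) = v := Prod.ext rfl hv1'
    have h := hl v.1 (by rw [this]; exact hvK)
    rwa [this] at h
  have hDl : ∀ v ∈ D, On v l ∧ v ∉ old T := by
    intro v hv
    rw [hD, mem_filter] at hv
    exact hv.2
  have hcount := count_pairs D Z (fun v => (U v).erase l)
    (fun v hv u hu => G.U_on v (hDK v hv) u (mem_of_mem_erase hu))
    (fun z hz hzD => (mem_filter.mp hz).2 (hDl z hzD).1)
    (fun v hv u hu => hit_off_line G hT (hDK v hv) (hDl v hv).1 (hDl v hv).2
      (mem_of_mem_erase hu) (ne_of_mem_erase hu))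
  have hflag : ∑ z ∈ Z, (D.filter (fun v => ∃ u ∈ (U v).erase l, On z u)).card ≤ 8 * Z.card := by
    calc ∑ z ∈ Z, (D.filter (fun v => ∃ u ∈ (U v).erase l, On z u)).card
        ≤ ∑ z ∈ Z, 8 := by
          apply sum_le_sum
          intro z hz
          refine le_trans (card_le_card ?_) (G.flags_line l hX z (mem_filter.mp hz).2)
          intro v hv
          rw [mem_filter] at hv ⊢
          obtain ⟨hv1, u, hu, hzu⟩ := hv
          exact ⟨hDK v hv1, (hDl v hv1).1, u, mem_of_mem_erase hu, hzu⟩
      _ = 8 * Z.card := by simp [mul_comm]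
  by_cases hdes : ∃ v ∈ D, l ∈ U v
  · obtain ⟨v, hv, hlv⟩ := hdes
    have hD1 : D.card ≤ 1 := by
      rw [card_le_one]
      have key : ∀ a ∈ D, a = v := by
        intro a ha
        by_contra hav
        have ha1 : val l a.1 = a.2 := (hDl a ha).1
        have hv1 : val l v.1 = v.2 := (hDl v hv).1
        by_cases h1 : a.1 = v.1
        · apply hav
          apply Prod.ext h1
          rw [← ha1, ← hv1, h1]
        · apply G.U_off v (hDK v hv) l hlv a.1 h1
          rw [ha1]
          exact hDK a ha
      intro a ha b hb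
      rw [key a ha, key b hb]
    have hZ0 : Z.card = 0 := by omega
    have h7 : ((U v).erase l).card = 7 := by
      rw [card_erase_of_mem hlv, G.U_card v (hDK v hv)]
    have h7' : ((U v).erase l).card ≤ ∑ v ∈ D, ((U v).erase l).card :=
      single_le_sum (f := fun v => ((U v).erase l).card) (fun _ _ => Nat.zero_le _) hv
    have : ((U v).erase l).card ≤ 8 * Z.card := h7'.trans (hcount.trans hflag)
    rw [h7, hZ0] at this
    omega
  · push Not at hdes
    have h8 : ∑ v ∈ D, ((U v).erase l).card = 8 * D.card := by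
      calc ∑ v ∈ D, ((U v).erase l).card = ∑ v ∈ D, 8 := by
            apply sum_congr rfl
            intro v hv
            rw [erase_eq_of_notMem (hdes v hv), G.U_card v (hDK v hv)]
        _ = 8 * D.card := by simp [mul_comm]
    have : 8 * D.card ≤ 8 * Z.card := by
      rw [← h8]
      exact hcount.trans hflag
    omega

theorem case_line_alt (G : Gadget K X lab U) {T : Finset (Option F × Option F)}
    (hcard : T.card ≤ ord F) (hT : ∀ e, IsEdge K lab U e → ∃ j, (j, e j) ∈ T)
    {i : Option F} {s : Bool}
    (hl : ∀ j, (j, val (X i s) j) ∉ K → (j, val (X i s) j) ∈ old T) : False := by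
  classical
  set l := X i s with hldef
  set D := univ.filter (fun z : Pt F => On z l ∧ z ∉ old T) with hD
  set Z := (old T).filter (fun z => ¬ On z l) with hZ
  have hnum := line_numbers T i l hcard
  rw [← hD, ← hZ] at hnum
  have hDK : ∀ v ∈ D, v ∈ K := by
    intro v hv
    rw [hD, mem_filter] at hv
    obtain ⟨-, hv1, hv2⟩ := hv
    by_contra hvK
    have hv1' : val l v.1 = v.2 := hv1
    apply hv2
    have : ((v.1, val l v.1) : Pt F) = v := Prod.ext rfl hv1'
    have h := hl v.1 (by rw [this]; exact hvK)
    rwa [this] at h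
  have hDl : ∀ v ∈ D, On v l ∧ v ∉ old T := by
    intro v hv
    rw [hD, mem_filter] at hv
    exact hv.2
  -- the altered line is not designated
  have hnd : ∀ v ∈ D, ∀ u ∈ U v, u ≠ l := by
    intro v hv u hu hul
    have h2 := G.two_le i s
    have h3 : (K.filter (fun v => On v (X i s))).card ≤ 1 := by
      rw [card_le_one]
      have key : ∀ a ∈ K.filter (fun v => On v (X i s)), a = v := by
        intro a ha
        rw [mem_filter] at ha
        by_contra hav
        have ha1 : val u a.1 = a.2 := by rw [hul]; exact ha.2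
        have hv1 : val u v.1 = v.2 := by rw [hul]; exact (hDl v hv).1
        by_cases h1 : a.1 = v.1
        · apply hav
          apply Prod.ext h1
          rw [← ha1, ← hv1, h1]
        · apply G.U_off v (hDK v hv) u hu a.1 h1
          rw [ha1]
          exact ha.1
      intro a ha b hb
      rw [key a ha, key b hb]
    omega
  have hcount := count_pairs D Z U
    (fun v hv u hu => G.U_on v (hDK v hv) u hu)
    (fun z hz hzD => (mem_filter.mp hz).2 (hDl z hzD).1)
    (fun v hv u hu => hit_off_line G hT (hDK v hv) (hDl v hv).1 (hDl v hv).2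
      hu (hnd v hv u hu))
  have hflag : ∑ z ∈ Z, (D.filter (fun v => ∃ u ∈ U v, On z u)).card
      ≤ ∑ z ∈ Z, flags K U l z := by
    apply sum_le_sum
    intro z hz
    apply card_le_card
    intro v hv
    rw [mem_filter] at hv ⊢
    obtain ⟨hv1, u, hu, hzu⟩ := hv
    exact ⟨hDK v hv1, (hDl v hv1).1, u, hu, hzu⟩
  have h8 : ∑ v ∈ D, (U v).card = 8 * D.card := by
    calc ∑ v ∈ D, (U v).card = ∑ v ∈ D, 8 := by
          apply sum_congr rfl
          intro v hv
          rw [G.U_card v (hDK v hv)]
      _ = 8 * D.card := by simp [mul_comm]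
  -- the partner edge
  have hpart : 1 ≤ (if (i, (none : Option F)) ∈ T then 1 else 0)
      + ∑ z ∈ Z, (if z.1 ≠ i ∧ lab i (!s) z.1 = z.2 then 1 else 0) := by
    rcases hit_alt (hT _ (Or.inr (Or.inr ⟨i, !s, rfl⟩))) with h | ⟨z, hz, hzi, hzl⟩
    · rw [if_pos h]
      omega
    · have hzZ : z ∈ Z := by
        rw [hZ, mem_filter]
        refine ⟨hz, ?_⟩
        intro hon
        apply G.other i s z.1 hzi
        rw [hzl]
        exact hon.symm
      have : (if z.1 ≠ i ∧ lab i (!s) z.1 = z.2 then 1 else 0) ≤
          ∑ z ∈ Z, (if z.1 ≠ i ∧ lab i (!s) z.1 = z.2 then 1 else 0) :=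
        single_le_sum (f := fun z : Pt F => if z.1 ≠ i ∧ lab i (!s) z.1 = z.2 then 1 else 0)
          (fun _ _ => Nat.zero_le _) hzZ
      rw [if_pos ⟨hzi, hzl⟩] at this
      omega
  have hcov : ∑ z ∈ Z, cov K X lab U i s z ≤ 8 * Z.card + 8 := by
    have h1 : ∀ z ∈ Z, cov K X lab U i s z ≤ 8 + (if cov K X lab U i s z = 9 then 1 else 0) := by
      intro z hz
      have := G.cov_le i s z (mem_filter.mp hz).2
      split_ifs <;> omega
    refine (sum_le_sum h1).trans ?_
    rw [sum_add_distrib]
    have h2 : ∑ z ∈ Z, (if cov K X lab U i s z = 9 then 1 else 0) ≤ 8 := by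
      rw [← card_filter]
      refine le_trans (card_le_card ?_) (G.cov_nine i s)
      intro z hz
      rw [mem_filter] at hz ⊢
      exact ⟨mem_univ _, (mem_filter.mp hz.1).2, hz.2⟩
    have h3 : ∑ z ∈ Z, 8 = 8 * Z.card := by simp [mul_comm]
    omega
  have hsum : ∑ z ∈ Z, cov K X lab U i s z = ∑ z ∈ Z, flags K U l z
      + ∑ z ∈ Z, (if z.1 ≠ i ∧ lab i (!s) z.1 = z.2 then 1 else 0) := by
    rw [← sum_add_distrib]
    rfl
  have hfin := hcount.trans hflag
  rw [h8] at hfin
  split_ifs at hnum hpart <;> omega

theorem case_pos (G : Gadget K X lab U) {T : Finset (Option F × Option F)}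
    (hcard : T.card ≤ ord F) (hT : ∀ e, IsEdge K lab U e → ∃ j, (j, e j) ∈ T)
    {i : Option F} (hl : ∀ y : F, (i, y) ∉ K → (i, y) ∈ old T) : False := by
  classical
  set D := univ.filter (fun z : Pt F => z.1 = i ∧ z ∉ old T) with hD
  set Z := (old T).filter (fun z => ¬ z.1 = i) with hZ
  have hnum := pos_numbers T i hcard
  rw [← hD, ← hZ] at hnum
  have hDl : ∀ v ∈ D, v.1 = i ∧ v ∉ old T := by
    intro v hv
    rw [hD, mem_filter] at hv
    exact hv.2
  have hDK : ∀ v ∈ D, v ∈ K := by
    intro v hv
    obtain ⟨hv1, hv2⟩ := hDl v hv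
    by_contra hvK
    apply hv2
    have : ((i, v.2) : Pt F) = v := Prod.ext hv1.symm rfl
    have h := hl v.2 (by rw [this]; exact hvK)
    rwa [this] at h
  have hcount := count_pairs D Z U
    (fun v hv u hu => G.U_on v (hDK v hv) u hu)
    (fun z hz hzD => (mem_filter.mp hz).2 (hDl z hzD).1)
    (fun v hv u hu => by
      obtain ⟨z, hz, hzu⟩ := hit_line (hT _ (Or.inr (Or.inl ⟨v, hDK v hv, u, hu, rfl⟩)))
      refine ⟨z, mem_filter.mpr ⟨hz, ?_⟩, hzu⟩
      intro hzi
      have hvu : On v u := G.U_on v (hDK v hv) u hu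
      unfold On at hzu hvu
      have h2 : z = v := by
        have h1 : z.1 = v.1 := hzi.trans (hDl v hv).1.symm
        apply Prod.ext h1
        rw [← hzu, ← hvu, h1]
      exact (hDl v hv).2 (h2 ▸ hz))
  have hflag : ∑ z ∈ Z, (D.filter (fun v => ∃ u ∈ U v, On z u)).card
      ≤ ∑ z ∈ Z, pflags K U i z := by
    apply sum_le_sum
    intro z hz
    apply card_le_card
    intro v hv
    rw [mem_filter] at hv ⊢
    obtain ⟨hv1, u, hu, hzu⟩ := hv
    exact ⟨hDK v hv1, (hDl v hv1).1, u, hu, hzu⟩
  have h8 : ∑ v ∈ D, (U v).card = 8 * D.card := by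
    calc ∑ v ∈ D, (U v).card = ∑ v ∈ D, 8 := by
          apply sum_congr rfl
          intro v hv
          rw [G.U_card v (hDK v hv)]
      _ = 8 * D.card := by simp [mul_comm]
  have hpart : ∀ s, 1 ≤ (if (i, (none : Option F)) ∈ T then 1 else 0)
      + ∑ z ∈ Z, (if lab i s z.1 = z.2 then 1 else 0) := by
    intro s
    rcases hit_alt (hT _ (Or.inr (Or.inr ⟨i, s, rfl⟩))) with h | ⟨z, hz, hzi, hzl⟩
    · rw [if_pos h]
      omega
    · have hzZ : z ∈ Z := by
        rw [hZ, mem_filter]
        exact ⟨hz, hzi⟩
      have : (if lab i s z.1 = z.2 then 1 else 0) ≤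
          ∑ z ∈ Z, (if lab i s z.1 = z.2 then 1 else 0) :=
        single_le_sum (f := fun z : Pt F => if lab i s z.1 = z.2 then 1 else 0)
          (fun _ _ => Nat.zero_le _) hzZ
      rw [if_pos hzl] at this
      omega
  have hw : ∑ z ∈ Z, pflags K U i z + ∑ z ∈ Z, (if lab i true z.1 = z.2 then 1 else 0)
      + ∑ z ∈ Z, (if lab i false z.1 = z.2 then 1 else 0) ≤ 8 * Z.card := by
    rw [← sum_add_distrib, ← sum_add_distrib]
    calc _ ≤ ∑ z ∈ Z, 8 := by
          apply sum_le_sum
          intro z hz
          exact G.flags_pos i z (mem_filter.mp hz).2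
      _ = 8 * Z.card := by simp [mul_comm]
  have ht := hpart true
  have hf := hpart false
  have hfin := hcount.trans hflag
  rw [h8] at hfin
  split_ifs at hnum ht hf <;> omega

end gadget

end Cover

open Cover in
/-- the cover analysis -/
theorem specCover : SpecCover := by
  classical
  intro F _ _ _ K X lab U G hS
  refine ⟨univ.filter (fun e => IsEdge K lab U e), ?_, ?_, ?_⟩
  · exact ⟨altEdge lab none true, mem_filter.mpr ⟨mem_univ _, Or.inr (Or.inr ⟨_, _, rfl⟩)⟩⟩
  · intro e he f hf
    exact inter_all G (mem_filter.mp he).2 (mem_filter.mp hf).2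
  · intro T hT
    by_contra hlt
    have hcard : T.card ≤ ord F := by omega
    have hT' : ∀ e, IsEdge K lab U e → ∃ j, (j, e j) ∈ T := fun e he =>
      hT e (mem_filter.mpr ⟨mem_univ _, he⟩)
    have hold : (old T).card ≤ ord F := by
      have := card_old T none
      omega
    have hhit : ∀ l, Avoids K l → ∃ j, (j, val l j) ∈ old T := by
      intro l hl
      obtain ⟨z, hz, hzl⟩ := hit_line (hT' _ (Or.inl ⟨l, hl, rfl⟩))
      refine ⟨z.1, ?_⟩
      have : ((z.1, val l z.1) : Pt F) = z := Prod.ext rfl hzl
      rwa [this]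
    rcases hS (old T) hold hhit with ⟨l, hl⟩ | ⟨i, hi⟩
    · by_cases hX : ∀ i s, X i s ≠ l
      · exact case_line_plain G hcard hT' hl hX
      · push Not at hX
        obtain ⟨i, s, rfl⟩ := hX
        exact case_line_alt G hcard hT' hl
    · exact case_pos G hcard hT' hi

end Crest.Agent.R034
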