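import Mathlib

/-!
# Row 34 (S0045/S0046): master definitions and module interfaces

PRIMAL model (truncated plane of order `q = card F`):
* positions (= parts) `Option F`; points (= old vertices) `Pt F = Option F × F`;
* lines not through the centre: `Ln F = F × F`, `val (m,b) (some x) = m*x+b`, `val (m,b) none = m`
  (two distinct lines agree in exactly one position, two points in distinct positions
  are on exactly one line);
* new vertices: `(i, none)`; edges are functions `Option F → Option F`.

Every module is stated as a `Prop` (`SpecXxx`), so all modules can be proved independently and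
without `sorry`; `Final.lean` combines them.
-/

set_option autoImplicit false

namespace Crest.Agent.R034

open Finset

/-- points of the truncated plane -/
abbrev Pt (F : Type) := Option F × F
/-- lines (not through the centre) -/
abbrev Ln (F : Type) := F × F

variable {F : Type} [Field F]

/-- the value of the line `l` at position `i` -/
def val (l : Ln F) : Option F → F
  | none => l.1
  | some x => l.1 * x + l.2

/-- `z` is on `l` -/
def On (z : Pt F) (l : Ln F) : Prop := val l z.1 = z.2

/-- the line through two points (meaningful if the positions differ) -/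
def thru : Pt F → Pt F → Ln F
  | (some x, y), (some x', y') => ((y' - y) / (x' - x), y - (y' - y) / (x' - x) * x)
  | (none, m), (some x, y) => (m, y - m * x)
  | (some x, y), (none, m) => (m, y - m * x)
  | (none, m), (none, _) => (m, 0)

variable [Fintype F] [DecidableEq F]

instance (z : Pt F) (l : Ln F) : Decidable (On z l) := inferInstanceAs (Decidable (_ = _))

/-- the order of the plane -/
abbrev ord (F : Type) [Fintype F] : ℕ := Fintype.card F

/-- `l` has no point of `K` -/
def Avoids (K : Finset (Pt F)) (l : Ln F) : Prop := ∀ i, (i, val l i) ∉ K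
/-- `l` has no point of `K` in a position other than that of `z` -/
def AvoidsOff (K : Finset (Pt F)) (z : Pt F) (l : Ln F) : Prop := ∀ i, i ≠ z.1 → (i, val l i) ∉ K

instance (K : Finset (Pt F)) (l : Ln F) : Decidable (Avoids K l) :=
  inferInstanceAs (Decidable (∀ _, _))
instance (K : Finset (Pt F)) (z : Pt F) (l : Ln F) : Decidable (AvoidsOff K z l) :=
  inferInstanceAs (Decidable (∀ _, _))

/-- number of removed (potentially special) points per position -/
abbrev kap : ℕ := 1000

/-- the random object: `kap` values for every position -/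
abbrev RR (F : Type) := Option F → Fin kap → F

/-- the point set of `R` -/
def Kset (R : RR F) : Finset (Pt F) := univ.filter (fun z => ∃ r, R z.1 r = z.2)

/-- positions `≠ i` in which `l` hits `Kset R` -/
def hits (R : RR F) (l : Ln F) (i : Option F) : Finset (Option F) :=
  univ.filter (fun j => j ≠ i ∧ (j, val l j) ∈ Kset R)

/-- positions `≠ i` in which `l` goes through the main point `R j 0` -/
def mhits (R : RR F) (l : Ln F) (i : Option F) : Finset (Option F) :=
  univ.filter (fun j => j ≠ i ∧ val l j = R j 0)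

/-- lines through `z` avoiding `Kset R` elsewhere -/
def N0 (R : RR F) (z : Pt F) : ℕ :=
  (univ.filter (fun l : Ln F => On z l ∧ AvoidsOff (Kset R) z l)).card

/-- lines through `z` with exactly 9 further hits, none of them main -/
def N1 (R : RR F) (z : Pt F) : ℕ :=
  (univ.filter (fun l : Ln F => On z l ∧ (hits R l z.1).card = 9 ∧ (mhits R l z.1).card = 0)).card

/-- lines through `z` with exactly 9 further hits, exactly one of them main -/
def N2 (R : RR F) (z : Pt F) : ℕ :=
  (univ.filter (fun l : Ln F => On z l ∧ (hits R l z.1).card = 9 ∧ (mhits R l z.1).card = 1)).card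

/-- expected degree -/
noncomputable def D0 (q : ℕ) : ℝ := q * (1 - 1 / (q : ℝ)) ^ (kap * q)

/-- (R1) degree regularity; `k` is a small power of `q` -/
def R1 (R : RR F) (k : ℕ) : Prop :=
  ∀ z : Pt F, |(N0 R z : ℝ) - D0 (ord F)| ≤ k * Real.sqrt (ord F)

/-- (R2) many candidate lines, few conflicts -/
def R2 (R : RR F) : Prop := ∀ z z' : Pt F, 4 * (18 * N2 R z' + 9000) ≤ N1 R z

/-- a `k × k` grid of distinct lines in general position -/
structure Grid (k : ℕ) (T W : Fin k → Pt F) : Prop where
  pos : ∀ i j, (T i).1 ≠ (W j).1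
  inj : ∀ i j i' j', thru (T i) (W j) = thru (T i') (W j') → i = i' ∧ j = j'
  two : ∀ z : Pt F, (∀ i, T i ≠ z) → (∀ j, W j ≠ z) →
    (univ.filter (fun c : Fin k × Fin k => On z (thru (T c.1) (W c.2)))).card ≤ 2

/-- (R3) every `k × k` grid off `Kset R` has a line avoiding `Kset R` -/
def R3 (R : RR F) (k : ℕ) : Prop :=
  ∀ T W : Fin k → Pt F, Grid k T W → (∀ i, T i ∉ Kset R) → (∀ j, W j ∉ Kset R) →
    ∃ i j, Avoids (Kset R) (thru (T i) (W j))

/-- (R4) many choices for the labels `w` -/
def R4 (R : RR F) (c : ℝ) : Prop :=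
  ∀ (j j' : Option F) (v : Pt F) (A A' : Finset (Pt F)), j ≠ j' → v.1 ≠ j → v.1 ≠ j' →
    (∀ a ∈ A, a.1 ≠ j) → (∀ a ∈ A', a.1 ≠ j') → A.card ≤ 8 → A'.card ≤ 8 →
    c * ord F ≤ ((univ.filter (fun y : F =>
      AvoidsOff (Kset R) v (thru v (j, y)) ∧
      (∀ a ∈ A, AvoidsOff (Kset R) a (thru a (j, y))) ∧
      (∀ a ∈ A', AvoidsOff (Kset R) a (thru a (j', val (thru v (j, y)) j'))))).card : ℝ)

/-- (R5) no line is rich in `Kset R` -/
def R5 (R : RR F) (k : ℕ) : Prop :=
  ∀ l : Ln F, (univ.filter (fun j => (j, val l j) ∈ Kset R)).card ≤ k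

/-! ## Selection 1: the altered lines -/

/-- the two altered lines `X i true`, `X i false` of every position -/
structure GoodX (R : RR F) (X : Option F → Bool → Ln F) : Prop where
  on_main : ∀ i s, val (X i s) i = R i 0
  nine : ∀ i s, (hits R (X i s) i).card = 9
  no_main : ∀ i s j, j ≠ i → val (X i s) j ≠ R j 0
  disj : ∀ i j, j ∈ hits R (X i true) i → j ∉ hits R (X i false) i
  ne : ∀ i, X i true ≠ X i false
  priv : ∀ i s i' s' j, i ≠ i' → val (X i s) j = val (X i' s') j →
    (j, val (X i s) j) ∉ Kset R

/-! ## Gadget systems -/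

/-- number of special points on `l` having a designated line through `z` -/
def flags (K : Finset (Pt F)) (U : Pt F → Finset (Ln F)) (l : Ln F) (z : Pt F) : ℕ :=
  (K.filter (fun v => On v l ∧ ∃ u ∈ U v, On z u)).card

/-- number of special points in position `i` having a designated line through `z` -/
def pflags (K : Finset (Pt F)) (U : Pt F → Finset (Ln F)) (i : Option F) (z : Pt F) : ℕ :=
  (K.filter (fun v => v.1 = i ∧ ∃ u ∈ U v, On z u)).card

/-- number of edges (designated for a special point of `X i s`, or the partner altered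
edge) through `z` -/
def cov (K : Finset (Pt F)) (X : Option F → Bool → Ln F) (lab : Option F → Bool → Option F → F)
    (U : Pt F → Finset (Ln F)) (i : Option F) (s : Bool) (z : Pt F) : ℕ :=
  flags K U (X i s) z + (if z.1 ≠ i ∧ lab i (!s) z.1 = z.2 then 1 else 0)

/-- A complete gadget system. `K` = special points, `X i s` = altered lines,
`lab i s j` = label of the altered edge `(i,s)` in position `j ≠ i` (its label in position `i`
is the new vertex), `U v` = the 8 designated lines of `v ∈ K`. -/
structure Gadget (K : Finset (Pt F)) (X : Option F → Bool → Ln F)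
    (lab : Option F → Bool → Option F → F) (U : Pt F → Finset (Ln F)) : Prop where
  main_same : ∀ i, val (X i true) i = val (X i false) i
  main_mem : ∀ i s, (i, val (X i s) i) ∈ K
  ne : ∀ i, X i true ≠ X i false
  priv : ∀ i s i' s' j, i ≠ i' → val (X i s) j = val (X i' s') j → (j, val (X i s) j) ∉ K
  lab_nat : ∀ i s j, j ≠ i → (j, val (X i s) j) ∉ K → lab i s j = val (X i s) j
  U_on : ∀ v ∈ K, ∀ u ∈ U v, On v u
  U_off : ∀ v ∈ K, ∀ u ∈ U v, AvoidsOff K v u
  U_card : ∀ v ∈ K, (U v).card = 8
  serve : ∀ i s, ∀ v ∈ K, On v (X i s) → ∀ u ∈ U v, ∃ j, j ≠ i ∧ lab i s j = val u j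
  flags_line : ∀ l, (∀ i s, X i s ≠ l) → ∀ z, ¬ On z l → flags K U l z ≤ 8
  flags_pos : ∀ i, ∀ z : Pt F, z.1 ≠ i →
    pflags K U i z + (if lab i true z.1 = z.2 then 1 else 0)
      + (if lab i false z.1 = z.2 then 1 else 0) ≤ 8
  two_le : ∀ i s, 2 ≤ (K.filter (fun v => On v (X i s))).card
  other : ∀ i s j, j ≠ i → lab i (!s) j ≠ val (X i s) j
  cov_le : ∀ i s z, ¬ On z (X i s) → cov K X lab U i s z ≤ 9
  cov_nine : ∀ i s, (univ.filter (fun z : Pt F =>
    ¬ On z (X i s) ∧ cov K X lab U i s z = 9)).card ≤ 8

/-- the stability property of a set `K` of special points -/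
def Stable (K : Finset (Pt F)) : Prop :=
  ∀ T : Finset (Pt F), T.card ≤ ord F →
    (∀ l, Avoids K l → ∃ j, (j, val l j) ∈ T) →
    (∃ l : Ln F, ∀ j, (j, val l j) ∉ K → (j, val l j) ∈ T) ∨
    (∃ i : Option F, ∀ y : F, (i, y) ∉ K → (i, y) ∈ T)

/-- the conclusion in function language -/
def GoodFamily (F : Type) [Field F] [Fintype F] [DecidableEq F] : Prop :=
  ∃ E : Finset (Option F → Option F), E.Nonempty ∧
    (∀ e ∈ E, ∀ f ∈ E, ∃ i, e i = f i) ∧
    (∀ T : Finset (Option F × Option F), (∀ e ∈ E, ∃ i, (i, e i) ∈ T) → ord F + 1 ≤ T.card)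

end Crest.Agent.R034
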