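import Crest.Agent.R034.Plane
import Crest.Agent.R034.Spec

/-! Transfer of `GoodFamily` to the hypergraph statements, and the combination of all modules. -/

set_option autoImplicit false

namespace Crest.Agent.R034

open Finset

/-- the hypergraph statement with a general number `r` of parts -/
def Hyper (r : ℕ) : Prop :=
  ∃ (N : ℕ) (part : Fin N → Fin r) (E : Finset (Finset (Fin N))),
    E.Nonempty ∧
    (∀ e ∈ E, ∀ i : Fin r, (e.filter (fun v => part v = i)).card = 1) ∧
    (∀ e ∈ E, ∀ f ∈ E, (e ∩ f).Nonempty) ∧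
    (∀ i : Fin r, (Finset.univ.filter (fun v => part v = i)).card = r) ∧
    (∀ v : Fin N, ∃ e ∈ E, v ∈ e) ∧
    (∀ S : Finset (Fin N), (∀ e ∈ E, (e ∩ S).Nonempty) → r ≤ S.card)

theorem hyper_of_goodFamily (F : Type) [Field F] [Fintype F] [DecidableEq F]
    (h : GoodFamily F) : Hyper (ord F + 1) := by
  classical
  obtain ⟨E0, hne, hint, hcov⟩ := h
  let eV : (Option F × Option F) ≃ Fin (Fintype.card (Option F × Option F)) :=
    Fintype.equivFin _
  let ep : Option F ≃ Fin (ord F + 1) := Fintype.equivFinOfCardEq (by simp [Fintype.card_option])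
  -- every vertex is used
  have hused : ∀ v : Option F × Option F, ∃ e ∈ E0, e v.1 = v.2 := by
    rintro ⟨i, y⟩
    by_contra hcon
    push Not at hcon
    have h1 := hcov ((univ.filter (fun y' : Option F => y' ≠ y)).image (fun y' => (i, y')))
      (by
        intro e he
        refine ⟨i, ?_⟩
        simp only [mem_image, mem_filter, mem_univ, true_and, Prod.mk.injEq, exists_eq_right]
        exact hcon e he)
    have h2 : ((univ.filter (fun y' : Option F => y' ≠ y)).image
        (fun y' => (i, y'))).card ≤ ord F := by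
      refine card_image_le.trans ?_
      rw [filter_ne', card_erase_of_mem (mem_univ _), card_univ, Fintype.card_option]
      simp
    omega
  let mk : (Option F → Option F) → Finset (Fin (Fintype.card (Option F × Option F))) :=
    fun f => univ.image (fun i => eV (i, f i))
  have hmk : ∀ f v, v ∈ mk f ↔ f (eV.symm v).1 = (eV.symm v).2 := by
    intro f v
    simp only [mk, mem_image, mem_univ, true_and]
    constructor
    · rintro ⟨i, rfl⟩
      simp
    · intro hv
      refine ⟨(eV.symm v).1, ?_⟩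
      rw [hv]
      simp
  refine ⟨Fintype.card (Option F × Option F), fun v => ep (eV.symm v).1, E0.image mk, ?_, ?_, ?_,
    ?_, ?_, ?_⟩
  · exact hne.image _
  · intro e he i
    simp only [mem_image] at he
    obtain ⟨f, _, rfl⟩ := he
    rw [card_eq_one]
    refine ⟨eV (ep.symm i, f (ep.symm i)), ?_⟩
    ext v
    simp only [mem_filter, hmk, mem_singleton]
    constructor
    · rintro ⟨h1, h2⟩
      have h3 : (eV.symm v).1 = ep.symm i := by
        rw [← h2]; simp
      apply eV.symm.injective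
      rw [eV.symm_apply_apply]
      apply Prod.ext h3
      rw [← h1, h3]
    · rintro rfl
      simp
  · intro e he f hf
    simp only [mem_image] at he hf
    obtain ⟨e', he', rfl⟩ := he
    obtain ⟨f', hf', rfl⟩ := hf
    obtain ⟨i, hi⟩ := hint e' he' f' hf'
    refine ⟨eV (i, e' i), ?_⟩
    rw [mem_inter, hmk, hmk]
    simp [hi]
  · intro i
    have : (univ.filter (fun v : Fin (Fintype.card (Option F × Option F)) =>
        ep (eV.symm v).1 = i)) = (univ : Finset (Option F)).image (fun y => eV (ep.symm i, y)) := by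
      ext v
      simp only [mem_filter, mem_univ, true_and, mem_image]
      constructor
      · intro h2
        refine ⟨(eV.symm v).2, ?_⟩
        rw [← h2]
        simp
      · rintro ⟨y, rfl⟩
        simp
    rw [this, card_image_of_injective]
    · simp [Fintype.card_option]
    · intro y y' hy
      simpa using hy
  · intro v
    obtain ⟨e, he, h1⟩ := hused (eV.symm v)
    exact ⟨mk e, mem_image_of_mem _ he, (hmk _ _).mpr h1⟩
  · intro S hS
    have h1 := hcov (S.image eV.symm) (by
      intro e he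
      obtain ⟨v, hv⟩ := hS (mk e) (mem_image_of_mem _ he)
      rw [mem_inter, hmk] at hv
      refine ⟨(eV.symm v).1, ?_⟩
      rw [hv.1, mem_image]
      exact ⟨v, hv.2, rfl⟩)
    rwa [card_image_of_injective _ eV.symm.injective] at h1

/-- existence of an integer root -/
theorem exists_isRoot (N q : ℕ) (hN : 1 ≤ N) : ∃ k, IsRoot N k q := by
  classical
  have hex : ∃ m : ℕ, q < (m + 1) ^ N :=
    ⟨q, (Nat.lt_succ_self q).trans_le (Nat.le_self_pow (by omega) _)⟩
  refine ⟨Nat.find hex, ?_, Nat.find_spec hex⟩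
  by_contra hcon
  push Not at hcon
  rcases Nat.eq_zero_or_pos (Nat.find hex) with h0 | h0
  · rw [h0, zero_pow (by omega)] at hcon
    omega
  · have h2 := Nat.find_min hex (m := Nat.find hex - 1) (by omega)
    rw [Nat.sub_add_cancel h0] at h2
    exact h2 hcon

/-- the combination of all modules -/
theorem exists_goodFamily (hS : SpecStab) (h1 : SpecR1) (h2 : SpecR2) (h3 : SpecR3)
    (h4 : SpecR4) (h5 : SpecR5) (hX : SpecX) (hW : SpecW) (hC : SpecCover) :
    ∃ q0 : ℕ, ∀ (F : Type) [Field F] [Fintype F] [DecidableEq F], ¬ IsSquare (ord F) →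
      q0 ≤ ord F → GoodFamily F := by
  obtain ⟨N, hN, qS, hS⟩ := hS
  obtain ⟨c, hc, q4, h4⟩ := h4
  obtain ⟨qW, hW⟩ := hW c hc
  obtain ⟨q2, h2⟩ := h2
  obtain ⟨q5, h5⟩ := h5 20 (by omega)
  obtain ⟨q1, h1⟩ := h1 N hN
  obtain ⟨q3, h3⟩ := h3 N hN
  refine ⟨qS + q4 + qW + q2 + q5 + q1 + q3, ?_⟩
  intro F _ _ _ hns hq
  obtain ⟨k, hk⟩ := exists_isRoot N (ord F) hN
  obtain ⟨k', hk'⟩ := exists_isRoot 20 (ord F) (by omega)
  obtain ⟨B1, hB1, c1⟩ := h1 F (by omega) k hk
  obtain ⟨B2, hB2, c2⟩ := h2 F (by omega)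
  obtain ⟨B3, hB3, c3⟩ := h3 F (by omega) k hk
  obtain ⟨B4, hB4, c4⟩ := h4 F (by omega)
  obtain ⟨B5, hB5, c5⟩ := h5 F (by omega) k' hk'
  have hpos : 0 < Fintype.card (RR F) := Fintype.card_pos
  have hex : ∃ R : RR F, R ∉ B1 ∪ B2 ∪ B3 ∪ B4 ∪ B5 := by
    by_contra hcon
    push Not at hcon
    have hu : (B1 ∪ B2 ∪ B3 ∪ B4 ∪ B5) = univ := eq_univ_iff_forall.mpr hcon
    have h6 : Fintype.card (RR F) ≤ B1.card + B2.card + B3.card + B4.card + B5.card := by
      calc Fintype.card (RR F) = (univ : Finset (RR F)).card := rfl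
        _ = (B1 ∪ B2 ∪ B3 ∪ B4 ∪ B5).card := by rw [hu]
        _ ≤ (B1 ∪ B2 ∪ B3 ∪ B4).card + B5.card := card_union_le _ _
        _ ≤ (B1 ∪ B2 ∪ B3).card + B4.card + B5.card := by gcongr; exact card_union_le _ _
        _ ≤ (B1 ∪ B2).card + B3.card + B4.card + B5.card := by gcongr; exact card_union_le _ _
        _ ≤ _ := by gcongr; exact card_union_le _ _
    omega
  obtain ⟨R, hR⟩ := hex
  simp only [mem_union, not_or] at hR
  obtain ⟨⟨⟨⟨hR1, hR2⟩, hR3⟩, hR4⟩, hR5⟩ := hR
  obtain ⟨X, hX⟩ := hX F R (hB2 R hR2)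
  obtain ⟨K, lab, U, hK, hG⟩ := hW F (by omega) k' hk'.1 R X (hB4 R hR4) (hB5 R hR5) hX
  exact hC F K X lab U hG (hS F hns (by omega) k hk R (hB1 R hR1) (hB3 R hR3) K hK)

theorem not_isSquare_prime_pow {s n : ℕ} (hs : s.Prime) (hn : Odd n) : ¬ IsSquare (s ^ n) := by
  rintro ⟨m, hm⟩
  have h1 := congrArg (fun x => x.factorization s) hm
  have hm0 : m ≠ 0 := by
    rintro rfl
    simp only [mul_zero] at hm
    exact absurd hm (pow_ne_zero _ hs.ne_zero)
  simp only [Nat.factorization_pow, Nat.factorization_mul hm0 hm0, Finsupp.smul_apply,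
    Finsupp.add_apply, hs.factorization_self, smul_eq_mul, mul_one] at h1
  obtain ⟨t, ht⟩ := hn
  omega

/-- S0045 from the field statement -/
theorem s0045_of (h : ∃ q0 : ℕ, ∀ (F : Type) [Field F] [Fintype F] [DecidableEq F],
    ¬ IsSquare (ord F) → q0 ≤ ord F → GoodFamily F) :
    ∃ q₀ : ℕ, ∀ q : ℕ, q₀ ≤ q → q.Prime → Hyper (q + 1) := by
  obtain ⟨q0, h⟩ := h
  refine ⟨q0, fun q hq hp => ?_⟩
  have : Fact q.Prime := ⟨hp⟩
  have hc : ord (ZMod q) = q := ZMod.card q
  have hns : ¬ IsSquare (ord (ZMod q)) := by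
    rw [hc]
    have := not_isSquare_prime_pow (n := 1) hp odd_one
    rwa [pow_one] at this
  have := hyper_of_goodFamily (ZMod q) (h (ZMod q) hns (by rw [hc]; exact hq))
  rwa [hc] at this

/-- S0046 from the field statement -/
theorem s0046_of (h : ∃ q0 : ℕ, ∀ (F : Type) [Field F] [Fintype F] [DecidableEq F],
    ¬ IsSquare (ord F) → q0 ≤ ord F → GoodFamily F) :
    ∃ q₀ : ℕ, ∀ s n : ℕ, q₀ ≤ n → s.Prime → Odd n → Hyper (s ^ n + 1) := by
  classical
  obtain ⟨q0, h⟩ := h
  refine ⟨q0, fun s n hq hp hn => ?_⟩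
  have : Fact s.Prime := ⟨hp⟩
  have hn0 : n ≠ 0 := by rintro rfl; simp at hn
  have : Fintype (GaloisField s n) := Fintype.ofFinite _
  have hc : ord (GaloisField s n) = s ^ n := by
    rw [← GaloisField.card s n hn0, Nat.card_eq_fintype_card]
  have hns : ¬ IsSquare (ord (GaloisField s n)) := by
    rw [hc]; exact not_isSquare_prime_pow hp hn
  have hbig : q0 ≤ s ^ n := hq.trans (Nat.lt_pow_self hp.one_lt).le
  have := hyper_of_goodFamily (GaloisField s n) (h (GaloisField s n) hns (by rw [hc]; exact hbig))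
  rwa [hc] at this

end Crest.Agent.R034
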