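import Mathlib

set_option autoImplicit false

/-! First moment selection in a finite product space. helper615 -/

open Finset

namespace Crest.Agent.R034

open Classical in
/-- If the bad events `t ∈ T` (`B t i (y i)` for all `i ∈ J t`) have total density `< 1`,
some choice `y i ∈ G i` avoids all of them. -/
theorem exists_avoid {ι α τ : Type*} [Fintype ι] (G : ι → Finset α) (hG : ∀ i, (G i).Nonempty)
    (T : Finset τ) (J : τ → Finset ι) (B : τ → ι → α → Prop) (β : τ → ℝ)
    (hB : ∀ t ∈ T, ∀ i ∈ J t, (((G i).filter (B t i)).card : ℝ) ≤ β t * (G i).card)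
    (hsum : ∑ t ∈ T, (β t) ^ (J t).card < 1) :
    ∃ y : ι → α, (∀ i, y i ∈ G i) ∧ ∀ t ∈ T, ∃ i ∈ J t, ¬ B t i (y i) := by
  by_contra hcon
  push Not at hcon
  set Y : Finset (ι → α) := Fintype.piFinset G with hY
  have hYcard : (Y.card : ℝ) = ∏ i, ((G i).card : ℝ) := by
    rw [hY, Fintype.card_piFinset]; push_cast; rfl
  have hYpos : (0 : ℝ) < Y.card := by
    rw [hYcard]
    exact prod_pos fun i _ => by exact_mod_cast (hG i).card_pos
  have hsub : Y ⊆ T.biUnion (fun t =>
      Fintype.piFinset (fun i => if i ∈ J t then (G i).filter (B t i) else G i)) := by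
    intro y hy
    rw [hY, Fintype.mem_piFinset] at hy
    obtain ⟨t, ht, h⟩ := hcon y hy
    simp only [mem_biUnion, Fintype.mem_piFinset]
    refine ⟨t, ht, fun i => ?_⟩
    by_cases hi : i ∈ J t
    · simp only [hi, if_true, mem_filter]
      exact ⟨hy i, h i hi⟩
    · simp only [hi, if_false]
      exact hy i
  have h1 : (Y.card : ℝ) ≤ ∑ t ∈ T, (β t) ^ (J t).card * (Y.card : ℝ) := by
    calc (Y.card : ℝ) ≤ ((∑ t ∈ T, (Fintype.piFinset
          (fun i => if i ∈ J t then (G i).filter (B t i) else G i)).card : ℕ) : ℝ) := by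
          exact_mod_cast (card_le_card hsub).trans card_biUnion_le
      _ = ∑ t ∈ T, ∏ i, (((if i ∈ J t then (G i).filter (B t i) else G i).card : ℕ) : ℝ) := by
          push_cast [Fintype.card_piFinset]
          rfl
      _ ≤ ∑ t ∈ T, (β t) ^ (J t).card * (Y.card : ℝ) := by
          refine sum_le_sum fun t ht => ?_
          rw [hYcard]
          calc ∏ i, (((if i ∈ J t then (G i).filter (B t i) else G i).card : ℕ) : ℝ)
              ≤ ∏ i, ((if i ∈ J t then β t else 1) * ((G i).card : ℝ)) := by
                refine prod_le_prod (fun i _ => Nat.cast_nonneg _) fun i _ => ?_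
                by_cases hi : i ∈ J t
                · simp only [hi, if_true]
                  exact hB t ht i hi
                · simp only [hi, if_false, one_mul]
                  exact le_rfl
            _ = _ := by
                rw [prod_mul_distrib, Fintype.prod_ite_mem, prod_const]
  rw [← sum_mul] at h1
  nlinarith [h1, hsum, hYpos]

end Crest.Agent.R034
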