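import Mathlib

/-!
# McDiarmid's bounded differences inequality on finite product types, in counting form

`X : ι → Type*` finite nonempty types, `F : (∀ i, X i) → ℝ` with
`|F x - F (update x i y)| ≤ c i`.  With `mean F = (∑ x, F x) / card`,

* `sum_exp_le`        : `∑ x, exp (t * F x) ≤ exp (t ^ 2 * (∑ i, c i ^ 2) / 8) * (card * exp (t * mean F))`
* `card_upper_tail`   : `#{x | mean F + s ≤ F x} ≤ exp (-2 * s ^ 2 / ∑ i, c i ^ 2) * card`
* `card_lower_tail`   : `#{x | F x ≤ mean F - s} ≤ exp (-2 * s ^ 2 / ∑ i, c i ^ 2) * card`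
-/

set_option autoImplicit false
set_option linter.unusedSectionVars false
open Finset MeasureTheory ProbabilityTheory

namespace Crest.Agent.R034.McD

/-! ### Hoeffding's lemma for the uniform distribution on a finite type -/

theorem hoeffding_uniform {Y : Type*} [Fintype Y] [Nonempty Y] (g : Y → ℝ) (c : ℝ)
    (hg : ∀ y z, |g y - g z| ≤ c) (t : ℝ) :
    ∑ y, Real.exp (t * g y) ≤
      Real.exp (t ^ 2 * c ^ 2 / 8) *
        ((Fintype.card Y : ℝ) * Real.exp (t * ((∑ y, g y) / Fintype.card Y))) := by
  classical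
  let _ : MeasurableSpace Y := ⊤
  have _ : MeasurableSingletonClass Y := ⟨fun _ => trivial⟩
  have hcard : (0 : ℝ) < Fintype.card Y := by exact_mod_cast Fintype.card_pos
  have hc0 : 0 ≤ c := le_trans (abs_nonneg _) (hg (Classical.arbitrary Y) (Classical.arbitrary Y))
  let μ : Measure Y := ((Fintype.card Y : ENNReal)⁻¹) • Measure.count
  have hμ : IsProbabilityMeasure μ := by
    constructor
    simp only [μ, Measure.smul_apply, smul_eq_mul, Measure.count_univ, ENat.card_eq_coe_fintype_card]
    rw [mul_comm]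
    simp only [ENat.toENNReal_coe]
    exact ENNReal.mul_inv_cancel (by exact_mod_cast Fintype.card_ne_zero) (by simp)
  have hint : ∀ h : Y → ℝ, ∫ y, h y ∂μ = (∑ y, h y) / Fintype.card Y := by
    intro h
    simp only [μ]
    rw [integral_smul_measure, integral_count]
    simp [ENNReal.toReal_inv, div_eq_inv_mul]
  obtain ⟨y0, hy0⟩ := Finite.exists_min g
  have hmem : ∀ᵐ ω ∂μ, g ω ∈ Set.Icc (g y0) (g y0 + c) := by
    filter_upwards with ω
    refine ⟨hy0 ω, ?_⟩
    have := hg ω y0
    rw [abs_le] at this
    linarith [this.2]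
  have h := (hasSubgaussianMGF_of_mem_Icc (μ := μ) (X := g)
    (measurable_of_finite g).aemeasurable hmem).mgf_le t
  have hm : ∫ y, g y ∂μ = (∑ y, g y) / Fintype.card Y := hint g
  simp only [mgf] at h
  rw [hint, hm] at h
  have hsplit : ∑ y, Real.exp (t * (g y - (∑ y, g y) / Fintype.card Y)) =
      (∑ y, Real.exp (t * g y)) * Real.exp (-(t * ((∑ y, g y) / Fintype.card Y))) := by
    rw [Finset.sum_mul]
    refine Finset.sum_congr rfl fun y _ => ?_
    rw [← Real.exp_add]
    congr 1
    ring
  rw [hsplit] at h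
  have hcoef : ((((‖g y0 + c - g y0‖₊ / 2) ^ 2 : NNReal)) : ℝ) * t ^ 2 / 2 = t ^ 2 * c ^ 2 / 8 := by
    have : ((‖g y0 + c - g y0‖₊ : NNReal) : ℝ) = c := by
      rw [add_sub_cancel_left]
      simp [abs_of_nonneg hc0]
    push_cast
    rw [show g y0 + c - g y0 = c by ring, Real.norm_eq_abs, abs_of_nonneg hc0]
    ring
  rw [hcoef] at h
  rw [div_le_iff₀ hcard] at h
  have hpos : 0 < Real.exp (t * ((∑ y, g y) / Fintype.card Y)) := Real.exp_pos _
  have := mul_le_mul_of_nonneg_right h hpos.le
  rw [mul_assoc, ← Real.exp_add, neg_add_cancel, Real.exp_zero, mul_one] at this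
  linarith [this]

/-! ### One coordinate averaging -/

section prod

variable {ι : Type*} [Fintype ι] [DecidableEq ι] {X : ι → Type*} [∀ i, Fintype (X i)]
  [∀ i, Nonempty (X i)]

/-- average over the coordinate `i` -/
noncomputable def avg (i : ι) (F : (∀ i, X i) → ℝ) : (∀ i, X i) → ℝ := fun x =>
  (∑ y : X i, F (Function.update x i y)) / Fintype.card (X i)

/-- average over all coordinates -/
noncomputable def mean (F : (∀ i, X i) → ℝ) : ℝ := (∑ x, F x) / Fintype.card (∀ i, X i)

theorem sum_update (i : ι) (F : (∀ i, X i) → ℝ) :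
    ∑ x : (∀ i, X i), ∑ y : X i, F (Function.update x i y) = (Fintype.card (X i) : ℝ) * ∑ x, F x := by
  classical
  -- the map `(x, y) ↦ (update x i y, x i)` is an involution-like bijection
  rw [← Fintype.sum_prod_type' (f := fun (x : ∀ i, X i) (y : X i) => F (Function.update x i y))]
  have : ∑ p : (∀ i, X i) × X i, F (Function.update p.1 i p.2) =
      ∑ p : (∀ i, X i) × X i, F p.1 := by
    refine Fintype.sum_bijective (fun p : (∀ i, X i) × X i => (Function.update p.1 i p.2, p.1 i)) ?_ _ _
      (fun p => rfl)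
    refine Function.Involutive.bijective ?_
    intro p
    ext1
    · simp
    · simp
  rw [this, Fintype.sum_prod_type]
  simp [Finset.mul_sum]

theorem sum_avg (i : ι) (F : (∀ i, X i) → ℝ) : ∑ x, avg i F x = ∑ x, F x := by
  have hc : (Fintype.card (X i) : ℝ) ≠ 0 := by exact_mod_cast Fintype.card_ne_zero
  simp only [avg]
  rw [← Finset.sum_div, sum_update]
  field_simp

theorem avg_update_self (i : ι) (F : (∀ i, X i) → ℝ) (x : ∀ i, X i) (y : X i) :
    avg i F (Function.update x i y) = avg i F x := by
  simp [avg]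

theorem avg_update_of_forall {i j : ι} (F : (∀ i, X i) → ℝ)
    (h : ∀ x (y : X j), F (Function.update x j y) = F x) (x : ∀ i, X i) (y : X j) :
    avg i F (Function.update x j y) = avg i F x := by
  rcases eq_or_ne i j with rfl | hij
  · exact avg_update_self i F x y
  · simp only [avg]
    congr 1
    refine Finset.sum_congr rfl fun z _ => ?_
    rw [Function.update_comm hij.symm, h]

theorem avg_osc {i j : ι} (F : (∀ i, X i) → ℝ) (c : ℝ)
    (h : ∀ x (y : X j), |F x - F (Function.update x j y)| ≤ c) (x : ∀ i, X i) (y : X j) :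
    |avg i F x - avg i F (Function.update x j y)| ≤ c := by
  have hc0 : 0 ≤ c := le_trans (abs_nonneg _) (h x y)
  rcases eq_or_ne i j with rfl | hij
  · rw [avg_update_self]; simpa using hc0
  · have hc : (0 : ℝ) < Fintype.card (X i) := by exact_mod_cast Fintype.card_pos
    simp only [avg]
    rw [← sub_div, ← Finset.sum_sub_distrib, abs_div, abs_of_pos hc, div_le_iff₀ hc]
    refine (Finset.abs_sum_le_sum_abs _ _).trans ?_
    calc ∑ z : X i, |F (Function.update x i z) - F (Function.update (Function.update x j y) i z)|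
        ≤ ∑ _z : X i, c := by
          refine Finset.sum_le_sum fun z _ => ?_
          rw [Function.update_comm hij.symm]
          exact h _ y
      _ = c * Fintype.card (X i) := by simp [mul_comm]

theorem sum_exp_avg_le (i : ι) (F : (∀ i, X i) → ℝ) (c t : ℝ)
    (h : ∀ x (y : X i), |F x - F (Function.update x i y)| ≤ c) :
    ∑ x, Real.exp (t * F x) ≤
      Real.exp (t ^ 2 * c ^ 2 / 8) * ∑ x, Real.exp (t * avg i F x) := by
  have hc : (0 : ℝ) < Fintype.card (X i) := by exact_mod_cast Fintype.card_pos
  have key : ∀ x : (∀ i, X i), ∑ y : X i, Real.exp (t * F (Function.update x i y)) ≤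
      Real.exp (t ^ 2 * c ^ 2 / 8) *
        ((Fintype.card (X i) : ℝ) * Real.exp (t * avg i F x)) := by
    intro x
    refine hoeffding_uniform (fun y : X i => F (Function.update x i y)) c ?_ t
    intro y z
    have := h (Function.update x i y) z
    simpa using this
  have h1 : ∑ x : (∀ i, X i), ∑ y : X i, Real.exp (t * F (Function.update x i y)) =
      (Fintype.card (X i) : ℝ) * ∑ x, Real.exp (t * F x) :=
    sum_update i (fun x => Real.exp (t * F x))
  have h2 : ∑ x : (∀ i, X i), ∑ y : X i, Real.exp (t * F (Function.update x i y)) ≤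
      ∑ x : (∀ i, X i), Real.exp (t ^ 2 * c ^ 2 / 8) *
        ((Fintype.card (X i) : ℝ) * Real.exp (t * avg i F x)) :=
    Finset.sum_le_sum fun x _ => key x
  rw [h1, ← Finset.mul_sum, ← Finset.mul_sum] at h2
  have h3 : (Fintype.card (X i) : ℝ) * ∑ x, Real.exp (t * F x) ≤
      (Fintype.card (X i) : ℝ) *
        (Real.exp (t ^ 2 * c ^ 2 / 8) * ∑ x, Real.exp (t * avg i F x)) := by
    calc _ ≤ _ := h2
      _ = _ := by ring
  exact le_of_mul_le_mul_left h3 hc

theorem exists_partial (F : (∀ i, X i) → ℝ) (c : ι → ℝ) (t : ℝ)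
    (h : ∀ i x (y : X i), |F x - F (Function.update x i y)| ≤ c i) (s : Finset ι) :
    ∃ G : (∀ i, X i) → ℝ, (∀ i ∈ s, ∀ x (y : X i), G (Function.update x i y) = G x) ∧
      (∀ i x (y : X i), |G x - G (Function.update x i y)| ≤ c i) ∧
      (∑ x, G x = ∑ x, F x) ∧
      ∑ x, Real.exp (t * F x) ≤
        Real.exp (t ^ 2 * (∑ i ∈ s, c i ^ 2) / 8) * ∑ x, Real.exp (t * G x) := by
  induction s using Finset.induction_on with
  | empty => exact ⟨F, by simp, h, rfl, by simp⟩
  | insert i s his ih =>
    obtain ⟨G, hG1, hG2, hG3, hG4⟩ := ih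
    refine ⟨avg i G, ?_, fun j x y => avg_osc G (c j) (hG2 j) x y, ?_, ?_⟩
    · intro j hj x y
      rcases Finset.mem_insert.1 hj with rfl | hj
      · exact avg_update_self _ G x y
      · exact avg_update_of_forall G (hG1 j hj) x y
    · rw [sum_avg, hG3]
    · have h1 := sum_exp_avg_le i G (c i) t (hG2 i)
      calc ∑ x, Real.exp (t * F x)
          ≤ Real.exp (t ^ 2 * (∑ i ∈ s, c i ^ 2) / 8) * ∑ x, Real.exp (t * G x) := hG4
        _ ≤ Real.exp (t ^ 2 * (∑ i ∈ s, c i ^ 2) / 8) *
              (Real.exp (t ^ 2 * c i ^ 2 / 8) * ∑ x, Real.exp (t * avg i G x)) :=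
            mul_le_mul_of_nonneg_left h1 (Real.exp_pos _).le
        _ = _ := by
            rw [← mul_assoc, ← Real.exp_add, Finset.sum_insert his]
            congr 2
            ring

theorem eq_of_forall_update {β : Type*} (G : (∀ i, X i) → β)
    (h : ∀ i x (y : X i), G (Function.update x i y) = G x) (x x' : ∀ i, X i) : G x = G x' := by
  classical
  have key : ∀ s : Finset ι, G (fun i => if i ∈ s then x' i else x i) = G x := by
    intro s
    induction s using Finset.induction_on with
    | empty => simp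
    | insert i s his ih =>
      rw [← ih]
      have : (fun j => if j ∈ insert i s then x' j else x j) =
          Function.update (fun j => if j ∈ s then x' j else x j) i (x' i) := by
        funext j
        rcases eq_or_ne j i with rfl | hj
        · simp
        · simp [Finset.mem_insert, hj]
      rw [this, h]
  have := key Finset.univ
  simpa using this.symm

/-- Exponential moment bound (McDiarmid). -/
theorem sum_exp_le (F : (∀ i, X i) → ℝ) (c : ι → ℝ) (t : ℝ)
    (h : ∀ i x (y : X i), |F x - F (Function.update x i y)| ≤ c i) :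
    ∑ x, Real.exp (t * F x) ≤
      Real.exp (t ^ 2 * (∑ i, c i ^ 2) / 8) *
        ((Fintype.card (∀ i, X i) : ℝ) * Real.exp (t * mean F)) := by
  obtain ⟨G, hG1, -, hG3, hG4⟩ := exists_partial F c t h Finset.univ
  have hconst : ∀ x x', G x = G x' :=
    eq_of_forall_update G (fun i x y => hG1 i (Finset.mem_univ i) x y)
  have x0 : (∀ i, X i) := Classical.arbitrary _
  have hN : (0 : ℝ) < Fintype.card (∀ i, X i) := by exact_mod_cast Fintype.card_pos
  have hG0 : ∀ x, G x = mean F := by
    intro x
    have : ∑ x', G x' = (Fintype.card (∀ i, X i) : ℝ) * G x := by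
      rw [Finset.sum_congr rfl (fun x' _ => hconst x' x)]
      simp
    rw [mean, ← hG3, this]
    field_simp
  refine hG4.trans (le_of_eq ?_)
  congr 1
  rw [Finset.sum_congr rfl (fun x _ => by rw [hG0 x])]
  simp

/-- Upper tail of McDiarmid's inequality, counting form. -/
theorem card_upper_tail (F : (∀ i, X i) → ℝ) (c : ι → ℝ)
    (h : ∀ i x (y : X i), |F x - F (Function.update x i y)| ≤ c i) (s : ℝ) (hs : 0 ≤ s) :
    ((Finset.univ.filter fun x => mean F + s ≤ F x).card : ℝ) ≤
      Real.exp (-2 * s ^ 2 / ∑ i, c i ^ 2) * Fintype.card (∀ i, X i) := by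
  classical
  set V : ℝ := ∑ i, c i ^ 2 with hV
  have hN : (0 : ℝ) < Fintype.card (∀ i, X i) := by exact_mod_cast Fintype.card_pos
  have hV0 : 0 ≤ V := Finset.sum_nonneg fun i _ => sq_nonneg _
  rcases hV0.eq_or_lt with hV0 | hVpos
  · rw [← hV0]
    simp only [div_zero, Real.exp_zero, one_mul]
    exact_mod_cast Finset.card_le_univ _
  set t : ℝ := 4 * s / V with ht
  have ht0 : 0 ≤ t := by positivity
  have h1 := sum_exp_le F c t h
  have h2 : ((Finset.univ.filter fun x => mean F + s ≤ F x).card : ℝ) *
      Real.exp (t * (mean F + s)) ≤ ∑ x, Real.exp (t * F x) := by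
    calc ((Finset.univ.filter fun x => mean F + s ≤ F x).card : ℝ) * Real.exp (t * (mean F + s))
        = ∑ x ∈ Finset.univ.filter (fun x => mean F + s ≤ F x), Real.exp (t * (mean F + s)) := by
          simp
      _ ≤ ∑ x ∈ Finset.univ.filter (fun x => mean F + s ≤ F x), Real.exp (t * F x) := by
          refine Finset.sum_le_sum fun x hx => ?_
          refine Real.exp_le_exp.2 (mul_le_mul_of_nonneg_left (Finset.mem_filter.1 hx).2 ht0)
      _ ≤ ∑ x, Real.exp (t * F x) :=
          Finset.sum_le_sum_of_subset_of_nonneg (Finset.filter_subset _ _)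
            (fun _ _ _ => (Real.exp_pos _).le)
  have h3 := h2.trans h1
  have h4 : ((Finset.univ.filter fun x => mean F + s ≤ F x).card : ℝ) ≤
      Real.exp (t ^ 2 * V / 8) *
        ((Fintype.card (∀ i, X i) : ℝ) * Real.exp (t * mean F)) * Real.exp (-(t * (mean F + s))) := by
    have hpos := (Real.exp_pos (-(t * (mean F + s))))
    calc ((Finset.univ.filter fun x => mean F + s ≤ F x).card : ℝ)
        = ((Finset.univ.filter fun x => mean F + s ≤ F x).card : ℝ) *
            Real.exp (t * (mean F + s)) * Real.exp (-(t * (mean F + s))) := by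
          rw [mul_assoc, ← Real.exp_add, add_neg_cancel, Real.exp_zero, mul_one]
      _ ≤ _ := mul_le_mul_of_nonneg_right h3 hpos.le
  refine h4.trans (le_of_eq ?_)
  have : Real.exp (t ^ 2 * V / 8) *
        ((Fintype.card (∀ i, X i) : ℝ) * Real.exp (t * mean F)) * Real.exp (-(t * (mean F + s))) =
      Real.exp (t ^ 2 * V / 8 + t * mean F + -(t * (mean F + s))) *
        (Fintype.card (∀ i, X i) : ℝ) := by
    rw [Real.exp_add, Real.exp_add]; ring
  rw [this]
  congr 2
  rw [ht]
  field_simp
  ring

/-- Lower tail of McDiarmid's inequality, counting form. -/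
theorem card_lower_tail (F : (∀ i, X i) → ℝ) (c : ι → ℝ)
    (h : ∀ i x (y : X i), |F x - F (Function.update x i y)| ≤ c i) (s : ℝ) (hs : 0 ≤ s) :
    ((Finset.univ.filter fun x => F x ≤ mean F - s).card : ℝ) ≤
      Real.exp (-2 * s ^ 2 / ∑ i, c i ^ 2) * Fintype.card (∀ i, X i) := by
  classical
  have h' : ∀ i x (y : X i), |(-F) x - (-F) (Function.update x i y)| ≤ c i := by
    intro i x y
    have := h i x y
    rw [← abs_neg] at this
    convert this using 2
    simp only [Pi.neg_apply]
    ring
  have := card_upper_tail (-F) c h' s hs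
  have hm : mean (-F) = - mean F := by
    simp [mean, neg_div]
  rw [hm] at this
  have hset : (Finset.univ.filter fun x => F x ≤ mean F - s) =
      Finset.univ.filter fun x => -mean F + s ≤ (-F) x := by
    ext x
    simp only [Finset.mem_filter, Finset.mem_univ, true_and, Pi.neg_apply]
    constructor
    · intro hx; linarith
    · intro hx; linarith
  rw [hset]
  exact this

end prod

end Crest.Agent.R034.McD
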