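import Crest.Agent.R034.Spec
import Crest.Agent.R034.McDiarmid

/-! Row 34, module M5: `SpecR1` (degree regularity). -/

set_option autoImplicit false
set_option linter.unusedSectionVars false

namespace Crest.Agent.R034.M5

open Finset Crest.Agent.R034

variable {F : Type} [Field F] [Fintype F] [DecidableEq F]

/-- lines through `z` -/
def linesOn (z : Pt F) : Finset (Ln F) := univ.filter (fun l => On z l)

theorem mem_linesOn {z : Pt F} {l : Ln F} : l ∈ linesOn z ↔ On z l := by
  simp [linesOn]

theorem card_linesOn (z : Pt F) : (linesOn z).card = ord F := by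
  obtain ⟨i, y⟩ := z
  have : (linesOn (i, y)).card = (univ : Finset F).card := by
    symm
    cases i with
    | none =>
      refine Finset.card_bij (fun b _ => ((y, b) : Ln F)) ?_ ?_ ?_
      · intro b _
        rw [mem_linesOn]
        rfl
      · intro b _ b' _ h
        exact (Prod.ext_iff.1 h).2
      · intro l hl
        rw [mem_linesOn] at hl
        have hl' : l.1 = y := hl
        exact ⟨l.2, Finset.mem_univ _, by rw [← hl']⟩
    | some x =>
      refine Finset.card_bij (fun m _ => ((m, y - m * x) : Ln F)) ?_ ?_ ?_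
      · intro b _
        rw [mem_linesOn]
        show b * x + (y - b * x) = y
        ring
      · intro b _ b' _ h
        exact (Prod.ext_iff.1 h).1
      · intro l hl
        rw [mem_linesOn] at hl
        have hl' : l.1 * x + l.2 = y := hl
        exact ⟨l.1, Finset.mem_univ _, by rw [← hl']; ext <;> simp⟩
  rw [this, Finset.card_univ]

/-- two distinct lines through `z` differ in every other position -/
theorem val_injOn (z : Pt F) {i : Option F} (hi : i ≠ z.1) {l l' : Ln F} (hl : On z l)
    (hl' : On z l') (h : val l i = val l' i) : l = l' := by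
  obtain ⟨j, y⟩ := z
  obtain ⟨m, b⟩ := l
  obtain ⟨m', b'⟩ := l'
  cases i with
  | none =>
    cases j with
    | none => exact (hi rfl).elim
    | some x =>
      simp only [On, val] at hl hl' h
      subst h
      have : b = b' := by linear_combination hl - hl'
      rw [this]
  | some x' =>
    cases j with
    | none =>
      simp only [On, val] at hl hl' h
      subst hl
      subst hl'
      have : b = b' := by linear_combination h
      rw [this]
    | some x =>
      have hx : x' - x ≠ 0 := fun e => hi (by rw [sub_eq_zero.1 e])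
      simp only [On, val] at hl hl' h
      have h1 : (m - m') * (x' - x) = 0 := by linear_combination h - hl + hl'
      have h2 : m = m' := by
        rcases mul_eq_zero.1 h1 with h3 | h3
        · exact sub_eq_zero.1 h3
        · exact (hx h3).elim
      subst h2
      have : b = b' := by linear_combination hl - hl'
      rw [this]

theorem avoidsOff_iff (R : RR F) (z : Pt F) (l : Ln F) :
    AvoidsOff (Kset R) z l ↔ ∀ i, i ≠ z.1 → ∀ r, R i r ≠ val l i := by
  unfold AvoidsOff Kset
  simp

/-- number of `R` for which a fixed line is good off the position of `z` -/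
theorem card_avoid (z : Pt F) (l : Ln F) :
    (univ.filter (fun R : RR F => AvoidsOff (Kset R) z l)).card =
      (ord F) ^ kap * ((ord F - 1) ^ kap) ^ (ord F) := by
  classical
  have h1 : (univ.filter (fun R : RR F => AvoidsOff (Kset R) z l)) =
      Fintype.piFinset (fun i : Option F =>
        Fintype.piFinset (fun _ : Fin kap => if i = z.1 then univ else univ.erase (val l i))) := by
    ext R
    simp only [Finset.mem_filter, Finset.mem_univ, true_and, avoidsOff_iff,
      Fintype.mem_piFinset]
    constructor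
    · intro h i r
      by_cases hi : i = z.1
      · simp [hi]
      · simp [hi, h i hi r]
    · intro h i hi r
      have := h i r
      simpa [hi] using this
  rw [h1, Fintype.card_piFinset]
  have h2 : ∀ i : Option F, (Fintype.piFinset (fun _ : Fin kap =>
      if i = z.1 then (univ : Finset F) else univ.erase (val l i))).card =
      if i = z.1 then (ord F) ^ kap else (ord F - 1) ^ kap := by
    intro i
    rw [Fintype.card_piFinset]
    by_cases hi : i = z.1
    · simp [hi]
    · simp [hi, Finset.card_erase_of_mem]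
  rw [Finset.prod_congr rfl (fun i _ => h2 i)]
  rw [← Finset.mul_prod_erase univ _ (Finset.mem_univ z.1)]
  rw [if_pos rfl]
  congr 1
  rw [Finset.prod_congr rfl (g := fun _ => (ord F - 1) ^ kap)
    (fun i hi => by rw [if_neg (Finset.ne_of_mem_erase hi)])]
  rw [Finset.prod_const, Finset.card_erase_of_mem (Finset.mem_univ _)]
  simp

theorem one_lt_ord : 1 < ord F := Fintype.one_lt_card

/-- the mean of `N0` -/
theorem mean_N0 (z : Pt F) :
    McD.mean (X := fun _ : Option F => Fin kap → F) (fun R => (N0 R z : ℝ)) = D0 (ord F) := by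
  classical
  have hq : (0 : ℝ) < ord F := by exact_mod_cast (zero_lt_one.trans one_lt_ord)
  have hq1 : 1 ≤ ord F := one_lt_ord.le
  have h1 : ∑ R : RR F, (N0 R z : ℝ) =
      (ord F : ℝ) * ((ord F : ℝ) ^ kap * (((ord F : ℝ) - 1) ^ kap) ^ (ord F)) := by
    have h2 : ∀ R : RR F, (N0 R z : ℝ) =
        ∑ l ∈ linesOn z, if AvoidsOff (Kset R) z l then (1 : ℝ) else 0 := by
      intro R
      rw [← Finset.sum_filter, Finset.sum_const, nsmul_eq_mul, mul_one]
      congr 2
      unfold N0 linesOn
      rw [Finset.filter_filter]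
    simp_rw [h2]
    rw [Finset.sum_comm]
    have h3 : ∀ l ∈ linesOn z, ∑ R : RR F, (if AvoidsOff (Kset R) z l then (1 : ℝ) else 0) =
        ((ord F : ℝ) ^ kap * (((ord F : ℝ) - 1) ^ kap) ^ (ord F)) := by
      intro l _
      rw [← Finset.sum_filter, Finset.sum_const, nsmul_eq_mul, mul_one, card_avoid]
      push_cast [Nat.cast_sub hq1]
      rfl
    rw [Finset.sum_congr rfl h3, Finset.sum_const, card_linesOn, nsmul_eq_mul]
  have hcard : (Fintype.card (∀ _ : Option F, Fin kap → F) : ℝ) =
      ((ord F : ℝ) ^ kap) ^ (ord F + 1) := by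
    rw [Fintype.card_fun, Fintype.card_fun, Fintype.card_option, Fintype.card_fin]
    push_cast
    rfl
  unfold McD.mean
  rw [hcard]
  have h4 : ∑ R : (∀ _ : Option F, Fin kap → F), (N0 R z : ℝ) = _ := h1
  rw [h4]
  unfold D0
  have h5 : (1 - 1 / (ord F : ℝ)) = ((ord F : ℝ) - 1) / ord F := by field_simp
  rw [h5, div_pow, pow_succ ((ord F : ℝ) ^ kap), ← pow_mul, ← pow_mul]
  have h6 : (ord F : ℝ) ^ (kap * ord F) ≠ 0 := pow_ne_zero _ hq.ne'
  have h7 : (ord F : ℝ) ^ kap ≠ 0 := pow_ne_zero _ hq.ne'
  field_simp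

/-- bounded differences -/
theorem N0_diff (z : Pt F) (i : Option F) (R : RR F) (y : Fin kap → F) :
    |(N0 R z : ℝ) - (N0 (Function.update R i y) z : ℝ)| ≤ kap := by
  classical
  set G : Finset (Ln F) := univ.filter (fun l : Ln F =>
    On z l ∧ ∀ j, j ≠ z.1 → j ≠ i → ∀ r, R j r ≠ val l j) with hG
  have key : ∀ S : RR F, (∀ j, j ≠ i → S j = R j) → N0 S z ≤ G.card ∧ G.card ≤ N0 S z + kap := by
    intro S hS
    have hsub : (univ.filter (fun l : Ln F => On z l ∧ AvoidsOff (Kset S) z l)) ⊆ G := by
      intro l hl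
      rw [Finset.mem_filter] at hl
      rw [hG, Finset.mem_filter]
      refine ⟨Finset.mem_univ _, hl.2.1, fun j hj hji r => ?_⟩
      have := (avoidsOff_iff S z l).1 hl.2.2 j hj r
      rwa [hS j hji] at this
    refine ⟨Finset.card_le_card hsub, ?_⟩
    -- the bad lines
    have hbad : (G \ (univ.filter (fun l : Ln F => On z l ∧ AvoidsOff (Kset S) z l))).card ≤
        kap := by
      by_cases hi : i = z.1
      · have : G \ (univ.filter (fun l : Ln F => On z l ∧ AvoidsOff (Kset S) z l)) = ∅ := by
          rw [Finset.sdiff_eq_empty_iff_subset]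
          intro l hl
          rw [hG, Finset.mem_filter] at hl
          rw [Finset.mem_filter]
          refine ⟨Finset.mem_univ _, hl.2.1, (avoidsOff_iff S z l).2 fun j hj r => ?_⟩
          have hji : j ≠ i := by rw [hi]; exact hj
          rw [hS j hji]
          exact hl.2.2 j hj hji r
        rw [this]
        simp
      · have hmap : ∀ l ∈ G \ (univ.filter (fun l : Ln F => On z l ∧ AvoidsOff (Kset S) z l)),
            val l i ∈ (univ : Finset (Fin kap)).image (S i) := by
          intro l hl
          rw [Finset.mem_sdiff, hG, Finset.mem_filter, Finset.mem_filter] at hl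
          obtain ⟨⟨_, hon, hl1⟩, hl2⟩ := hl
          by_contra hne
          apply hl2
          refine ⟨Finset.mem_univ _, hon, (avoidsOff_iff S z l).2 fun j hj r => ?_⟩
          by_cases hji : j = i
          · subst hji
            intro he
            apply hne
            rw [Finset.mem_image]
            exact ⟨r, Finset.mem_univ _, he⟩
          · rw [hS j hji]
            exact hl1 j hj hji r
        have hinj : Set.InjOn (fun l : Ln F => val l i)
            (G \ (univ.filter (fun l : Ln F => On z l ∧ AvoidsOff (Kset S) z l)) :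
              Finset (Ln F)) := by
          intro l hl l' hl' h
          have h1 : On z l := by
            have := (Finset.mem_sdiff.1 (Finset.mem_coe.1 hl)).1
            rw [hG, Finset.mem_filter] at this
            exact this.2.1
          have h2 : On z l' := by
            have := (Finset.mem_sdiff.1 (Finset.mem_coe.1 hl')).1
            rw [hG, Finset.mem_filter] at this
            exact this.2.1
          exact val_injOn z hi h1 h2 h
        have := Finset.card_le_card_of_injOn (fun l : Ln F => val l i) hmap hinj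
        refine this.trans (Finset.card_image_le.trans ?_)
        simp
    have := Finset.card_sdiff_add_card_eq_card hsub
    have h3 : (univ.filter (fun l : Ln F => On z l ∧ AvoidsOff (Kset S) z l)).card = N0 S z := rfl
    omega
  have k1 := key R (fun _ _ => rfl)
  have k2 := key (Function.update R i y) (fun j hj => Function.update_of_ne hj _ _)
  rw [abs_le]
  have a1 : (N0 R z : ℝ) ≤ G.card := by exact_mod_cast k1.1
  have a2 : (G.card : ℝ) ≤ N0 R z + kap := by exact_mod_cast k1.2
  have a3 : (N0 (Function.update R i y) z : ℝ) ≤ G.card := by exact_mod_cast k2.1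
  have a4 : (G.card : ℝ) ≤ N0 (Function.update R i y) z + kap := by exact_mod_cast k2.2
  constructor <;> linarith

theorem exists_k0 (N : ℕ) : ∃ k0 : ℕ, 1 ≤ k0 ∧ ∀ k : ℕ, k0 ≤ k →
    40 * ((k : ℝ) + 1) ^ (2 * N) * Real.exp (-((k : ℝ) ^ 2 / 1000000)) ≤ 1 := by
  have h1 : Filter.Tendsto (fun k : ℕ => (k : ℝ) / 1000000) Filter.atTop Filter.atTop :=
    Filter.Tendsto.atTop_div_const (by norm_num) tendsto_natCast_atTop_atTop
  have h2 := (Real.tendsto_pow_mul_exp_neg_atTop_nhds_zero (2 * N)).comp h1
  have hc : (0 : ℝ) < 1 / (40 * 2000000 ^ (2 * N)) := by positivity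
  have h3 := h2.eventually (ge_mem_nhds hc)
  obtain ⟨k1, hk1⟩ := Filter.eventually_atTop.1 h3
  refine ⟨max 1 k1, le_max_left _ _, fun k hk => ?_⟩
  have hk1' := hk1 k ((le_max_right _ _).trans hk)
  have hk0 : (1 : ℝ) ≤ k := by exact_mod_cast (le_max_left _ _).trans hk
  simp only [Function.comp_apply] at hk1'
  have e1 : ((k : ℝ) + 1) ^ (2 * N) ≤ 2000000 ^ (2 * N) * ((k : ℝ) / 1000000) ^ (2 * N) := by
    rw [← mul_pow]
    apply pow_le_pow_left₀ (by positivity)
    linarith
  have e2 : Real.exp (-((k : ℝ) ^ 2 / 1000000)) ≤ Real.exp (-((k : ℝ) / 1000000)) := by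
    apply Real.exp_le_exp.2
    have : (k : ℝ) ≤ (k : ℝ) ^ 2 := by nlinarith
    linarith [div_le_div_of_nonneg_right this (by norm_num : (0 : ℝ) ≤ 1000000)]
  calc 40 * ((k : ℝ) + 1) ^ (2 * N) * Real.exp (-((k : ℝ) ^ 2 / 1000000))
      ≤ 40 * (2000000 ^ (2 * N) * ((k : ℝ) / 1000000) ^ (2 * N)) *
          Real.exp (-((k : ℝ) / 1000000)) := by
        apply mul_le_mul _ e2 (Real.exp_pos _).le (by positivity)
        exact mul_le_mul_of_nonneg_left e1 (by norm_num)
    _ = (40 * 2000000 ^ (2 * N)) * (((k : ℝ) / 1000000) ^ (2 * N) *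
          Real.exp (-((k : ℝ) / 1000000))) := by ring
    _ ≤ (40 * 2000000 ^ (2 * N)) * (1 / (40 * 2000000 ^ (2 * N))) :=
        mul_le_mul_of_nonneg_left hk1' (by positivity)
    _ = 1 := by field_simp

/-- the bad set for one point -/
theorem card_bad (z : Pt F) (s : ℝ) (hs : 0 ≤ s) :
    ((univ.filter (fun R : RR F => ¬ |(N0 R z : ℝ) - D0 (ord F)| ≤ s)).card : ℝ) ≤
      2 * Real.exp (-2 * s ^ 2 / ((ord F + 1) * (kap : ℝ) ^ 2)) * Fintype.card (RR F) := by
  classical
  have hd : ∀ (i : Option F) (R : ∀ _ : Option F, Fin kap → F) (y : Fin kap → F),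
      |(fun R : (∀ _ : Option F, Fin kap → F) => (N0 R z : ℝ)) R -
        (fun R : (∀ _ : Option F, Fin kap → F) => (N0 R z : ℝ)) (Function.update R i y)| ≤
        (fun _ : Option F => (kap : ℝ)) i := fun i R y => N0_diff z i R y
  have hu := McD.card_upper_tail (X := fun _ : Option F => Fin kap → F)
    (fun R => (N0 R z : ℝ)) (fun _ => (kap : ℝ)) hd s hs
  have hl := McD.card_lower_tail (X := fun _ : Option F => Fin kap → F)
    (fun R => (N0 R z : ℝ)) (fun _ => (kap : ℝ)) hd s hs
  rw [mean_N0] at hu hl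
  have hsum : ∑ _i : Option F, (kap : ℝ) ^ 2 = (ord F + 1) * (kap : ℝ) ^ 2 := by
    rw [Finset.sum_const, nsmul_eq_mul, Finset.card_univ, Fintype.card_option]
    push_cast
    rfl
  rw [hsum] at hu hl
  have hsub : (univ.filter (fun R : RR F => ¬ |(N0 R z : ℝ) - D0 (ord F)| ≤ s)) ⊆
      (univ.filter (fun R : RR F => D0 (ord F) + s ≤ (N0 R z : ℝ))) ∪
        (univ.filter (fun R : RR F => (N0 R z : ℝ) ≤ D0 (ord F) - s)) := by
    intro R hR
    rw [Finset.mem_filter, not_le, lt_abs] at hR
    rw [Finset.mem_union, Finset.mem_filter, Finset.mem_filter]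
    rcases hR.2 with h | h
    · left; exact ⟨Finset.mem_univ _, by linarith⟩
    · right; exact ⟨Finset.mem_univ _, by linarith⟩
  have h1 := (Finset.card_le_card hsub).trans (Finset.card_union_le _ _)
  have h2 : ((univ.filter (fun R : RR F => ¬ |(N0 R z : ℝ) - D0 (ord F)| ≤ s)).card : ℝ) ≤
      ((univ.filter (fun R : RR F => D0 (ord F) + s ≤ (N0 R z : ℝ))).card : ℝ) +
        ((univ.filter (fun R : RR F => (N0 R z : ℝ) ≤ D0 (ord F) - s)).card : ℝ) := by
    exact_mod_cast h1
  refine h2.trans ?_
  have h3 : 2 * Real.exp (-2 * s ^ 2 / ((ord F + 1) * (kap : ℝ) ^ 2)) * (Fintype.card (RR F) : ℝ) =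
      Real.exp (-2 * s ^ 2 / ((ord F + 1) * (kap : ℝ) ^ 2)) * (Fintype.card (RR F) : ℝ) +
      Real.exp (-2 * s ^ 2 / ((ord F + 1) * (kap : ℝ) ^ 2)) * (Fintype.card (RR F) : ℝ) := by ring
  rw [h3]
  exact add_le_add hu hl

end Crest.Agent.R034.M5

namespace Crest.Agent.R034

open Finset M5

theorem specR1 : SpecR1 := by
  classical
  intro N hN
  obtain ⟨k0, hk01, hk0⟩ := exists_k0 N
  refine ⟨(k0 + 1) ^ N, ?_⟩
  intro F _ _ _ hq k hk
  have hkk : k0 ≤ k := by
    by_contra hlt
    rw [not_le] at hlt
    have h1 : (k + 1) ^ N ≤ (k0 + 1) ^ N := Nat.pow_le_pow_left (by omega) N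
    have h2 := hk.2
    omega
  have hkb := hk0 k hkk
  have hk1 : 1 ≤ k := hk01.trans hkk
  refine ⟨univ.biUnion (fun z : Pt F => univ.filter (fun R : RR F =>
    ¬ |(N0 R z : ℝ) - D0 (ord F)| ≤ k * Real.sqrt (ord F))), ?_, ?_⟩
  · intro R hR z
    by_contra h
    exact hR (Finset.mem_biUnion.2 ⟨z, Finset.mem_univ _,
      Finset.mem_filter.2 ⟨Finset.mem_univ _, h⟩⟩)
  · have hq1 : (1 : ℝ) ≤ ord F := by exact_mod_cast (one_lt_ord (F := F)).le
    have hs : 0 ≤ (k : ℝ) * Real.sqrt (ord F) := by positivity
    have hcardPt : (Fintype.card (Pt F) : ℝ) = (ord F + 1) * ord F := by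
      rw [Fintype.card_prod, Fintype.card_option]
      push_cast
      rfl
    have h1 : ((univ.biUnion (fun z : Pt F => univ.filter (fun R : RR F =>
        ¬ |(N0 R z : ℝ) - D0 (ord F)| ≤ k * Real.sqrt (ord F)))).card : ℝ) ≤
        ∑ z : Pt F, (2 * Real.exp (-2 * (k * Real.sqrt (ord F)) ^ 2 /
          ((ord F + 1) * (kap : ℝ) ^ 2)) * Fintype.card (RR F)) := by
      have h0 : ((univ.biUnion (fun z : Pt F => univ.filter (fun R : RR F =>
          ¬ |(N0 R z : ℝ) - D0 (ord F)| ≤ k * Real.sqrt (ord F)))).card : ℝ) ≤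
          ∑ z : Pt F, ((univ.filter (fun R : RR F =>
            ¬ |(N0 R z : ℝ) - D0 (ord F)| ≤ k * Real.sqrt (ord F))).card : ℝ) := by
        have := Finset.card_biUnion_le (s := (univ : Finset (Pt F)))
          (t := fun z : Pt F => univ.filter (fun R : RR F =>
            ¬ |(N0 R z : ℝ) - D0 (ord F)| ≤ k * Real.sqrt (ord F)))
        exact_mod_cast this
      exact h0.trans (Finset.sum_le_sum fun z _ => card_bad z _ hs)
    rw [Finset.sum_const, nsmul_eq_mul, Finset.card_univ, hcardPt] at h1
    have hexp : Real.exp (-2 * (k * Real.sqrt (ord F)) ^ 2 / ((ord F + 1) * (kap : ℝ) ^ 2)) ≤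
        Real.exp (-((k : ℝ) ^ 2 / 1000000)) := by
      apply Real.exp_le_exp.2
      rw [mul_pow, Real.sq_sqrt (by positivity)]
      have hkap : (kap : ℝ) ^ 2 = 1000000 := by norm_num [kap]
      rw [hkap, ← neg_div, div_le_div_iff₀ (by positivity) (by norm_num)]
      have hk2 : 0 ≤ (k : ℝ) ^ 2 := by positivity
      nlinarith [mul_nonneg hk2 (sub_nonneg.2 hq1)]
    have hqk : (ord F : ℝ) ≤ ((k : ℝ) + 1) ^ N := by
      exact_mod_cast hk.2.le
    have h2 : 10 * ((univ.biUnion (fun z : Pt F => univ.filter (fun R : RR F =>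
        ¬ |(N0 R z : ℝ) - D0 (ord F)| ≤ k * Real.sqrt (ord F)))).card : ℝ) ≤
        Fintype.card (RR F) := by
      have hE := (Real.exp_pos (-((k : ℝ) ^ 2 / 1000000))).le
      have hC : (0 : ℝ) ≤ Fintype.card (RR F) := by positivity
      calc 10 * ((univ.biUnion (fun z : Pt F => univ.filter (fun R : RR F =>
              ¬ |(N0 R z : ℝ) - D0 (ord F)| ≤ k * Real.sqrt (ord F)))).card : ℝ)
          ≤ 10 * (((ord F + 1) * ord F) * (2 * Real.exp (-((k : ℝ) ^ 2 / 1000000)) *
              Fintype.card (RR F))) := by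
            refine mul_le_mul_of_nonneg_left (h1.trans ?_) (by norm_num)
            refine mul_le_mul_of_nonneg_left ?_ (by positivity)
            exact mul_le_mul_of_nonneg_right (mul_le_mul_of_nonneg_left hexp (by norm_num)) hC
        _ ≤ 40 * ((k : ℝ) + 1) ^ (2 * N) * Real.exp (-((k : ℝ) ^ 2 / 1000000)) *
              Fintype.card (RR F) := by
            have e1 : ((ord F : ℝ) + 1) * ord F ≤ 2 * ((k : ℝ) + 1) ^ (2 * N) := by
              have e2 : ((k : ℝ) + 1) ^ (2 * N) = ((k : ℝ) + 1) ^ N * ((k : ℝ) + 1) ^ N := by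
                rw [two_mul, pow_add]
              rw [e2]
              have e3 : (ord F : ℝ) * ord F ≤ ((k : ℝ) + 1) ^ N * ((k : ℝ) + 1) ^ N :=
                mul_le_mul hqk hqk (by positivity) (by positivity)
              nlinarith
            have e4 : 10 * (((ord F + 1) * ord F) * (2 * Real.exp (-((k : ℝ) ^ 2 / 1000000)) *
              (Fintype.card (RR F) : ℝ))) = (20 * (((ord F : ℝ) + 1) * ord F)) *
              (Real.exp (-((k : ℝ) ^ 2 / 1000000)) * Fintype.card (RR F)) := by ring
            have e5 : 40 * ((k : ℝ) + 1) ^ (2 * N) * Real.exp (-((k : ℝ) ^ 2 / 1000000)) *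
              (Fintype.card (RR F) : ℝ) = (20 * (2 * ((k : ℝ) + 1) ^ (2 * N))) *
              (Real.exp (-((k : ℝ) ^ 2 / 1000000)) * Fintype.card (RR F)) := by ring
            rw [e4, e5]
            exact mul_le_mul_of_nonneg_right (mul_le_mul_of_nonneg_left e1 (by norm_num))
              (by positivity)
        _ ≤ 1 * Fintype.card (RR F) := mul_le_mul_of_nonneg_right hkb hC
        _ = Fintype.card (RR F) := one_mul _
    exact_mod_cast h2

end Crest.Agent.R034
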