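import Crest.Agent.R034.Spec
import Crest.Agent.R034.McDiarmid

/-! # Row 34, module M6: `SpecR2` (the number `N1` of candidate lines is large, the number `N2` of
conflicting lines is small) -/

set_option autoImplicit false
set_option linter.unusedSectionVars false

namespace Crest.Agent.R034.R2M

open Finset Crest.Agent.R034

variable {F : Type} [Field F] [Fintype F] [DecidableEq F]

/-! ### Elementary geometry -/

theorem line_eq {i j : Option F} (hij : i ≠ j) {l l' : Ln F}
    (h1 : val l i = val l' i) (h2 : val l j = val l' j) : l = l' := by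
  obtain ⟨m, b⟩ := l
  obtain ⟨m', b'⟩ := l'
  cases i with
  | none =>
    cases j with
    | none => exact absurd rfl hij
    | some x =>
      simp only [val] at h1 h2
      subst h1
      have : b = b' := by linear_combination h2
      rw [this]
  | some x =>
    cases j with
    | none =>
      simp only [val] at h1 h2
      subst h2
      have : b = b' := by linear_combination h1
      rw [this]
    | some y =>
      simp only [val] at h1 h2
      have hxy : x - y ≠ 0 := by
        intro h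
        exact hij (by rw [sub_eq_zero.mp h])
      have h3 : (m - m') * (x - y) = 0 := by linear_combination h1 - h2
      have h4 : m = m' := by
        rcases mul_eq_zero.mp h3 with h | h
        · exact sub_eq_zero.mp h
        · exact absurd h hxy
      subst h4
      have : b = b' := by linear_combination h1
      rw [this]

/-- lines through a point -/
def pen (z : Pt F) : Finset (Ln F) := univ.filter (fun l => On z l)

theorem mem_pen {z : Pt F} {l : Ln F} : l ∈ pen z ↔ val l z.1 = z.2 := by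
  unfold pen
  rw [mem_filter]
  exact ⟨fun h => h.2, fun h => ⟨mem_univ _, h⟩⟩

theorem card_pen (z : Pt F) : (pen z).card = ord F := by
  obtain ⟨i, y⟩ := z
  cases i with
  | none =>
    have : pen ((none, y) : Pt F) = univ.image (fun b : F => ((y, b) : Ln F)) := by
      ext ⟨m, b⟩
      simp only [mem_pen, val, mem_image, mem_univ, true_and, Prod.mk.injEq]
      constructor
      · rintro rfl; exact ⟨b, rfl, rfl⟩
      · rintro ⟨b', h, rfl⟩; exact h.symm
    rw [this, card_image_of_injective]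
    · exact card_univ
    · intro b b' h
      simpa using h
  | some x =>
    have : pen ((some x, y) : Pt F) = univ.image (fun m : F => ((m, y - m * x) : Ln F)) := by
      ext ⟨m, b⟩
      simp only [mem_pen, val, mem_image, mem_univ, true_and, Prod.mk.injEq]
      constructor
      · rintro rfl; exact ⟨m, rfl, by ring⟩
      · rintro ⟨b', rfl, rfl⟩; ring
    rw [this, card_image_of_injective]
    · exact card_univ
    · intro b b' h
      simp only [Prod.mk.injEq] at h
      exact h.1

theorem mem_Kset {R : RR F} {j : Option F} {v : F} : (j, v) ∈ Kset R ↔ ∃ r, R j r = v := by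
  simp [Kset]

/-! ### bounded differences -/

theorem hits_congr {R R' : RR F} {l : Ln F} {i j0 : Option F} (hoff : ∀ j, j ≠ j0 → R j = R' j)
    (h : j0 = i ∨ ((∀ r, R j0 r ≠ val l j0) ∧ (∀ r, R' j0 r ≠ val l j0))) :
    hits R l i = hits R' l i := by
  ext j
  simp only [hits, mem_filter, mem_univ, true_and, mem_Kset]
  by_cases hj : j = j0
  · subst hj
    rcases h with h | ⟨h1, h2⟩
    · simp [h]
    · simp [h1, h2]
  · rw [hoff j hj]

theorem mhits_congr {R R' : RR F} {l : Ln F} {i j0 : Option F} (hoff : ∀ j, j ≠ j0 → R j = R' j)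
    (h : j0 = i ∨ ((∀ r, R j0 r ≠ val l j0) ∧ (∀ r, R' j0 r ≠ val l j0))) :
    mhits R l i = mhits R' l i := by
  ext j
  simp only [mhits, mem_filter, mem_univ, true_and]
  by_cases hj : j = j0
  · subst hj
    rcases h with h | ⟨h1, h2⟩
    · simp [h]
    · simp [(h1 0).symm, (h2 0).symm]
  · rw [hoff j hj]

/-- a counting function of lines through `z` -/
def NN (a b : ℕ) (R : RR F) (z : Pt F) : ℕ :=
  ((pen z).filter (fun l => (hits R l z.1).card = a ∧ (mhits R l z.1).card = b)).card

theorem N1_eq (R : RR F) (z : Pt F) : N1 R z = NN 9 0 R z := by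
  unfold N1 NN pen
  rw [filter_filter]

theorem N2_eq (R : RR F) (z : Pt F) : N2 R z = NN 9 1 R z := by
  unfold N2 NN pen
  rw [filter_filter]

theorem NN_le (a b : ℕ) (R R' : RR F) (z : Pt F) (j0 : Option F)
    (hoff : ∀ j, j ≠ j0 → R j = R' j) : NN a b R z ≤ NN a b R' z + 2 * kap := by
  classical
  by_cases hj : j0 = z.1
  · have key : NN a b R z = NN a b R' z := by
      unfold NN
      refine congrArg Finset.card (filter_congr (fun l _ => ?_))
      have e1 : hits R l z.1 = hits R' l z.1 := hits_congr hoff (Or.inl hj)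
      have e2 : mhits R l z.1 = mhits R' l z.1 := mhits_congr hoff (Or.inl hj)
      rw [e1, e2]
    rw [key]
    exact Nat.le_add_right _ _
  · set bad : Finset (Ln F) := (pen z).filter
      (fun l => val l j0 ∈ univ.image (R j0) ∪ univ.image (R' j0)) with hbad
    have h1 : (pen z).filter (fun l => (hits R l z.1).card = a ∧ (mhits R l z.1).card = b) ⊆
        (pen z).filter (fun l => (hits R' l z.1).card = a ∧ (mhits R' l z.1).card = b) ∪ bad := by
      intro l hl
      rw [mem_filter] at hl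
      by_cases hb : val l j0 ∈ univ.image (R j0) ∪ univ.image (R' j0)
      · exact mem_union_right _ (mem_filter.mpr ⟨hl.1, hb⟩)
      · apply mem_union_left
        rw [mem_filter]
        refine ⟨hl.1, ?_⟩
        have h2 : (∀ r, R j0 r ≠ val l j0) ∧ (∀ r, R' j0 r ≠ val l j0) := by
          simp only [mem_union, mem_image, mem_univ, true_and, not_or, not_exists] at hb
          exact hb
        rw [← hits_congr hoff (Or.inr h2), ← mhits_congr hoff (Or.inr h2)]
        exact hl.2
    have h3 : bad.card ≤ 2 * kap := by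
      have h4 : bad.card ≤ (univ.image (R j0) ∪ univ.image (R' j0)).card := by
        apply card_le_card_of_injOn (fun l => val l j0)
        · intro l hl
          exact (mem_filter.mp hl).2
        · intro l hl l' hl' h
          have hl1 := (mem_filter.mp (mem_coe.mp hl)).1
          have hl1' := (mem_filter.mp (mem_coe.mp hl')).1
          rw [mem_pen] at hl1 hl1'
          exact line_eq hj h (by rw [hl1, hl1'])
      calc bad.card ≤ _ := h4
        _ ≤ (univ.image (R j0)).card + (univ.image (R' j0)).card := card_union_le _ _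
        _ ≤ kap + kap := by
            apply add_le_add
            · calc (univ.image (R j0)).card ≤ (univ : Finset (Fin kap)).card := card_image_le
                _ = kap := by rw [card_univ, Fintype.card_fin]
            · calc (univ.image (R' j0)).card ≤ (univ : Finset (Fin kap)).card := card_image_le
                _ = kap := by rw [card_univ, Fintype.card_fin]
        _ = 2 * kap := by ring
    calc NN a b R z ≤ _ := card_le_card h1
      _ ≤ _ := card_union_le _ _
      _ ≤ NN a b R' z + 2 * kap := by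
        unfold NN
        omega

theorem NN_diff (a b : ℕ) (z : Pt F) (j0 : Option F) (R : RR F) (y : Fin kap → F) :
    |(NN a b R z : ℝ) - (NN a b (Function.update R j0 y) z : ℝ)| ≤ 2000 := by
  have h1 := NN_le a b R (Function.update R j0 y) z j0 (by
    intro j hj; rw [Function.update_of_ne hj])
  have h2 := NN_le a b (Function.update R j0 y) R z j0 (by
    intro j hj; rw [Function.update_of_ne hj])
  have h1' : (NN a b R z : ℝ) ≤ NN a b (Function.update R j0 y) z + 2000 := by
    have := h1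
    norm_num [kap] at this
    exact_mod_cast this
  have h2' : (NN a b (Function.update R j0 y) z : ℝ) ≤ NN a b R z + 2000 := by
    have := h2
    norm_num [kap] at this
    exact_mod_cast this
  rw [abs_le]
  constructor <;> linarith

/-! ### one coordinate -/

section OneCoord

variable {n : ℕ} [NeZero n]

def SM (n : ℕ) (v : F) : Finset (Fin n → F) := univ.filter (fun f => ∀ r, f r ≠ v)
def SG (n : ℕ) [NeZero n] (v : F) : Finset (Fin n → F) := univ.filter (fun f => f 0 = v)
def SH (n : ℕ) [NeZero n] (v : F) : Finset (Fin n → F) :=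
  univ.filter (fun f => (∃ r, f r = v) ∧ f 0 ≠ v)

theorem card_SM (n : ℕ) (v : F) : (SM n v).card = (ord F - 1) ^ n := by
  have : SM n v = Fintype.piFinset (fun _ : Fin n => (univ : Finset F).erase v) := by
    ext f
    simp [SM, Fintype.mem_piFinset]
  rw [this, Fintype.card_piFinset]
  simp [card_erase_of_mem]

theorem card_SG (v : F) : (SG n v).card = (ord F) ^ (n - 1) := by
  have : SG n v = Fintype.piFinset
      (fun r : Fin n => if r = 0 then ({v} : Finset F) else univ) := by
    ext f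
    simp only [SG, mem_filter, mem_univ, true_and, Fintype.mem_piFinset]
    constructor
    · intro h r
      by_cases hr : r = 0
      · simp [hr, h]
      · simp [hr]
    · intro h
      simpa using h 0
  rw [this, Fintype.card_piFinset]
  have h1 : ∀ r : Fin n, (if r = 0 then ({v} : Finset F) else univ).card
      = if r = 0 then 1 else ord F := by
    intro r
    split_ifs
    · simp
    · simp
  rw [Finset.prod_congr rfl (fun r _ => h1 r), Finset.prod_ite]
  rw [prod_const_one, one_mul, prod_const]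
  congr 1
  have h2 : (univ.filter (fun r : Fin n => ¬ r = 0)) = univ.erase 0 := by
    ext r; simp
  rw [h2, card_erase_of_mem (mem_univ _), card_univ, Fintype.card_fin]

theorem card_SH (v : F) : ((SH n v).card : ℝ) =
    (ord F : ℝ) ^ n - (ord F : ℝ) ^ (n - 1) - ((ord F : ℝ) - 1) ^ n := by
  have hq : 1 ≤ ord F := Fintype.card_pos
  have h1 : SH n v ∪ SM n v ∪ SG n v = univ := by
    ext f
    simp only [SH, SM, SG, mem_union, mem_filter, mem_univ, true_and, iff_true]
    by_cases h : f 0 = v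
    · exact Or.inr h
    · left
      by_cases h' : ∃ r, f r = v
      · exact Or.inl ⟨h', h⟩
      · right
        intro r hr
        exact h' ⟨r, hr⟩
  have h2 : Disjoint (SH n v) (SM n v) := by
    rw [disjoint_left]
    intro f hf hf'
    simp only [SH, SM, mem_filter, mem_univ, true_and] at hf hf'
    obtain ⟨⟨r, hr⟩, _⟩ := hf
    exact hf' r hr
  have h3 : Disjoint (SH n v ∪ SM n v) (SG n v) := by
    rw [disjoint_left]
    intro f hf hf'
    simp only [SH, SM, SG, mem_union, mem_filter, mem_univ, true_and] at hf hf'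
    rcases hf with hf | hf
    · exact hf.2 hf'
    · exact hf 0 hf'
  have h4 : (SH n v ∪ SM n v ∪ SG n v).card = (ord F) ^ n := by
    rw [h1, card_univ, Fintype.card_pi, prod_const, card_univ, Fintype.card_fin]
  rw [card_union_of_disjoint h3, card_union_of_disjoint h2, card_SM, card_SG] at h4
  have h5 : ((SH n v).card : ℝ) + ((ord F - 1 : ℕ) : ℝ) ^ n + (ord F : ℝ) ^ (n - 1)
      = (ord F : ℝ) ^ n := by exact_mod_cast h4
  rw [Nat.cast_sub hq, Nat.cast_one] at h5
  linarith

end OneCoord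

/-! ### product sets -/

def S1 (l : Ln F) (i : Option F) (A : Finset (Option F)) : Finset (RR F) :=
  Fintype.piFinset (fun j => if j = i then univ else if j ∈ A then SH kap (val l j)
    else SM kap (val l j))

def S2 (l : Ln F) (i : Option F) (A : Finset (Option F)) (a : Option F) : Finset (RR F) :=
  Fintype.piFinset (fun j => if j = i then univ else if j = a then SG kap (val l j)
    else if j ∈ A then SH kap (val l j) else SM kap (val l j))

theorem mem_hits {R : RR F} {l : Ln F} {i j : Option F} :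
    j ∈ hits R l i ↔ j ≠ i ∧ ∃ r, R j r = val l j := by
  simp only [hits, mem_filter, mem_univ, true_and, mem_Kset]

theorem mem_mhits {R : RR F} {l : Ln F} {i j : Option F} :
    j ∈ mhits R l i ↔ j ≠ i ∧ val l j = R j 0 := by
  simp only [mhits, mem_filter, mem_univ, true_and]

theorem mem_SH {n : ℕ} [NeZero n] {v : F} {f : Fin n → F} :
    f ∈ SH n v ↔ (∃ r, f r = v) ∧ f 0 ≠ v := by simp [SH]
theorem mem_SM {n : ℕ} {v : F} {f : Fin n → F} :
    f ∈ SM n v ↔ ∀ r, f r ≠ v := by simp [SM]
theorem mem_SG {n : ℕ} [NeZero n] {v : F} {f : Fin n → F} :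
    f ∈ SG n v ↔ f 0 = v := by simp [SG]

theorem mem_SH' {v : F} {f : Fin kap → F} :
    f ∈ SH kap v ↔ (∃ r, f r = v) ∧ f 0 ≠ v := by simp [SH]
theorem mem_SG' {v : F} {f : Fin kap → F} :
    f ∈ SG kap v ↔ f 0 = v := by simp [SG]

theorem S1_hits {l : Ln F} {i : Option F} {A : Finset (Option F)} (hA : A ⊆ univ.erase i)
    {R : RR F} (hR : R ∈ S1 l i A) : hits R l i = A ∧ mhits R l i = ∅ := by
  rw [S1, Fintype.mem_piFinset] at hR
  constructor
  · ext j
    rw [mem_hits]
    have h := hR j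
    constructor
    · rintro ⟨hj, hr⟩
      by_contra hjA
      rw [if_neg hj, if_neg hjA, mem_SM] at h
      obtain ⟨r, hr⟩ := hr
      exact h r hr
    · intro hj
      have hji : j ≠ i := (mem_erase.mp (hA hj)).1
      rw [if_neg hji, if_pos hj, mem_SH] at h
      exact ⟨hji, h.1⟩
  · rw [eq_empty_iff_forall_notMem]
    intro j hj
    rw [mem_mhits] at hj
    have h := hR j
    rw [if_neg hj.1] at h
    split_ifs at h with hjA
    · rw [mem_SH'] at h
      have h3 := hj.2.symm
      exact h.2 h3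
    · rw [mem_SM] at h
      exact h _ hj.2.symm

theorem lower_count (l : Ln F) (i : Option F) :
    ∑ A ∈ powersetCard 9 ((univ : Finset (Option F)).erase i), (S1 l i A).card ≤
      (univ.filter (fun R : RR F => (hits R l i).card = 9 ∧ (mhits R l i).card = 0)).card := by
  classical
  rw [← card_biUnion]
  · apply card_le_card
    intro R hR
    rw [mem_biUnion] at hR
    obtain ⟨A, hA, hR⟩ := hR
    rw [mem_powersetCard] at hA
    obtain ⟨h1, h2⟩ := S1_hits hA.1 hR
    rw [mem_filter]
    refine ⟨mem_univ _, ?_, ?_⟩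
    · rw [h1]; exact hA.2
    · rw [h2]; rfl
  · intro A hA B hB hAB
    rw [Function.onFun, disjoint_left]
    intro R hRA hRB
    have h1 := (S1_hits (mem_powersetCard.mp hA).1 hRA).1
    have h2 := (S1_hits (mem_powersetCard.mp hB).1 hRB).1
    exact hAB (h1.symm.trans h2)

theorem upper_count (l : Ln F) (i : Option F) :
    (univ.filter (fun R : RR F => (hits R l i).card = 9 ∧ (mhits R l i).card = 1)).card ≤
    ∑ A ∈ powersetCard 9 ((univ : Finset (Option F)).erase i), ∑ a ∈ A, (S2 l i A a).card := by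
  classical
  have h1 : univ.filter (fun R : RR F => (hits R l i).card = 9 ∧ (mhits R l i).card = 1) ⊆
      (powersetCard 9 ((univ : Finset (Option F)).erase i)).biUnion
        (fun A => A.biUnion (fun a => S2 l i A a)) := by
    intro R hR
    rw [mem_filter] at hR
    obtain ⟨_, h9, h1⟩ := hR
    obtain ⟨a, ha⟩ := card_eq_one.mp h1
    have haA : a ∈ hits R l i := by
      have : a ∈ mhits R l i := by rw [ha]; exact mem_singleton_self a
      rw [mem_mhits] at this
      rw [mem_hits]
      exact ⟨this.1, 0, this.2.symm⟩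
    rw [mem_biUnion]
    refine ⟨hits R l i, ?_, ?_⟩
    · rw [mem_powersetCard]
      refine ⟨?_, h9⟩
      intro j hj
      rw [mem_erase]
      exact ⟨(mem_hits.mp hj).1, mem_univ _⟩
    · rw [mem_biUnion]
      refine ⟨a, haA, ?_⟩
      rw [S2, Fintype.mem_piFinset]
      intro j
      by_cases hji : j = i
      · rw [if_pos hji]; simp only [mem_univ]
      rw [if_neg hji]
      by_cases hja : j = a
      · rw [if_pos hja, mem_SG']
        have : a ∈ mhits R l i := by rw [ha]; exact mem_singleton_self a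
        rw [mem_mhits] at this
        rw [hja]; exact this.2.symm
      rw [if_neg hja]
      have hj0 : R j 0 ≠ val l j := by
        intro h
        have : j ∈ mhits R l i := by rw [mem_mhits]; exact ⟨hji, h.symm⟩
        rw [ha, mem_singleton] at this
        exact hja this
      by_cases hjA : j ∈ hits R l i
      · rw [if_pos hjA, mem_SH']
        exact ⟨(mem_hits.mp hjA).2, hj0⟩
      · rw [if_neg hjA, mem_SM]
        intro r hr
        exact hjA (mem_hits.mpr ⟨hji, r, hr⟩)
  calc _ ≤ _ := card_le_card h1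
    _ ≤ ∑ A ∈ powersetCard 9 ((univ : Finset (Option F)).erase i),
        (A.biUnion (fun a => S2 l i A a)).card := card_biUnion_le
    _ ≤ _ := sum_le_sum (fun A _ => card_biUnion_le)

/-! ### products -/

theorem prod_ite_subset {ι : Type} [DecidableEq ι] (s A : Finset ι) (hA : A ⊆ s) (H M : ℝ) :
    ∏ j ∈ s, (if j ∈ A then H else M) = H ^ A.card * M ^ (s.card - A.card) := by
  rw [prod_ite, prod_const, prod_const]
  congr 2
  · congr 1
    ext j
    rw [mem_filter]
    exact ⟨fun h => h.2, fun h => ⟨hA h, h⟩⟩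
  · rw [← card_sdiff_of_subset hA]
    congr 1
    ext j
    rw [mem_filter, mem_sdiff]

theorem card_erase_univ (i : Option F) : ((univ : Finset (Option F)).erase i).card = ord F := by
  rw [card_erase_of_mem (mem_univ _), card_univ, Fintype.card_option]
  rfl

theorem card_S1 (l : Ln F) (i : Option F) (A : Finset (Option F))
    (hA : A ∈ powersetCard 9 ((univ : Finset (Option F)).erase i)) :
    ((S1 l i A).card : ℝ) = (ord F : ℝ) ^ kap *
      (((ord F : ℝ) ^ kap - (ord F : ℝ) ^ (kap - 1) - ((ord F : ℝ) - 1) ^ kap) ^ 9 *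
      (((ord F : ℝ) - 1) ^ kap) ^ (ord F - 9)) := by
  have hq : 1 ≤ ord F := Fintype.card_pos
  rw [mem_powersetCard] at hA
  rw [S1, Fintype.card_piFinset, Nat.cast_prod, ← mul_prod_erase univ _ (mem_univ i)]
  congr 1
  · rw [if_pos rfl, card_univ, Fintype.card_pi, prod_const, card_univ, Fintype.card_fin,
      Nat.cast_pow]
  · have h1 : ∀ j ∈ (univ : Finset (Option F)).erase i,
        (((if j = i then (univ : Finset (Fin kap → F)) else if j ∈ A then SH kap (val l j)
          else SM kap (val l j)).card : ℕ) : ℝ) =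
        if j ∈ A then ((ord F : ℝ) ^ kap - (ord F : ℝ) ^ (kap - 1) - ((ord F : ℝ) - 1) ^ kap)
          else ((ord F : ℝ) - 1) ^ kap := by
      intro j hj
      rw [if_neg (mem_erase.mp hj).1]
      by_cases hjA : j ∈ A
      · rw [if_pos hjA, if_pos hjA, card_SH]
      · rw [if_neg hjA, if_neg hjA, card_SM, Nat.cast_pow, Nat.cast_sub hq, Nat.cast_one]
    rw [prod_congr rfl h1, prod_ite_subset _ _ hA.1, hA.2, card_erase_univ]

theorem card_S2 (l : Ln F) (i : Option F) (A : Finset (Option F))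
    (hA : A ∈ powersetCard 9 ((univ : Finset (Option F)).erase i)) (a : Option F) (ha : a ∈ A) :
    ((S2 l i A a).card : ℝ) = (ord F : ℝ) ^ kap * ((ord F : ℝ) ^ (kap - 1) *
      (((ord F : ℝ) ^ kap - (ord F : ℝ) ^ (kap - 1) - ((ord F : ℝ) - 1) ^ kap) ^ 8 *
      (((ord F : ℝ) - 1) ^ kap) ^ (ord F - 9))) := by
  have hq : 1 ≤ ord F := Fintype.card_pos
  rw [mem_powersetCard] at hA
  have hai : a ∈ (univ : Finset (Option F)).erase i := hA.1 ha
  have hai' : a ≠ i := (mem_erase.mp hai).1
  rw [S2, Fintype.card_piFinset, Nat.cast_prod, ← mul_prod_erase univ _ (mem_univ i),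
    ← mul_prod_erase (univ.erase i) _ hai]
  congr 1
  · rw [if_pos rfl, card_univ, Fintype.card_pi, prod_const, card_univ, Fintype.card_fin,
      Nat.cast_pow]
  · congr 1
    · rw [if_neg hai', if_pos rfl, card_SG, Nat.cast_pow]
    · have h1 : ∀ j ∈ ((univ : Finset (Option F)).erase i).erase a,
          (((if j = i then (univ : Finset (Fin kap → F)) else if j = a then SG kap (val l j)
            else if j ∈ A then SH kap (val l j) else SM kap (val l j)).card : ℕ) : ℝ) =
          if j ∈ A.erase a then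
            ((ord F : ℝ) ^ kap - (ord F : ℝ) ^ (kap - 1) - ((ord F : ℝ) - 1) ^ kap)
          else ((ord F : ℝ) - 1) ^ kap := by
        intro j hj
        rw [mem_erase, mem_erase] at hj
        rw [if_neg hj.2.1, if_neg hj.1]
        by_cases hjA : j ∈ A
        · rw [if_pos hjA, if_pos (mem_erase.mpr ⟨hj.1, hjA⟩), card_SH]
        · rw [if_neg hjA, if_neg (fun h => hjA (mem_erase.mp h).2), card_SM, Nat.cast_pow,
            Nat.cast_sub hq, Nat.cast_one]
      rw [prod_congr rfl h1, prod_ite_subset _ _ (erase_subset_erase a hA.1),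
        card_erase_of_mem ha, hA.2, card_erase_of_mem hai, card_erase_univ]
      have e1 : ord F - 1 - (9 - 1) = ord F - 9 := by omega
      rw [e1]

/-! ### means -/

noncomputable def TT (q : ℕ) : ℝ := (q : ℝ) ^ kap
noncomputable def GG (q : ℕ) : ℝ := (q : ℝ) ^ (kap - 1)
noncomputable def MM (q : ℕ) : ℝ := ((q : ℝ) - 1) ^ kap
noncomputable def HH (q : ℕ) : ℝ := (q : ℝ) ^ kap - (q : ℝ) ^ (kap - 1) - ((q : ℝ) - 1) ^ kap

theorem sum_NN (a b : ℕ) (z : Pt F) :
    ∑ R : RR F, (NN a b R z : ℝ) = ∑ l ∈ pen z,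
      ((univ.filter (fun R : RR F => (hits R l z.1).card = a ∧ (mhits R l z.1).card = b)).card
        : ℝ) := by
  unfold NN
  simp only [card_filter, Nat.cast_sum]
  rw [sum_comm]

theorem card_RR : ((Fintype.card (RR F) : ℕ) : ℝ) = TT (ord F) ^ (ord F + 1) := by
  have h1 : Fintype.card (RR F) = ((ord F) ^ kap) ^ (ord F + 1) := by
    rw [Fintype.card_pi, prod_const, card_univ, Fintype.card_option, Fintype.card_pi, prod_const,
      card_univ, Fintype.card_fin]
  rw [h1, TT]
  push_cast
  rfl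

theorem mean1 (z : Pt F) :
    (ord F : ℝ) * (((ord F).choose 9 : ℕ) * (TT (ord F) * (HH (ord F) ^ 9 *
      MM (ord F) ^ (ord F - 9)))) ≤ ∑ R : RR F, (NN 9 0 R z : ℝ) := by
  rw [sum_NN]
  have h1 : ∀ l ∈ pen z, (((ord F).choose 9 : ℕ) * (TT (ord F) * (HH (ord F) ^ 9 *
      MM (ord F) ^ (ord F - 9)))) ≤ ((univ.filter (fun R : RR F =>
        (hits R l z.1).card = 9 ∧ (mhits R l z.1).card = 0)).card : ℝ) := by
    intro l _
    have h2 := lower_count l z.1
    have h3 : ((∑ A ∈ powersetCard 9 ((univ : Finset (Option F)).erase z.1),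
        (S1 l z.1 A).card : ℕ) : ℝ) ≤ ((univ.filter (fun R : RR F =>
        (hits R l z.1).card = 9 ∧ (mhits R l z.1).card = 0)).card : ℝ) := by exact_mod_cast h2
    refine le_trans (le_of_eq ?_) h3
    rw [Nat.cast_sum, sum_congr rfl (fun A hA => card_S1 l z.1 A hA), sum_const,
      card_powersetCard, card_erase_univ, nsmul_eq_mul]
    rfl
  calc _ = ∑ l ∈ pen z, (((ord F).choose 9 : ℕ) * (TT (ord F) * (HH (ord F) ^ 9 *
      MM (ord F) ^ (ord F - 9)))) := by rw [sum_const, card_pen, nsmul_eq_mul]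
    _ ≤ _ := sum_le_sum h1

theorem mean2 (z : Pt F) :
    ∑ R : RR F, (NN 9 1 R z : ℝ) ≤
    (ord F : ℝ) * (((ord F).choose 9 : ℕ) * (9 * (TT (ord F) * (GG (ord F) * (HH (ord F) ^ 8 *
      MM (ord F) ^ (ord F - 9)))))) := by
  rw [sum_NN]
  have h1 : ∀ l ∈ pen z, ((univ.filter (fun R : RR F =>
        (hits R l z.1).card = 9 ∧ (mhits R l z.1).card = 1)).card : ℝ) ≤
      (((ord F).choose 9 : ℕ) * (9 * (TT (ord F) * (GG (ord F) * (HH (ord F) ^ 8 *
      MM (ord F) ^ (ord F - 9)))))) := by
    intro l _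
    have h2 := upper_count l z.1
    have h3 : ((univ.filter (fun R : RR F =>
        (hits R l z.1).card = 9 ∧ (mhits R l z.1).card = 1)).card : ℝ) ≤
        ((∑ A ∈ powersetCard 9 ((univ : Finset (Option F)).erase z.1),
        ∑ a ∈ A, (S2 l z.1 A a).card : ℕ) : ℝ) := by exact_mod_cast h2
    refine le_trans h3 (le_of_eq ?_)
    have h4 : ∀ A ∈ powersetCard 9 ((univ : Finset (Option F)).erase z.1),
        ((∑ a ∈ A, (S2 l z.1 A a).card : ℕ) : ℝ) = 9 * (TT (ord F) * (GG (ord F) *
          (HH (ord F) ^ 8 * MM (ord F) ^ (ord F - 9)))) := by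
      intro A hA
      rw [Nat.cast_sum, sum_congr rfl (fun a ha => card_S2 l z.1 A hA a ha), sum_const,
        (mem_powersetCard.mp hA).2, nsmul_eq_mul]
      norm_num [TT, GG, HH, MM]
    rw [Nat.cast_sum, sum_congr rfl h4, sum_const, card_powersetCard, card_erase_univ,
      nsmul_eq_mul]
  calc _ ≤ ∑ l ∈ pen z, (((ord F).choose 9 : ℕ) * (9 * (TT (ord F) * (GG (ord F) *
      (HH (ord F) ^ 8 * MM (ord F) ^ (ord F - 9)))))) := sum_le_sum h1
    _ = _ := by rw [sum_const, card_pen, nsmul_eq_mul]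

/-! ### analysis -/

theorem pow_upper (x : ℝ) (h0 : 0 ≤ x) (h1 : x ≤ 1) (n : ℕ) :
    (1 - x) ^ n ≤ 1 - n * x + (n : ℝ) ^ 2 * x ^ 2 / 2 := by
  induction n with
  | zero => simp
  | succ n ih =>
    have h2 : (1 - x) ^ (n + 1) ≤ (1 - n * x + (n : ℝ) ^ 2 * x ^ 2 / 2) * (1 - x) := by
      rw [pow_succ]
      exact mul_le_mul_of_nonneg_right ih (by linarith)
    refine le_trans h2 ?_
    push_cast
    have h3 : 0 ≤ (n : ℝ) ^ 2 * x ^ 3 := by positivity
    have h4 : 0 ≤ x ^ 2 := by positivity
    nlinarith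

theorem TT_pos {q : ℕ} (hq : 1 ≤ q) : 0 < TT q := by
  unfold TT
  have : (0 : ℝ) < q := by exact_mod_cast hq
  positivity

theorem GG_eq {q : ℕ} (hq : 1 ≤ q) : GG q = TT q * (1 / (q : ℝ)) := by
  have h : (q : ℝ) ≠ 0 := by
    have : (0 : ℝ) < q := by exact_mod_cast hq
    exact this.ne'
  unfold GG TT
  have : (q : ℝ) ^ kap = (q : ℝ) ^ (kap - 1) * q := (pow_succ (q : ℝ) 999)
  rw [this, mul_assoc, mul_one_div_cancel h, mul_one]

theorem MM_eq {q : ℕ} (hq : 1 ≤ q) : MM q = TT q * (1 - 1 / (q : ℝ)) ^ kap := by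
  have h : (q : ℝ) ≠ 0 := by
    have : (0 : ℝ) < q := by exact_mod_cast hq
    exact this.ne'
  unfold MM TT
  rw [← mul_pow]
  congr 1
  field_simp

theorem HH_eq (q : ℕ) : HH q = TT q - GG q - MM q := rfl

theorem GG_le {q : ℕ} (hq : 6000 ≤ q) : 900 * GG q ≤ HH q := by
  have hq1 : 1 ≤ q := by omega
  have hq' : (6000 : ℝ) ≤ q := by exact_mod_cast hq
  have hT := TT_pos hq1
  rw [HH_eq, GG_eq hq1, MM_eq hq1]
  set x : ℝ := 1 / (q : ℝ) with hx
  have hx0 : 0 < x := by positivity
  have hx1 : x ≤ 1 / 6000 := by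
    rw [hx]
    exact one_div_le_one_div_of_le (by norm_num) hq'
  have h1 := pow_upper x hx0.le (by linarith) kap
  have h2 : (kap : ℝ) = 1000 := by norm_num [kap]
  rw [h2] at h1
  generalize (1 - x) ^ kap = p at h1 ⊢
  have h5 : x ^ 2 ≤ x * (1 / 6000) := by
    rw [pow_two]
    exact mul_le_mul_of_nonneg_left hx1 hx0.le
  have h3 : p ≤ 1 - 901 * x := by linarith
  have h4 : 0 ≤ TT q * (1 - 901 * x - p) := mul_nonneg hT.le (by linarith)
  linarith

theorem one_sub_ge (x : ℝ) (h0 : 0 ≤ x) (h1 : x ≤ 1 / 2) : Real.exp (-(2 * x)) ≤ 1 - x := by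
  have h2 : 1 + 2 * x ≤ Real.exp (2 * x) := by
    have := Real.add_one_le_exp (2 * x)
    linarith
  have h3 : 1 ≤ (1 - x) * Real.exp (2 * x) := by
    have : 1 ≤ (1 - x) * (1 + 2 * x) := by nlinarith
    refine le_trans this ?_
    exact mul_le_mul_of_nonneg_left h2 (by linarith)
  rw [Real.exp_neg]
  have h4 := Real.exp_pos (2 * x)
  rw [inv_le_iff_one_le_mul₀ h4]
  linarith

theorem MM_ge {q : ℕ} (hq : 9 ≤ q) :
    TT q ^ (q - 9) * Real.exp (-2000) ≤ MM q ^ (q - 9) := by
  have hq1 : 1 ≤ q := by omega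
  have hq' : (9 : ℝ) ≤ q := by exact_mod_cast hq
  have hT := TT_pos hq1
  rw [MM_eq hq1, mul_pow]
  refine mul_le_mul_of_nonneg_left ?_ (by positivity)
  set x : ℝ := 1 / (q : ℝ) with hx
  have hx0 : 0 < x := by positivity
  have hx1 : x ≤ 1 / 9 := by
    rw [hx]
    exact one_div_le_one_div_of_le (by norm_num) hq'
  have h1 := one_sub_ge x hx0.le (by linarith)
  have h2 : Real.exp (-(2 * x)) ^ (kap * (q - 9)) ≤ (1 - x) ^ (kap * (q - 9)) :=
    pow_le_pow_left₀ (Real.exp_pos _).le h1 _
  rw [← pow_mul]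
  refine le_trans ?_ h2
  rw [← Real.exp_nat_mul]
  apply Real.exp_le_exp.mpr
  have h3 : ((kap * (q - 9) : ℕ) : ℝ) = 1000 * ((q : ℝ) - 9) := by
    rw [Nat.cast_mul, Nat.cast_sub hq]
    norm_num [kap]
  rw [h3]
  have h4 : (q : ℝ) * x = 1 := by
    rw [hx]; field_simp
  nlinarith

theorem mu_ge {q : ℕ} (hq : 6000 ≤ q) :
    Real.exp (-2000) * q * TT q ^ (q + 1) ≤
      (q : ℝ) * ((q.choose 9 : ℕ) * (TT q * (HH q ^ 9 * MM q ^ (q - 9)))) := by
  have hq1 : 1 ≤ q := by omega
  have hq' : (6000 : ℝ) ≤ q := by exact_mod_cast hq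
  have hT := TT_pos hq1
  have hG : GG q = TT q * (1 / (q : ℝ)) := GG_eq hq1
  have hH : 900 * GG q ≤ HH q := GG_le hq
  have hM := MM_ge (q := q) (by omega)
  have hch : (((q + 1 - 9 : ℕ) : ℝ) ^ 9) / (Nat.factorial 9 : ℕ) ≤ (q.choose 9 : ℕ) :=
    Nat.pow_le_choose (α := ℝ) 9 q
  have hch2 : ((q : ℝ) / 2) ^ 9 / 362880 ≤ (q.choose 9 : ℕ) := by
    have e1 : ((Nat.factorial 9 : ℕ) : ℝ) = 362880 := by norm_num [Nat.factorial]
    rw [e1] at hch
    refine le_trans ?_ hch
    have e2 : ((q + 1 - 9 : ℕ) : ℝ) = q - 8 := by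
      rw [Nat.cast_sub (by omega)]
      push_cast
      ring
    rw [e2]
    have e3 : (q : ℝ) / 2 ≤ q - 8 := by linarith
    gcongr
  have hH2 : (900 * (TT q * (1 / (q : ℝ)))) ^ 9 ≤ HH q ^ 9 := by
    rw [← hG]
    have hG0 : 0 ≤ GG q := by rw [hG]; positivity
    exact pow_le_pow_left₀ (mul_nonneg (by norm_num) hG0) hH 9
  have key : TT q ^ 9 ≤ (q.choose 9 : ℕ) * HH q ^ 9 := by
    calc TT q ^ 9 ≤ (((q : ℝ) / 2) ^ 9 / 362880) * (900 * (TT q * (1 / (q : ℝ)))) ^ 9 := by
          generalize TT q = t at hT ⊢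
          have e4 : (((q : ℝ) / 2) ^ 9 / 362880) * (900 * (t * (1 / (q : ℝ)))) ^ 9
              = (450 ^ 9 / 362880) * t ^ 9 := by
            have : (q : ℝ) ≠ 0 := by positivity
            field_simp
            norm_num
          rw [e4]
          have : (0 : ℝ) < t ^ 9 := by positivity
          nlinarith
      _ ≤ _ := by
          have hpos : (0 : ℝ) ≤ (900 * (TT q * (1 / (q : ℝ)))) ^ 9 := by positivity
          exact mul_le_mul hch2 hH2 hpos (by positivity)
  have e5 : TT q ^ (q + 1) = TT q * (TT q ^ 9 * TT q ^ (q - 9)) := by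
    rw [← pow_add, ← pow_succ']
    congr 1
    omega
  calc Real.exp (-2000) * q * TT q ^ (q + 1)
      = q * (TT q * (TT q ^ 9 * (TT q ^ (q - 9) * Real.exp (-2000)))) := by rw [e5]; ring
    _ ≤ q * (TT q * (((q.choose 9 : ℕ) * HH q ^ 9) * MM q ^ (q - 9))) := by
        have hpos : (0 : ℝ) ≤ (q.choose 9 : ℕ) * HH q ^ 9 :=
          le_trans (by positivity) key
        have hpos2 : (0 : ℝ) ≤ TT q ^ (q - 9) * Real.exp (-2000) := by positivity
        refine mul_le_mul_of_nonneg_left ?_ (by positivity)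
        refine mul_le_mul_of_nonneg_left ?_ (by positivity)
        exact mul_le_mul key hM hpos2 hpos
    _ = _ := by ring

theorem mu2_le {q : ℕ} (hq : 6000 ≤ q) :
    (q : ℝ) * ((q.choose 9 : ℕ) * (9 * (TT q * (GG q * (HH q ^ 8 * MM q ^ (q - 9)))))) ≤
    (1 / 100) * ((q : ℝ) * ((q.choose 9 : ℕ) * (TT q * (HH q ^ 9 * MM q ^ (q - 9))))) := by
  have hq1 : 1 ≤ q := by omega
  have hT := TT_pos hq1
  have hG : GG q = TT q * (1 / (q : ℝ)) := GG_eq hq1
  have hH : 900 * GG q ≤ HH q := GG_le hq
  have hM : 0 ≤ MM q ^ (q - 9) := le_trans (by positivity) (MM_ge (q := q) (by omega))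
  have hG0 : 0 ≤ GG q := by rw [hG]; positivity
  have hH0 : 0 ≤ HH q := le_trans (mul_nonneg (by norm_num) hG0) hH
  have h1 : (1 / 100) * ((q : ℝ) * ((q.choose 9 : ℕ) * (TT q * (HH q ^ 9 * MM q ^ (q - 9)))))
      - (q : ℝ) * ((q.choose 9 : ℕ) * (9 * (TT q * (GG q * (HH q ^ 8 * MM q ^ (q - 9))))))
      = (q : ℝ) * (q.choose 9 : ℕ) * TT q * HH q ^ 8 * MM q ^ (q - 9) *
        ((1 / 100) * (HH q - 900 * GG q)) := by
    generalize MM q ^ (q - 9) = m
    generalize TT q = t
    generalize HH q = h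
    generalize GG q = g
    ring
  have h2 : 0 ≤ (q : ℝ) * (q.choose 9 : ℕ) * TT q * HH q ^ 8 * MM q ^ (q - 9) *
        ((1 / 100) * (HH q - 900 * GG q)) := by
    have h3 : 0 ≤ (1 / 100) * (HH q - 900 * GG q) := by
      have : 0 ≤ HH q - 900 * GG q := by linarith
      positivity
    exact mul_nonneg (mul_nonneg (mul_nonneg (mul_nonneg (mul_nonneg (Nat.cast_nonneg _)
      (Nat.cast_nonneg _)) hT.le) (pow_nonneg hH0 8)) hM) h3
  linarith

/-- eventually small tail -/
theorem tail_small (η : ℝ) (hη : 0 < η) :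
    ∃ q0 : ℕ, ∀ q : ℕ, q0 ≤ q → 40 * (q : ℝ) ^ 2 * Real.exp (-(η * q)) ≤ 1 := by
  have h1 := Real.tendsto_pow_mul_exp_neg_atTop_nhds_zero 2
  have h2 : Filter.Tendsto (fun q : ℕ => η * (q : ℝ)) Filter.atTop Filter.atTop :=
    Filter.Tendsto.const_mul_atTop hη tendsto_natCast_atTop_atTop
  have h3 := h1.comp h2
  have h4 := h3.eventually (Iio_mem_nhds (show (0 : ℝ) < η ^ 2 / 40 by positivity))
  obtain ⟨q0, hq0⟩ := Filter.eventually_atTop.mp h4
  refine ⟨q0, fun q hq => ?_⟩
  have h5 := hq0 q hq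
  simp only [Function.comp_apply] at h5
  have h6 : (η * (q : ℝ)) ^ 2 * Real.exp (-(η * q)) * 40 < η ^ 2 := by linarith
  have h7 : η ^ 2 * (40 * (q : ℝ) ^ 2 * Real.exp (-(η * q))) < η ^ 2 * 1 := by
    calc η ^ 2 * (40 * (q : ℝ) ^ 2 * Real.exp (-(η * q)))
        = (η * (q : ℝ)) ^ 2 * Real.exp (-(η * q)) * 40 := by ring
      _ < η ^ 2 * 1 := by linarith
  exact (lt_of_mul_lt_mul_left h7 (by positivity)).le

theorem specR2 : SpecR2 := by
  classical
  set c0 : ℝ := Real.exp (-2000) with hc0
  have hc0pos : 0 < c0 := Real.exp_pos _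
  set δ : ℝ := c0 * (3 / 1000) with hδ
  have hδpos : 0 < δ := by positivity
  set η : ℝ := δ ^ 2 / 4000000 with hη
  have hηpos : 0 < η := by positivity
  obtain ⟨q1, hq1⟩ := tail_small η hηpos
  obtain ⟨q2, hq2⟩ := exists_nat_ge (36000 / (c0 * (61 / 1000)))
  refine ⟨max 6000 (max q1 q2), ?_⟩
  intro F _ _ _ hq
  have hqA : 6000 ≤ ord F := le_trans (le_max_left _ _) hq
  have hqB : q1 ≤ ord F := le_trans (le_trans (le_max_left _ _) (le_max_right _ _)) hq
  have hqC : q2 ≤ ord F := le_trans (le_trans (le_max_right _ _) (le_max_right _ _)) hq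
  have hq1' : 1 ≤ ord F := by omega
  set q : ℕ := ord F with hqdef
  have hqr : (6000 : ℝ) ≤ (q : ℝ) := by exact_mod_cast hqA
  set μ : ℝ := ((q : ℝ) * ((q.choose 9 : ℕ) * (TT q * (HH q ^ 9 * MM q ^ (q - 9))))) /
    TT q ^ (q + 1) with hμ
  have hTpos : 0 < TT q ^ (q + 1) := pow_pos (TT_pos hq1') _
  have hμge : c0 * q ≤ μ := by
    rw [hμ, le_div_iff₀ hTpos]
    exact mu_ge hqA
  have hlarge : 36000 ≤ (c0 * (61 / 1000)) * q := by
    have h1 : 36000 / (c0 * (61 / 1000)) ≤ (q : ℝ) := le_trans hq2 (by exact_mod_cast hqC)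
    rw [div_le_iff₀ (by positivity)] at h1
    linarith
  have hcard : ((Fintype.card (RR F) : ℕ) : ℝ) = TT q ^ (q + 1) := card_RR
  have hm1 : ∀ z : Pt F, μ ≤ McD.mean (fun R : RR F => (NN 9 0 R z : ℝ)) := by
    intro z
    rw [McD.mean, hcard, hμ]
    exact div_le_div_of_nonneg_right (mean1 z) hTpos.le
  have hm2 : ∀ z : Pt F, McD.mean (fun R : RR F => (NN 9 1 R z : ℝ)) ≤ (1 / 100) * μ := by
    intro z
    rw [McD.mean, hcard, hμ, ← mul_div_assoc]
    exact div_le_div_of_nonneg_right (le_trans (mean2 z) (mu2_le hqA)) hTpos.le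
  set s : ℝ := δ * q with hs
  have hs0 : 0 ≤ s := by positivity
  set B1 : Pt F → Finset (RR F) := fun z => univ.filter (fun R : RR F =>
    (NN 9 0 R z : ℝ) ≤ McD.mean (fun R : RR F => (NN 9 0 R z : ℝ)) - s) with hB1
  set B2 : Pt F → Finset (RR F) := fun z => univ.filter (fun R : RR F =>
    McD.mean (fun R : RR F => (NN 9 1 R z : ℝ)) + s ≤ (NN 9 1 R z : ℝ)) with hB2
  have hexp : Real.exp (-2 * s ^ 2 / ∑ _i : Option F, (2000 : ℝ) ^ 2) ≤ Real.exp (-(η * q)) := by
    apply Real.exp_le_exp.mpr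
    rw [sum_const, card_univ, Fintype.card_option, nsmul_eq_mul]
    have h1 : ((Fintype.card F + 1 : ℕ) : ℝ) = q + 1 := by
      rw [hqdef]; push_cast; rfl
    rw [h1, hs, hη]
    have h2 : (0 : ℝ) < ((q : ℝ) + 1) * 2000 ^ 2 := by positivity
    rw [div_le_iff₀ h2]
    have h3 : (0 : ℝ) ≤ δ ^ 2 * q * (q - 1) := by
      have : (0 : ℝ) ≤ (q : ℝ) - 1 := by linarith
      positivity
    nlinarith
  have hb1 : ∀ z, ((B1 z).card : ℝ) ≤ Real.exp (-(η * q)) * TT q ^ (q + 1) := by
    intro z
    have h := McD.card_lower_tail (fun R : RR F => (NN 9 0 R z : ℝ)) (fun _ => 2000)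
      (fun i R y => NN_diff 9 0 z i R y) s hs0
    refine le_trans h ?_
    have hc : ((Fintype.card ((i : Option F) → (fun _ => Fin kap → F) i) : ℕ) : ℝ)
      = TT q ^ (q + 1) := hcard
    rw [hc]
    exact mul_le_mul_of_nonneg_right hexp hTpos.le
  have hb2 : ∀ z, ((B2 z).card : ℝ) ≤ Real.exp (-(η * q)) * TT q ^ (q + 1) := by
    intro z
    have h := McD.card_upper_tail (fun R : RR F => (NN 9 1 R z : ℝ)) (fun _ => 2000)
      (fun i R y => NN_diff 9 1 z i R y) s hs0
    refine le_trans h ?_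
    have hc : ((Fintype.card ((i : Option F) → (fun _ => Fin kap → F) i) : ℕ) : ℝ)
      = TT q ^ (q + 1) := hcard
    rw [hc]
    exact mul_le_mul_of_nonneg_right hexp hTpos.le
  refine ⟨univ.biUnion (fun z => B1 z ∪ B2 z), ?_, ?_⟩
  · intro R hR z z'
    have hR' : ∀ z, R ∉ B1 z ∧ R ∉ B2 z := by
      intro z
      constructor
      · intro h
        exact hR (mem_biUnion.mpr ⟨z, mem_univ _, mem_union_left _ h⟩)
      · intro h
        exact hR (mem_biUnion.mpr ⟨z, mem_univ _, mem_union_right _ h⟩)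
    have h1 := (hR' z).1
    have h2 := (hR' z').2
    simp only [hB1, hB2, mem_filter, mem_univ, true_and, not_le] at h1 h2
    have h3 := hm1 z
    have h4 := hm2 z'
    have key : (4 * (18 * (NN 9 1 R z' : ℝ) + 9000)) ≤ (NN 9 0 R z : ℝ) := by
      have e1 : s = 3 / 1000 * (c0 * q) := by rw [hs, hδ]; ring
      nlinarith
    rw [N1_eq, N2_eq]
    exact_mod_cast key
  · have h1 : ((univ.biUnion (fun z => B1 z ∪ B2 z)).card : ℝ) ≤
        4 * (q : ℝ) ^ 2 * (Real.exp (-(η * q)) * TT q ^ (q + 1)) := by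
      have h2 : ((univ.biUnion (fun z => B1 z ∪ B2 z)).card : ℝ) ≤
          ∑ z : Pt F, (((B1 z).card : ℝ) + ((B2 z).card : ℝ)) := by
        have h3 : (univ.biUnion (fun z => B1 z ∪ B2 z)).card ≤
            ∑ z : Pt F, ((B1 z).card + (B2 z).card) :=
          le_trans card_biUnion_le (sum_le_sum (fun z _ => card_union_le _ _))
        exact_mod_cast h3
      refine le_trans h2 ?_
      have h4 : ∑ z : Pt F, (((B1 z).card : ℝ) + ((B2 z).card : ℝ)) ≤
          ∑ _z : Pt F, (2 * (Real.exp (-(η * q)) * TT q ^ (q + 1))) := by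
        apply sum_le_sum
        intro z _
        have := hb1 z
        have := hb2 z
        linarith
      refine le_trans h4 ?_
      rw [sum_const, card_univ, Fintype.card_prod, Fintype.card_option, nsmul_eq_mul]
      have h5 : (((Fintype.card F + 1) * Fintype.card F : ℕ) : ℝ) = (q + 1) * q := by
        rw [hqdef]; push_cast; rfl
      rw [h5]
      have h6 : 0 ≤ Real.exp (-(η * q)) * TT q ^ (q + 1) := by positivity
      have h7 : ((q : ℝ) + 1) * q * 2 ≤ 4 * (q : ℝ) ^ 2 := by nlinarith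
      calc ((q : ℝ) + 1) * q * (2 * (Real.exp (-(η * q)) * TT q ^ (q + 1)))
          = ((q : ℝ) + 1) * q * 2 * (Real.exp (-(η * q)) * TT q ^ (q + 1)) := by ring
        _ ≤ _ := mul_le_mul_of_nonneg_right h7 h6
    have h8 := hq1 q hqB
    have h9 : (10 * ((univ.biUnion (fun z => B1 z ∪ B2 z)).card : ℝ)) ≤
        ((Fintype.card (RR F) : ℕ) : ℝ) := by
      rw [hcard]
      calc (10 * ((univ.biUnion (fun z => B1 z ∪ B2 z)).card : ℝ)) ≤
          10 * (4 * (q : ℝ) ^ 2 * (Real.exp (-(η * q)) * TT q ^ (q + 1))) := by linarith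
        _ = (40 * (q : ℝ) ^ 2 * Real.exp (-(η * q))) * TT q ^ (q + 1) := by ring
        _ ≤ 1 * TT q ^ (q + 1) := mul_le_mul_of_nonneg_right h8 hTpos.le
        _ = TT q ^ (q + 1) := one_mul _
    exact_mod_cast h9

end Crest.Agent.R034.R2M
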