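import Crest.Agent.R034.Spec

/-!
# Row 34, module M7: `SpecR3` (grid property)

Potential-function argument (no concentration inequality): every draw hits at most two lines of the
grid, `E (1/2)^{#unhit} ≤ lam^{#lines}` with `lam ≤ 1 - exp (-12000)/2`, and a union bound over all
grids.
-/

set_option autoImplicit false

namespace Crest.Agent.R034

open Finset

/-- the base of the potential after `n` draws -/
noncomputable def lam (q : ℝ) (n : ℕ) : ℝ := 1 - (1 / 2) * (1 - 3 / q) ^ n

lemma lam_zero (q : ℝ) : lam q 0 = 1 / 2 := by norm_num [lam]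

lemma lam_lt_one {q : ℝ} (hq : 6 ≤ q) (n : ℕ) : lam q n < 1 := by
  have h1 : 0 < 1 - 3 / q := by
    have : 3 / q ≤ 1 / 2 := by rw [div_le_iff₀ (by linarith)]; linarith
    linarith
  have := pow_pos h1 n
  unfold lam; linarith

lemma half_le_lam {q : ℝ} (hq : 6 ≤ q) (n : ℕ) : 1 / 2 ≤ lam q n := by
  have h0 : 0 ≤ 1 - 3 / q := by
    have : 3 / q ≤ 1 / 2 := by rw [div_le_iff₀ (by linarith)]; linarith
    linarith
  have h1 : 1 - 3 / q ≤ 1 := by
    have : 0 ≤ 3 / q := by positivity
    linarith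
  have := pow_le_one₀ (n := n) h0 h1
  unfold lam; linarith

lemma lam_succ {q : ℝ} (n : ℕ) : lam q (n + 1) = lam q n + (1 - lam q n) * (3 / q) := by
  unfold lam; ring

/-- one step of the potential -/
lemma lam_step {q : ℝ} (hq : 6 ≤ q) (n x : ℕ) :
    lam q n ^ x * (q + x * (((lam q n)⁻¹ ^ 2 - 1) / 2)) ≤ q * lam q (n + 1) ^ x := by
  have hl := half_le_lam hq n
  have hl1 := lam_lt_one hq n
  set l := lam q n with hldef
  have hl0 : 0 < l := by linarith
  have hq0 : 0 < q := by linarith
  have hmu : ((l)⁻¹ ^ 2 - 1) / 2 ≤ 3 * (1 - l) := by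
    have h1 : l⁻¹ * l = 1 := inv_mul_cancel₀ hl0.ne'
    have h2 : l⁻¹ ≤ 2 := by
      rw [inv_le_comm₀ hl0 (by norm_num)]; linarith
    have h3 : 0 < l⁻¹ := by positivity
    -- l⁻¹^2 - 1 = (l⁻¹ - 1)(l⁻¹+1) = (1-l) l⁻¹ (l⁻¹+1)
    have h4 : l⁻¹ ^ 2 - 1 = (1 - l) * (l⁻¹ * (l⁻¹ + 1)) := by
      have : (1 - l) * (l⁻¹ * (l⁻¹ + 1)) = (l⁻¹ - l⁻¹ * l) * (l⁻¹ + 1) := by ring
      rw [this, h1]; ring
    rw [h4]
    have h5 : l⁻¹ * (l⁻¹ + 1) ≤ 6 := by nlinarith
    nlinarith [mul_le_mul_of_nonneg_left h5 (by linarith : (0:ℝ) ≤ 1 - l)]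
  have hx : (0:ℝ) ≤ x := Nat.cast_nonneg x
  have hbase : l * (1 + 3 * (1 - l) / q) ≤ lam q (n + 1) := by
    rw [lam_succ, ← hldef]
    have : 0 ≤ (1 - l) * (3 / q) := mul_nonneg (by linarith) (by positivity)
    have h6 : l * (1 + 3 * (1 - l) / q) = l + l * ((1 - l) * (3 / q)) := by ring
    rw [h6]
    nlinarith
  have hbern : 1 + (x:ℝ) * (3 * (1 - l) / q) ≤ (1 + 3 * (1 - l) / q) ^ x := by
    apply one_add_mul_le_pow
    have : 0 ≤ 3 * (1 - l) / q := div_nonneg (by linarith) hq0.le
    linarith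
  calc l ^ x * (q + x * (((l)⁻¹ ^ 2 - 1) / 2))
      ≤ l ^ x * (q + x * (3 * (1 - l))) := by
        apply mul_le_mul_of_nonneg_left _ (by positivity)
        have := mul_le_mul_of_nonneg_left hmu hx
        linarith
    _ = q * (l ^ x * (1 + x * (3 * (1 - l) / q))) := by field_simp
    _ ≤ q * (l ^ x * (1 + 3 * (1 - l) / q) ^ x) := by
        apply mul_le_mul_of_nonneg_left _ hq0.le
        apply mul_le_mul_of_nonneg_left hbern (by positivity)
    _ = q * (l * (1 + 3 * (1 - l) / q)) ^ x := by rw [mul_pow]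
    _ ≤ q * lam q (n + 1) ^ x := by
        apply mul_le_mul_of_nonneg_left _ hq0.le
        apply pow_le_pow_left₀ _ hbase
        have : 0 ≤ 3 * (1 - l) / q := div_nonneg (by linarith) hq0.le
        positivity

/-- The potential lemma. -/
lemma potential {α : Type} [DecidableEq α] {F : Type} [Fintype F] [DecidableEq F]
    (hq : 6 ≤ Fintype.card F) (n : ℕ) :
    ∀ (h : Fin n → F → Finset α), (∀ d y, (h d y).card ≤ 2) →
      (∀ d y y', y ≠ y' → Disjoint (h d y) (h d y')) → ∀ L : Finset α,
      ∑ R : Fin n → F, (1 / 2 : ℝ) ^ (L \ univ.biUnion (fun d => h d (R d))).card ≤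
        (Fintype.card F : ℝ) ^ n * lam (Fintype.card F) n ^ L.card := by
  have hq' : (6:ℝ) ≤ (Fintype.card F : ℝ) := by exact_mod_cast hq
  induction n with
  | zero =>
    intro h _ _ L
    simp [lam_zero]
  | succ n ih =>
    intro h h2 hd L
    set l := lam (Fintype.card F : ℝ) n with hldef
    have hl := half_le_lam hq' n
    have hl1 := lam_lt_one hq' n
    rw [← hldef] at hl hl1
    have hl0 : 0 < l := by linarith
    rw [← (Fin.consEquiv (fun _ : Fin (n+1) => F)).sum_comp, Fintype.sum_prod_type]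
    have hset : ∀ (y : F) (R : Fin n → F),
        L \ univ.biUnion (fun d => h d ((Fin.consEquiv (fun _ : Fin (n+1) => F)) (y, R) d)) =
        (L \ h 0 y) \ univ.biUnion (fun d : Fin n => h d.succ (R d)) := by
      intro y R
      ext c
      simp only [mem_sdiff, mem_biUnion, mem_univ, true_and, Fin.exists_fin_succ, Fin.consEquiv_apply,
        Fin.cons_zero, Fin.cons_succ, not_or]
      tauto
    have h1 : ∀ y : F, ∑ R : Fin n → F, (1 / 2 : ℝ) ^ (L \ univ.biUnion
        (fun d => h d ((Fin.consEquiv (fun _ : Fin (n+1) => F)) (y, R) d))).card ≤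
        (Fintype.card F : ℝ) ^ n * (l ^ L.card * (1 + (L ∩ h 0 y).card * (((l)⁻¹ ^ 2 - 1) / 2))) := by
      intro y
      simp_rw [hset]
      refine (ih (fun d => h d.succ) (fun d => h2 d.succ) (fun d => hd d.succ) (L \ h 0 y)).trans ?_
      apply mul_le_mul_of_nonneg_left _ (by positivity)
      have hc : (L \ h 0 y).card + (L ∩ h 0 y).card = L.card := by
        rw [add_comm]; exact card_inter_add_card_sdiff L (h 0 y)
      have ha : (L ∩ h 0 y).card ≤ 2 := (card_le_card inter_subset_right).trans (h2 0 y)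
      rw [← hc, pow_add]
      generalize (L ∩ h 0 y).card = a at ha
      have hpos : 0 ≤ l ^ (L \ h 0 y).card := by positivity
      rw [mul_assoc]
      apply le_mul_of_one_le_right hpos
      have hinv : l * l⁻¹ = 1 := mul_inv_cancel₀ hl0.ne'
      interval_cases a
      · simp
      · simp only [Nat.cast_one, pow_one, one_mul]
        have : l * (1 + (l⁻¹ ^ 2 - 1) / 2) - 1 = l * (l⁻¹ - 1) ^ 2 / 2 + (l * l⁻¹ - 1) := by ring
        have h3 : 0 ≤ l * (l⁻¹ - 1) ^ 2 / 2 := by positivity
        rw [hinv] at this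
        linarith
      · have : l ^ 2 * (1 + ((2:ℕ):ℝ) * ((l⁻¹ ^ 2 - 1) / 2)) = (l * l⁻¹) ^ 2 := by push_cast; ring
        rw [this, hinv]; norm_num
    refine (sum_le_sum fun y _ => h1 y).trans ?_
    rw [← mul_sum, ← mul_sum, sum_add_distrib, ← sum_mul]
    have hs : ∑ y : F, ((L ∩ h 0 y).card : ℝ) ≤ L.card := by
      have : (univ.biUnion (fun y => L ∩ h 0 y)).card = ∑ y : F, (L ∩ h 0 y).card := by
        apply card_biUnion
        intro y _ y' _ hne
        exact (hd 0 y y' hne).mono inter_subset_right inter_subset_right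
      have h4 : (univ.biUnion (fun y => L ∩ h 0 y)).card ≤ L.card := by
        apply card_le_card
        intro c hc
        simp only [mem_biUnion, mem_inter] at hc
        obtain ⟨_, _, h5, _⟩ := hc
        exact h5
      rw [this] at h4
      exact_mod_cast h4
    have hmu : 0 ≤ ((l)⁻¹ ^ 2 - 1) / 2 := by
      have : 1 ≤ l⁻¹ := (one_le_inv₀ hl0).2 hl1.le
      have : 1 ≤ l⁻¹ ^ 2 := one_le_pow₀ this
      linarith
    have hstep := lam_step hq' n L.card
    rw [← hldef] at hstep
    calc (Fintype.card F : ℝ) ^ n * (l ^ L.card * (∑ _y : F, (1:ℝ) +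
          (∑ y : F, ((L ∩ h 0 y).card : ℝ)) * (((l)⁻¹ ^ 2 - 1) / 2)))
        ≤ (Fintype.card F : ℝ) ^ n * (l ^ L.card * ((Fintype.card F : ℝ) +
          (L.card : ℝ) * (((l)⁻¹ ^ 2 - 1) / 2))) := by
          apply mul_le_mul_of_nonneg_left _ (by positivity)
          apply mul_le_mul_of_nonneg_left _ (by positivity)
          have := mul_le_mul_of_nonneg_right hs hmu
          simp only [sum_const, card_univ, nsmul_eq_mul, mul_one]
          linarith
      _ ≤ (Fintype.card F : ℝ) ^ n * ((Fintype.card F : ℝ) * lam (Fintype.card F : ℝ) (n + 1) ^ L.card) :=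
          mul_le_mul_of_nonneg_left hstep (by positivity)
      _ = _ := by rw [pow_succ]; ring

section
variable {F : Type} [Field F] [Fintype F] [DecidableEq F]

/-- the bad event of one grid -/
def badGrid (k : ℕ) (T W : Fin k → Pt F) : Finset (RR F) :=
  univ.filter (fun R => (∀ i, T i ∉ Kset R) ∧ (∀ j, W j ∉ Kset R) ∧
    ∀ i j, ¬ Avoids (Kset R) (thru (T i) (W j)))

/-- number of draws -/
lemma card_RR (F : Type) [Fintype F] [DecidableEq F] :
    Fintype.card (RR F) = Fintype.card F ^ ((Fintype.card F + 1) * kap) := by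
  simp only [RR, Fintype.card_pi, prod_const, Fintype.card_fin, card_univ, Fintype.card_option]
  rw [← pow_mul, mul_comm]

lemma badGrid_card (hq : 6 ≤ Fintype.card F) (k : ℕ) (T W : Fin k → Pt F) (hG : Grid k T W) :
    ((badGrid k T W).card : ℝ) ≤ (Fintype.card (RR F) : ℝ) *
      lam (Fintype.card F) ((Fintype.card F + 1) * kap) ^ (k * k) := by
  classical
  set M := (Fintype.card F + 1) * kap with hM
  have hcard : Fintype.card (Option F × Fin kap) = M := by
    simp [hM]
  let e : Fin M ≃ Option F × Fin kap := (finCongr hcard.symm).trans (Fintype.equivFin _).symm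
  let h : Fin M → F → Finset (Fin k × Fin k) := fun d y =>
    univ.filter (fun c => val (thru (T c.1) (W c.2)) (e d).1 = y ∧
      (∀ i, T i ≠ ((e d).1, y)) ∧ (∀ j, W j ≠ ((e d).1, y)))
  have h2 : ∀ d y, (h d y).card ≤ 2 := by
    intro d y
    by_cases hTW : (∀ i, T i ≠ ((e d).1, y)) ∧ (∀ j, W j ≠ ((e d).1, y))
    · refine (card_le_card ?_).trans (hG.two ((e d).1, y) hTW.1 hTW.2)
      intro c hc
      simp only [h, mem_filter, mem_univ, true_and] at hc ⊢
      exact hc.1
    · have : h d y = ∅ := by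
        ext c
        simp only [h, mem_filter, mem_univ, true_and, notMem_empty, iff_false]
        intro hc
        exact hTW hc.2
      rw [this]; simp
  have hd : ∀ d y y', y ≠ y' → Disjoint (h d y) (h d y') := by
    intro d y y' hne
    rw [disjoint_left]
    intro c hc hc'
    simp only [h, mem_filter, mem_univ, true_and] at hc hc'
    exact hne (hc.1.symm.trans hc'.1)
  have hpot := potential hq M h h2 hd univ
  have hinj : (badGrid k T W).card ≤
      (univ.filter (fun R' : Fin M → F => univ \ univ.biUnion (fun d => h d (R' d)) = ∅)).card := by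
    apply card_le_card_of_injOn (fun R d => R (e d).1 (e d).2)
    · intro R hR
      simp only [badGrid, coe_filter, mem_univ, true_and, Set.mem_ofPred_eq] at hR
      obtain ⟨hT, hW, hL⟩ := hR
      simp only [coe_filter, mem_univ, true_and, Set.mem_ofPred_eq]
      rw [sdiff_eq_empty_iff_subset]
      intro c _
      have hc := hL c.1 c.2
      unfold Avoids at hc
      push Not at hc
      obtain ⟨j, hj⟩ := hc
      have hj' := hj
      simp only [Kset, mem_filter, mem_univ, true_and] at hj
      obtain ⟨r, hr⟩ := hj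
      simp only [mem_biUnion, mem_univ, true_and]
      refine ⟨e.symm (j, r), ?_⟩
      simp only [h, Equiv.apply_symm_apply, mem_filter, mem_univ, true_and]
      refine ⟨hr.symm, ?_, ?_⟩
      · intro i hi
        rw [hr] at hi
        exact hT i (hi ▸ hj')
      · intro i hi
        rw [hr] at hi
        exact hW i (hi ▸ hj')
    · intro R _ R' _ hRR
      funext j r
      have := congrFun hRR (e.symm (j, r))
      simpa using this
  have hsum : (((univ.filter (fun R' : Fin M → F =>
      univ \ univ.biUnion (fun d => h d (R' d)) = ∅)).card : ℕ) : ℝ) ≤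
      ∑ R : Fin M → F, (1 / 2 : ℝ) ^ (univ \ univ.biUnion (fun d => h d (R d))).card := by
    rw [card_filter]
    push_cast
    apply sum_le_sum
    intro R _
    split_ifs with h0
    · rw [h0]; simp
    · positivity
  have hu : (univ : Finset (Fin k × Fin k)).card = k * k := by simp
  rw [hu] at hpot
  calc ((badGrid k T W).card : ℝ) ≤ _ := by exact_mod_cast hinj
    _ ≤ _ := hsum
    _ ≤ _ := hpot
    _ = _ := by
      rw [card_RR]; push_cast; rfl

/-- the constant -/
noncomputable def c1 : ℝ := (1 / 2) * Real.exp (-12000)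

lemma c1_pos : 0 < c1 := by unfold c1; positivity

lemma lam_le_aux {q M : ℕ} (hq : 6 ≤ q) (hM : (M:ℝ) = ((q:ℝ) + 1) * 1000) :
    lam q M ≤ Real.exp (-c1) := by
  have hq' : (6:ℝ) ≤ q := by exact_mod_cast hq
  have hx : (3:ℝ) / q ≤ 1 / 2 := by rw [div_le_iff₀ (by linarith)]; linarith
  have h1 : Real.exp (-(6 / q)) ≤ 1 - 3 / (q:ℝ) := by
    have h2 := Real.add_one_le_exp (6 / (q:ℝ))
    rw [Real.exp_neg, inv_le_comm₀ (Real.exp_pos _) (by linarith)]
    refine le_trans ?_ h2
    rw [inv_le_comm₀ (by linarith) (by positivity)]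
    have h3 : (6:ℝ) / q = 2 * (3 / q) := by ring
    rw [h3]
    set x := (3:ℝ) / q with hxdef
    have hx0 : 0 < x := by positivity
    rw [inv_eq_one_div, div_le_iff₀ (by linarith)]
    nlinarith
  have h4 : Real.exp (-12000) ≤ (1 - 3 / (q:ℝ)) ^ M := by
    have h5 : Real.exp (-(6 / (q:ℝ))) ^ M ≤ (1 - 3 / (q:ℝ)) ^ M :=
      pow_le_pow_left₀ (Real.exp_pos _).le h1 _
    refine le_trans ?_ h5
    rw [← Real.exp_nat_mul]
    apply Real.exp_le_exp.2
    rw [hM]
    have : ((q:ℝ) + 1) * 1000 * (-(6 / q)) = -6000 - 6000 / q := by field_simp; ring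
    rw [this]
    have : (6000:ℝ) / q ≤ 6000 := by
      rw [div_le_iff₀ (by linarith)]; linarith
    linarith
  have h6 := Real.add_one_le_exp (-c1)
  unfold lam
  unfold c1 at h6 ⊢
  linarith

lemma lam_le {q : ℕ} (hq : 6 ≤ q) : lam q ((q + 1) * kap) ≤ Real.exp (-c1) := by
  apply lam_le_aux hq
  rw [Nat.cast_mul, Nat.cast_add, Nat.cast_one]
  congr 1

/-- elementary growth comparison -/
lemma growth (N : ℕ) : ∃ K0 : ℕ, 1 ≤ K0 ∧ ∀ k : ℕ, K0 ≤ k →
    Real.log 10 + 4 * N * Real.log (k + 1) ≤ c1 * k := by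
  have h1 : Filter.Tendsto (fun x : ℝ => Real.log x / x) Filter.atTop (nhds 0) := by
    have := Real.isLittleO_log_id_atTop.tendsto_div_nhds_zero
    simpa using this
  have h2 : Filter.Tendsto (fun k : ℕ => Real.log ((k:ℝ) + 1) / ((k:ℝ) + 1)) Filter.atTop (nhds 0) :=
    h1.comp (Filter.tendsto_atTop_add_const_right _ _ tendsto_natCast_atTop_atTop)
  have hc := c1_pos
  have h3 := h2.eventually (gt_mem_nhds (show (0:ℝ) < c1 / (4 * (4 * N + 1)) by positivity))
  have h4 : ∀ᶠ k : ℕ in Filter.atTop, (2 * Real.log 10 / c1 : ℝ) ≤ k :=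
    tendsto_natCast_atTop_atTop.eventually (Filter.eventually_ge_atTop _)
  obtain ⟨K0, hK0⟩ := Filter.eventually_atTop.1 (h3.and (h4.and (Filter.eventually_ge_atTop 1)))
  refine ⟨max K0 1, le_max_right _ _, fun k hk => ?_⟩
  obtain ⟨h5, h6, h7⟩ := hK0 k ((le_max_left _ _).trans hk)
  have hk1 : (1:ℝ) ≤ k := by exact_mod_cast h7
  have h8 : Real.log ((k:ℝ) + 1) ≤ c1 / (4 * (4 * N + 1)) * (k + 1) := by
    rw [div_lt_iff₀ (by positivity)] at h5
    exact h5.le
  have h9 : 4 * N * Real.log ((k:ℝ)+1) ≤ c1 * k / 2 := by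
    have hN : (0:ℝ) ≤ 4 * N := by positivity
    calc 4 * N * Real.log ((k:ℝ)+1) ≤ 4 * N * (c1 / (4 * (4 * N + 1)) * (k + 1)) :=
          mul_le_mul_of_nonneg_left h8 hN
      _ ≤ (4 * N + 1) * (c1 / (4 * (4 * N + 1)) * (k + 1)) := by
          apply mul_le_mul_of_nonneg_right (by linarith) (by positivity)
      _ = c1 * (k + 1) / 4 := by field_simp
      _ ≤ c1 * k / 2 := by nlinarith
  have h10 : Real.log 10 ≤ c1 * k / 2 := by
    rw [div_le_iff₀ hc] at h6
    linarith
  linarith

end

theorem specR3 : SpecR3 := by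
  classical
  intro N hN
  obtain ⟨K0, hK01, hK0⟩ := growth N
  refine ⟨(K0 + 1) ^ N + 6, ?_⟩
  intro F _ _ _ hqF k hk
  have hq6 : 6 ≤ Fintype.card F := by
    have : 0 ≤ (K0 + 1) ^ N := Nat.zero_le _
    simp only [ord] at hqF
    omega
  have hkK : K0 ≤ k := by
    by_contra hlt
    push Not at hlt
    have h1 : (k + 1) ^ N ≤ (K0 + 1) ^ N := Nat.pow_le_pow_left (by omega) N
    have h2 := hk.2
    omega
  have hk1 : 1 ≤ k := hK01.trans hkK
  have hgr := hK0 k hkK
  refine ⟨univ.filter (fun R => ¬ R3 R k), ?_, ?_⟩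
  · intro R hR
    simpa using hR
  · -- union bound
    set q := Fintype.card F with hqdef
    have hsub : (univ.filter (fun R : RR F => ¬ R3 R k)) ⊆
        (univ.filter (fun p : (Fin k → Pt F) × (Fin k → Pt F) => Grid k p.1 p.2)).biUnion
          (fun p => badGrid k p.1 p.2) := by
      intro R hR
      rw [mem_filter] at hR
      have hR := hR.2
      unfold R3 at hR
      push Not at hR
      obtain ⟨T, W, hG, hT, hW, hL⟩ := hR
      simp only [mem_biUnion, mem_filter, mem_univ, true_and, badGrid]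
      exact ⟨(T, W), hG, hT, hW, hL⟩
    have hcard := (card_le_card hsub).trans card_biUnion_le
    have hsum : ((∑ p ∈ (univ.filter (fun p : (Fin k → Pt F) × (Fin k → Pt F) => Grid k p.1 p.2)),
        (badGrid k p.1 p.2).card : ℕ) : ℝ) ≤
        (((q + 1) * q : ℕ) : ℝ) ^ (2 * k) * ((Fintype.card (RR F) : ℝ) *
          Real.exp (-c1) ^ (k * k)) := by
      push_cast
      calc (∑ p ∈ (univ.filter (fun p : (Fin k → Pt F) × (Fin k → Pt F) => Grid k p.1 p.2)),
            ((badGrid k p.1 p.2).card : ℝ))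
          ≤ ∑ _p ∈ (univ.filter (fun p : (Fin k → Pt F) × (Fin k → Pt F) => Grid k p.1 p.2)),
            ((Fintype.card (RR F) : ℝ) * Real.exp (-c1) ^ (k * k)) := by
            apply sum_le_sum
            intro p hp
            simp only [mem_filter, mem_univ, true_and] at hp
            refine (badGrid_card hq6 k p.1 p.2 hp).trans ?_
            apply mul_le_mul_of_nonneg_left _ (by positivity)
            apply pow_le_pow_left₀
            · have := half_le_lam (q := (Fintype.card F : ℝ)) (by exact_mod_cast hq6)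
                ((Fintype.card F + 1) * kap)
              linarith
            · exact lam_le hq6
        _ = ((univ.filter (fun p : (Fin k → Pt F) × (Fin k → Pt F) => Grid k p.1 p.2)).card : ℝ) *
            ((Fintype.card (RR F) : ℝ) * Real.exp (-c1) ^ (k * k)) := by
            rw [sum_const, nsmul_eq_mul]
        _ ≤ _ := by
            apply mul_le_mul_of_nonneg_right _ (by positivity)
            have h1 : (univ.filter (fun p : (Fin k → Pt F) × (Fin k → Pt F) => Grid k p.1 p.2)).card
                ≤ ((q + 1) * q) ^ (2 * k) := by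
              refine (card_le_univ _).trans ?_
              simp only [Fintype.card_prod, Fintype.card_pi, prod_const, card_univ, Fintype.card_fin,
                Fintype.card_option]
              rw [two_mul, pow_add]
            exact_mod_cast h1
    have hreal : (10 : ℝ) * ((((q + 1) * q : ℕ) : ℝ) ^ (2 * k) * Real.exp (-c1) ^ (k * k)) ≤ 1 := by
      have hkq : q + 1 ≤ (k + 1) ^ N := hk.2
      have h1 : (((q + 1) * q : ℕ) : ℝ) ≤ ((k:ℝ) + 1) ^ (2 * N) := by
        have : (q + 1) * q ≤ (k + 1) ^ (2 * N) := by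
          rw [two_mul, pow_add]
          exact Nat.mul_le_mul hkq (by omega)
        exact_mod_cast this
      have hk1' : (0:ℝ) < (k:ℝ) + 1 := by positivity
      calc (10 : ℝ) * ((((q + 1) * q : ℕ) : ℝ) ^ (2 * k) * Real.exp (-c1) ^ (k * k))
          ≤ 10 * ((((k:ℝ) + 1) ^ (2 * N)) ^ (2 * k) * Real.exp (-c1) ^ (k * k)) := by
            apply mul_le_mul_of_nonneg_left _ (by norm_num)
            apply mul_le_mul_of_nonneg_right _ (by positivity)
            exact pow_le_pow_left₀ (by positivity) h1 _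
        _ = Real.exp (Real.log 10 + (k:ℝ) * (4 * N * Real.log (k + 1)) - c1 * k * k) := by
            rw [← pow_mul, Real.exp_sub, Real.exp_add, Real.exp_log (by norm_num), ← Real.exp_nat_mul,
              div_eq_mul_inv, ← Real.exp_neg]
            have h2 : Real.exp ((k:ℝ) * (4 * N * Real.log (k + 1))) = ((k:ℝ) + 1) ^ (2 * N * (2 * k)) := by
              rw [← Real.exp_log (pow_pos hk1' _), Real.log_pow]
              congr 1
              push_cast; ring
            have h3 : Real.exp (((k * k : ℕ):ℝ) * -c1) = Real.exp (-(c1 * k * k)) := by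
              congr 1; push_cast; ring
            rw [h2, h3]; ring
        _ ≤ 1 := by
            rw [Real.exp_le_one_iff]
            have hk1'' : (1:ℝ) ≤ k := by exact_mod_cast hk1
            have hl10 : 0 ≤ Real.log 10 := Real.log_nonneg (by norm_num)
            nlinarith
    have hfin : (10:ℝ) * ((univ.filter (fun R : RR F => ¬ R3 R k)).card : ℝ) ≤
        (Fintype.card (RR F) : ℝ) := by
      have h1 : ((univ.filter (fun R : RR F => ¬ R3 R k)).card : ℝ) ≤ _ :=
        (Nat.cast_le.2 hcard).trans hsum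
      calc (10:ℝ) * ((univ.filter (fun R : RR F => ¬ R3 R k)).card : ℝ)
          ≤ 10 * ((((q + 1) * q : ℕ) : ℝ) ^ (2 * k) * ((Fintype.card (RR F) : ℝ) *
          Real.exp (-c1) ^ (k * k))) := mul_le_mul_of_nonneg_left h1 (by norm_num)
        _ = (Fintype.card (RR F) : ℝ) * ((10 : ℝ) * ((((q + 1) * q : ℕ) : ℝ) ^ (2 * k) *
          Real.exp (-c1) ^ (k * k))) := by ring
        _ ≤ (Fintype.card (RR F) : ℝ) * 1 := mul_le_mul_of_nonneg_left hreal (by positivity)
        _ = _ := mul_one _
    exact_mod_cast hfin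

end Crest.Agent.R034
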