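import Crest.Agent.R034.Spec
import Crest.Agent.R034.McDiarmid

/-!
# Module M8 of row 34: `SpecR4` (many label choices)
-/

set_option autoImplicit false

namespace Crest.Agent.R034

open Finset

namespace R4

section abstract

variable {I F : Type} [Fintype I] [DecidableEq I] [Fintype F] [DecidableEq F] {κ : ℕ}

/-- the number of labels `y` all of whose forbidden sets are avoided by `R` -/
def cnt (S : I → F → Finset F) (R : I → Fin κ → F) : ℕ :=
  (univ.filter (fun y : F => ∀ i r, R i r ∉ S i y)).card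

omit [DecidableEq I] in
theorem cnt_le_add (S : I → F → Finset F) (s : ℕ)
    (hS : ∀ i w, (univ.filter (fun y : F => w ∈ S i y)).card ≤ s)
    (R R' : I → Fin κ → F) (i : I) (h : ∀ j, j ≠ i → R j = R' j) :
    cnt S R ≤ cnt S R' + κ * s := by
  classical
  have hsub : (univ.filter (fun y : F => ∀ i r, R i r ∉ S i y)) ⊆
      (univ.filter (fun y : F => ∀ i r, R' i r ∉ S i y)) ∪
        (univ : Finset (Fin κ)).biUnion
          (fun r => univ.filter (fun y : F => R' i r ∈ S i y)) := by
    intro y hy
    simp only [mem_filter, mem_univ, true_and, mem_union, mem_biUnion] at hy ⊢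
    by_cases hc : ∃ r, R' i r ∈ S i y
    · exact Or.inr hc
    · left
      intro j r
      by_cases hj : j = i
      · subst hj
        exact fun h' => hc ⟨r, h'⟩
      · rw [← h j hj]
        exact hy j r
  calc cnt S R ≤ _ := card_le_card hsub
    _ ≤ _ := card_union_le _ _
    _ ≤ cnt S R' + κ * s := by
        refine Nat.add_le_add le_rfl ?_
        refine card_biUnion_le.trans ?_
        calc _ ≤ ∑ _r : Fin κ, s := sum_le_sum (fun r _ => hS i (R' i r))
          _ = κ * s := by simp

theorem cnt_diff (S : I → F → Finset F) (s : ℕ)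
    (hS : ∀ i w, (univ.filter (fun y : F => w ∈ S i y)).card ≤ s)
    (i : I) (R : I → Fin κ → F) (x : Fin κ → F) :
    |(cnt S R : ℝ) - (cnt S (Function.update R i x) : ℝ)| ≤ κ * s := by
  have h1 := cnt_le_add S s hS R (Function.update R i x) i
    (fun j hj => (Function.update_of_ne hj x R).symm)
  have h2 := cnt_le_add S s hS (Function.update R i x) R i
    (fun j hj => (Function.update_of_ne hj x R))
  have h1' : (cnt S R : ℝ) ≤ cnt S (Function.update R i x) + κ * s := by exact_mod_cast h1
  have h2' : (cnt S (Function.update R i x) : ℝ) ≤ cnt S R + κ * s := by exact_mod_cast h2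
  rw [abs_le]
  constructor <;> linarith

theorem sum_cnt (S : I → F → Finset F) :
    ∑ R : I → Fin κ → F, cnt S R =
      ∑ y : F, ∏ i : I, (Fintype.card F - (S i y).card) ^ κ := by
  classical
  have h1 : ∀ R : I → Fin κ → F, cnt S R =
      ∑ y : F, if (∀ i r, R i r ∉ S i y) then 1 else 0 := by
    intro R
    unfold cnt
    rw [card_filter]
  simp only [h1]
  rw [sum_comm]
  refine sum_congr rfl fun y _ => ?_
  rw [← card_filter]
  have h2 : (univ.filter (fun R : I → Fin κ → F => ∀ i r, R i r ∉ S i y)) =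
      Fintype.piFinset (fun i => Fintype.piFinset (fun _ : Fin κ => (S i y)ᶜ)) := by
    ext R
    simp [Fintype.mem_piFinset]
  rw [h2, Fintype.card_piFinset]
  refine prod_congr rfl fun i _ => ?_
  rw [Fintype.card_piFinset]
  simp [card_compl]

theorem one_sub_ge_exp (x : ℝ) (h0 : 0 ≤ x) (h1 : x ≤ 1 / 2) : Real.exp (-(2 * x)) ≤ 1 - x := by
  have h := Real.add_one_le_exp (2 * x)
  have hpos := Real.exp_pos (2 * x)
  rw [Real.exp_neg, inv_le_iff_one_le_mul₀ hpos]
  nlinarith

theorem mean_cnt (S : I → F → Finset F) (s : ℕ)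
    (hS : ∀ i y, (S i y).card ≤ s) (hq : 2 * s ≤ Fintype.card F) (hq0 : 0 < Fintype.card F) :
    (Fintype.card F : ℝ) * Real.exp (-(2 * s * κ * Fintype.card I / Fintype.card F)) ≤
      McD.mean (fun R : I → Fin κ → F => (cnt S R : ℝ)) := by
  set q := Fintype.card F with hqdef
  have hqpos : (0 : ℝ) < q := by exact_mod_cast hq0
  have hcard : Fintype.card (I → Fin κ → F) = (q ^ κ) ^ Fintype.card I := by
    simp [hqdef]
  unfold McD.mean
  rw [hcard]
  have hsum : (∑ R : I → Fin κ → F, (cnt S R : ℝ)) =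
      ((∑ y : F, ∏ i : I, (q - (S i y).card) ^ κ : ℕ) : ℝ) := by
    rw [← sum_cnt S]
    push_cast
    rfl
  rw [hsum]
  have hle : q * ((q - s) ^ κ) ^ Fintype.card I ≤
      ∑ y : F, ∏ i : I, (q - (S i y).card) ^ κ := by
    calc q * ((q - s) ^ κ) ^ Fintype.card I = ∑ _y : F, ((q - s) ^ κ) ^ Fintype.card I := by
          simp [hqdef]
      _ ≤ _ := by
          refine sum_le_sum fun y _ => ?_
          calc ((q - s) ^ κ) ^ Fintype.card I = ∏ _i : I, (q - s) ^ κ := by simp
            _ ≤ _ := by
                refine prod_le_prod' fun i _ => ?_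
                exact Nat.pow_le_pow_left (Nat.sub_le_sub_left (hS i y) q) κ
  have hle' : ((q * ((q - s) ^ κ) ^ Fintype.card I : ℕ) : ℝ) ≤
      ((∑ y : F, ∏ i : I, (q - (S i y).card) ^ κ : ℕ) : ℝ) := by exact_mod_cast hle
  have hsq : s ≤ q := by omega
  rw [le_div_iff₀ (by positivity)]
  refine le_trans ?_ hle'
  push_cast [Nat.cast_sub hsq]
  have hx : Real.exp (-(2 * ((s : ℝ) / q))) ≤ 1 - (s : ℝ) / q := by
    apply one_sub_ge_exp
    · positivity
    · rw [div_le_iff₀ hqpos]
      have : (2 * s : ℝ) ≤ q := by exact_mod_cast hq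
      linarith
  have h3 : Real.exp (-(2 * s * κ * Fintype.card I / q)) ≤
      ((1 - (s : ℝ) / q) ^ κ) ^ Fintype.card I := by
    calc Real.exp (-(2 * s * κ * Fintype.card I / q))
        = (Real.exp (-(2 * ((s : ℝ) / q)))) ^ (κ * Fintype.card I) := by
          rw [← Real.exp_nat_mul]
          congr 1
          push_cast
          ring
      _ ≤ (1 - (s : ℝ) / q) ^ (κ * Fintype.card I) :=
          pow_le_pow_left₀ (Real.exp_pos _).le hx _
      _ = _ := by rw [pow_mul]
  calc (q : ℝ) * Real.exp (-(2 * s * κ * Fintype.card I / q)) * ((q : ℝ) ^ κ) ^ Fintype.card I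
      ≤ (q : ℝ) * ((1 - (s : ℝ) / q) ^ κ) ^ Fintype.card I *
          ((q : ℝ) ^ κ) ^ Fintype.card I := by
        gcongr
    _ = (q : ℝ) * ((((1 - (s : ℝ) / q) * q)) ^ κ) ^ Fintype.card I := by
        rw [mul_pow, mul_pow]
        ring
    _ = (q : ℝ) * (((q : ℝ) - s) ^ κ) ^ Fintype.card I := by
        congr 3
        field_simp

/-- the tail bound -/
theorem card_bad (S : I → F → Finset F) (s : ℕ)
    (hS2 : ∀ i w, (univ.filter (fun y : F => w ∈ S i y)).card ≤ s)
    (c : ℝ) (hc : 0 ≤ c) (hmean : 2 * c * Fintype.card F ≤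
      McD.mean (fun R : I → Fin κ → F => (cnt S R : ℝ))) [Nonempty F] :
    ((univ.filter (fun R : I → Fin κ → F => (cnt S R : ℝ) < c * Fintype.card F)).card : ℝ) ≤
      Real.exp (-2 * (c * Fintype.card F) ^ 2 / (Fintype.card I * (κ * s : ℝ) ^ 2)) *
        Fintype.card (I → Fin κ → F) := by
  have h := McD.card_lower_tail (X := fun _ : I => Fin κ → F)
    (fun R : I → Fin κ → F => (cnt S R : ℝ)) (fun _ => (κ * s : ℝ))
    (fun i R x => cnt_diff S s hS2 i R x) (c * Fintype.card F) (by positivity)
  have hs : (∑ _i : I, ((κ : ℝ) * s) ^ 2) = Fintype.card I * (κ * s : ℝ) ^ 2 := by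
    simp
  rw [hs] at h
  refine le_trans ?_ h
  have : (univ.filter (fun R : I → Fin κ → F => (cnt S R : ℝ) < c * Fintype.card F)) ⊆
      (univ.filter (fun R : I → Fin κ → F => (cnt S R : ℝ) ≤
        McD.mean (fun R : I → Fin κ → F => (cnt S R : ℝ)) - c * Fintype.card F)) := by
    intro R hR
    simp only [mem_filter, mem_univ, true_and] at hR ⊢
    linarith
  exact_mod_cast card_le_card this

end abstract


/-! ### The plane -/

section plane

variable {F : Type} [Field F]

theorem val_thru_left (z z' : Pt F) (h : z.1 ≠ z'.1) : val (thru z z') z.1 = z.2 := by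
  obtain ⟨i, y⟩ := z
  obtain ⟨i', y'⟩ := z'
  cases i with
  | none =>
    cases i' with
    | none => exact absurd rfl h
    | some x' => rfl
  | some x =>
    cases i' with
    | none => simp [thru, val]
    | some x' => simp [thru, val]

theorem val_thru_right (z z' : Pt F) (h : z.1 ≠ z'.1) : val (thru z z') z'.1 = z'.2 := by
  obtain ⟨i, y⟩ := z
  obtain ⟨i', y'⟩ := z'
  cases i with
  | none =>
    cases i' with
    | none => exact absurd rfl h
    | some x' => simp [thru, val]
  | some x =>
    cases i' with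
    | none => simp [thru, val]
    | some x' =>
      have hx : x' - x ≠ 0 := by
        intro h'
        apply h
        simp only [sub_eq_zero] at h'
        simp [h']
      simp only [thru, val]
      field_simp
      ring

theorem eq_of_val_eq (l l' : Ln F) (i j : Option F) (hij : i ≠ j) (h1 : val l i = val l' i)
    (h2 : val l j = val l' j) : l = l' := by
  obtain ⟨m, b⟩ := l
  obtain ⟨m', b'⟩ := l'
  cases i with
  | none =>
    cases j with
    | none => exact absurd rfl hij
    | some x =>
      simp only [val] at h1 h2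
      subst h1
      simpa using h2
  | some x =>
    cases j with
    | none =>
      simp only [val] at h1 h2
      subst h2
      simpa using h1
    | some x' =>
      simp only [val] at h1 h2
      have hx : x - x' ≠ 0 := by
        intro h'
        apply hij
        rw [sub_eq_zero] at h'
        rw [h']
      have h3 : (m - m') * (x - x') = 0 := by linear_combination h1 - h2
      rcases mul_eq_zero.mp h3 with h4 | h4
      · have hm : m = m' := sub_eq_zero.mp h4
        subst hm
        simp only [Prod.mk.injEq, true_and]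
        exact add_left_cancel h1
      · exact absurd h4 hx

theorem inj_thru (a : Pt F) (j i : Option F) (hj : a.1 ≠ j) (hi : i ≠ a.1) :
    Function.Injective (fun y : F => val (thru a (j, y)) i) := by
  intro y y' h
  have h1 := val_thru_left a (j, y) hj
  have h2 := val_thru_left a (j, y') hj
  have h3 : thru a (j, y) = thru a (j, y') :=
    eq_of_val_eq _ _ i a.1 hi h (h1.trans h2.symm)
  have h4 := val_thru_right a (j, y) hj
  have h5 := val_thru_right a (j, y') hj
  rw [h3] at h4
  exact h4.symm.trans h5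

variable [Fintype F] [DecidableEq F]

theorem notMem_Kset (R : RR F) (i : Option F) (w : F) :
    (i, w) ∉ Kset R ↔ ∀ r, R i r ≠ w := by
  simp [Kset]

/-- the forbidden values -/
def SS (j j' : Option F) (v : Pt F) (A A' : Finset (Pt F)) (i : Option F) (y : F) : Finset F :=
  ((({v} : Finset (Pt F)).filter (fun a => i ≠ a.1)).image (fun a => val (thru a (j, y)) i)) ∪
  ((A.filter (fun a => i ≠ a.1)).image (fun a => val (thru a (j, y)) i)) ∪
  ((A'.filter (fun a => i ≠ a.1)).image
    (fun a => val (thru a (j', val (thru v (j, y)) j')) i))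

theorem card_SS (j j' : Option F) (v : Pt F) (A A' : Finset (Pt F)) (hA : A.card ≤ 8)
    (hA' : A'.card ≤ 8) (i : Option F) (y : F) : (SS j j' v A A' i y).card ≤ 17 := by
  unfold SS
  refine (card_union_le _ _).trans ?_
  have h1 : ((({v} : Finset (Pt F)).filter (fun a => i ≠ a.1)).image
      (fun a => val (thru a (j, y)) i)).card ≤ 1 :=
    card_image_le.trans ((card_filter_le _ _).trans (by simp))
  have h2 : ((A.filter (fun a => i ≠ a.1)).image (fun a => val (thru a (j, y)) i)).card ≤ 8 :=
    card_image_le.trans ((card_filter_le _ _).trans hA)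
  have h3 : ((A'.filter (fun a => i ≠ a.1)).image
      (fun a => val (thru a (j', val (thru v (j, y)) j')) i)).card ≤ 8 :=
    card_image_le.trans ((card_filter_le _ _).trans hA')
  have h4 := card_union_le ((({v} : Finset (Pt F)).filter (fun a => i ≠ a.1)).image
      (fun a => val (thru a (j, y)) i))
      ((A.filter (fun a => i ≠ a.1)).image (fun a => val (thru a (j, y)) i))
  omega

theorem card_part (A : Finset (Pt F)) (i : Option F) (w : F) (g : Pt F → F → F)
    (hg : ∀ a ∈ A, i ≠ a.1 → Function.Injective (g a)) :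
    (univ.filter (fun y : F => w ∈ (A.filter (fun a => i ≠ a.1)).image (fun a => g a y))).card
      ≤ A.card := by
  have hsub : (univ.filter (fun y : F => w ∈ (A.filter (fun a => i ≠ a.1)).image
      (fun a => g a y))) ⊆
      (A.filter (fun a => i ≠ a.1)).biUnion (fun a => univ.filter (fun y : F => g a y = w)) := by
    intro y hy
    simp only [mem_filter, mem_univ, true_and, mem_image, mem_biUnion] at hy ⊢
    obtain ⟨a, ha, hw⟩ := hy
    exact ⟨a, ha, hw⟩
  refine (card_le_card hsub).trans (card_biUnion_le.trans ?_)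
  calc ∑ a ∈ A.filter (fun a => i ≠ a.1), (univ.filter (fun y : F => g a y = w)).card
      ≤ ∑ _a ∈ A.filter (fun a => i ≠ a.1), 1 := by
        refine sum_le_sum fun a ha => ?_
        rw [mem_filter] at ha
        rw [card_le_one]
        intro y hy y' hy'
        simp only [mem_filter, mem_univ, true_and] at hy hy'
        exact hg a ha.1 ha.2 (hy.trans hy'.symm)
    _ = (A.filter (fun a => i ≠ a.1)).card := by simp
    _ ≤ A.card := card_filter_le _ _

theorem card_SS' (j j' : Option F) (v : Pt F) (A A' : Finset (Pt F)) (hv : v.1 ≠ j)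
    (hv' : v.1 ≠ j') (hAj : ∀ a ∈ A, a.1 ≠ j) (hAj' : ∀ a ∈ A', a.1 ≠ j')
    (hA : A.card ≤ 8) (hA' : A'.card ≤ 8) (i : Option F) (w : F) :
    (univ.filter (fun y : F => w ∈ SS j j' v A A' i y)).card ≤ 17 := by
  have hsub : (univ.filter (fun y : F => w ∈ SS j j' v A A' i y)) ⊆
      (univ.filter (fun y : F => w ∈ ((({v} : Finset (Pt F)).filter (fun a => i ≠ a.1)).image
        (fun a => val (thru a (j, y)) i)))) ∪
      (univ.filter (fun y : F => w ∈ ((A.filter (fun a => i ≠ a.1)).image
        (fun a => val (thru a (j, y)) i)))) ∪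
      (univ.filter (fun y : F => w ∈ ((A'.filter (fun a => i ≠ a.1)).image
        (fun a => val (thru a (j', val (thru v (j, y)) j')) i)))) := by
    intro y hy
    simp only [SS, mem_filter, mem_univ, true_and, mem_union] at hy ⊢
    exact hy
  have h1 := card_part ({v} : Finset (Pt F)) i w (fun a y => val (thru a (j, y)) i)
    (fun a ha hi => by
      rw [mem_singleton] at ha
      subst ha
      exact inj_thru a j i hv hi)
  have h2 := card_part A i w (fun a y => val (thru a (j, y)) i)
    (fun a ha hi => inj_thru a j i (hAj a ha) hi)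
  have h3 := card_part A' i w (fun a y => val (thru a (j', val (thru v (j, y)) j')) i)
    (fun a ha hi => (inj_thru a j' i (hAj' a ha) hi).comp (inj_thru v j j' hv hv'.symm))
  rw [card_singleton] at h1
  refine (card_le_card hsub).trans ((card_union_le _ _).trans ?_)
  have h4 := card_union_le
    (univ.filter (fun y : F => w ∈ ((({v} : Finset (Pt F)).filter (fun a => i ≠ a.1)).image
        (fun a => val (thru a (j, y)) i))))
    (univ.filter (fun y : F => w ∈ ((A.filter (fun a => i ≠ a.1)).image
        (fun a => val (thru a (j, y)) i))))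
  omega

theorem count_eq (R : RR F) (j j' : Option F) (v : Pt F) (A A' : Finset (Pt F)) :
    (univ.filter (fun y : F =>
      AvoidsOff (Kset R) v (thru v (j, y)) ∧
      (∀ a ∈ A, AvoidsOff (Kset R) a (thru a (j, y))) ∧
      (∀ a ∈ A', AvoidsOff (Kset R) a (thru a (j', val (thru v (j, y)) j'))))).card =
    cnt (SS j j' v A A') R := by
  unfold cnt
  congr 1
  apply filter_congr
  intro y _
  simp only [AvoidsOff, notMem_Kset, SS, mem_union, mem_image, mem_filter, mem_singleton,
    not_or, not_exists, not_and, and_imp]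
  constructor
  · rintro ⟨h1, h2, h3⟩ i r
    refine ⟨⟨fun a ha hi h => ?_, fun a ha hi h => ?_⟩, fun a ha hi h => ?_⟩
    · subst ha
      exact h1 i hi r h.symm
    · exact h2 a ha i hi r h.symm
    · exact h3 a ha i hi r h.symm
  · intro h
    refine ⟨fun i hi r h' => ?_, fun a ha i hi r h' => ?_, fun a ha i hi r h' => ?_⟩
    · exact (h i r).1.1 v rfl hi h'.symm
    · exact (h i r).1.2 a ha hi h'.symm
    · exact (h i r).2 a ha hi h'.symm

end plane

theorem card_small_sets {α : Type} [Fintype α] [DecidableEq α] (n : ℕ) :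
    (univ.filter (fun A : Finset α => A.card ≤ n)).card ≤ (Fintype.card α + 1) ^ n := by
  induction n with
  | zero =>
    have : (univ.filter (fun A : Finset α => A.card ≤ 0)) = {∅} := by
      ext A
      simp
    rw [this]
    simp
  | succ n ih =>
    have hsub : (univ.filter (fun A : Finset α => A.card ≤ n + 1)) ⊆
        ((univ : Finset (Option α)) ×ˢ (univ.filter (fun A : Finset α => A.card ≤ n))).image
          (fun p => p.1.elim p.2 (fun a => insert a p.2)) := by
      intro A hA
      simp only [mem_filter, mem_univ, true_and] at hA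
      rw [mem_image]
      by_cases h : A.card ≤ n
      · exact ⟨(none, A), by simp [h], rfl⟩
      · have hpos : A.Nonempty := by
          rw [← card_pos]
          omega
        obtain ⟨a, ha⟩ := hpos
        refine ⟨(some a, A.erase a), ?_, ?_⟩
        · simp only [mem_product, mem_univ, mem_filter, true_and]
          rw [card_erase_of_mem ha]
          omega
        · simp [insert_erase ha]
    refine (card_le_card hsub).trans (card_image_le.trans ?_)
    rw [card_product, pow_succ, mul_comm]
    simp only [card_univ, Fintype.card_option]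
    exact Nat.mul_le_mul_right _ ih


theorem final_num (κ : ℝ) (hκ : 0 < κ) :
    ∃ q0 : ℕ, ∀ q : ℕ, q0 ≤ q → 10 * (2 * (q : ℝ)) ^ 36 * Real.exp (-(κ * q)) ≤ 1 := by
  have h := Real.tendsto_pow_mul_exp_neg_atTop_nhds_zero 36
  have hε : (0 : ℝ) < 1 / (10 * (2 / κ) ^ 36) := by positivity
  have h2 := (h.eventually (gt_mem_nhds hε))
  rw [Filter.eventually_atTop] at h2
  obtain ⟨X, hX⟩ := h2
  refine ⟨⌈X / κ⌉₊, fun q hq => ?_⟩
  have hq' : X / κ ≤ q := (Nat.le_ceil _).trans (by exact_mod_cast hq)
  have hx : X ≤ κ * q := by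
    rw [div_le_iff₀ hκ] at hq'
    linarith
  have h3 := (hX (κ * q) hx).le
  have hrew : (2 * (q : ℝ)) ^ 36 = (2 / κ) ^ 36 * (κ * q) ^ 36 := by
    rw [← mul_pow]
    congr 1
    field_simp
  rw [hrew]
  rw [le_div_iff₀ (by positivity)] at h3
  calc 10 * ((2 / κ) ^ 36 * (κ * q) ^ 36) * Real.exp (-(κ * q))
      = (κ * q) ^ 36 * Real.exp (-(κ * q)) * (10 * (2 / κ) ^ 36) := by ring
    _ ≤ 1 := h3

/-- the bad set of one tuple of parameters -/
noncomputable def badSet (F : Type) [Field F] [Fintype F] [DecidableEq F] (c : ℝ)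
    (p : Option F × Option F × Pt F × Finset (Pt F) × Finset (Pt F)) : Finset (RR F) :=
  open Classical in
  univ.filter (fun R : RR F => (p.2.2.1.1 ≠ p.1 ∧ p.2.2.1.1 ≠ p.2.1 ∧
    (∀ a ∈ p.2.2.2.1, a.1 ≠ p.1) ∧ (∀ a ∈ p.2.2.2.2, a.1 ≠ p.2.1) ∧
    p.2.2.2.1.card ≤ 8 ∧ p.2.2.2.2.card ≤ 8) ∧
    (cnt (SS p.1 p.2.1 p.2.2.1 p.2.2.2.1 p.2.2.2.2) R : ℝ) < c * Fintype.card F)

theorem card_badSet (F : Type) [Field F] [Fintype F] [DecidableEq F]
    (hq : 34 ≤ Fintype.card F) (c : ℝ) (hc : c = Real.exp (-(68 * kap : ℝ)) / 2)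
    (p : Option F × Option F × Pt F × Finset (Pt F) × Finset (Pt F)) :
    ((badSet F c p).card : ℝ) ≤
      Real.exp (-(c ^ 2 / (kap * 17 : ℝ) ^ 2 * Fintype.card F)) * Fintype.card (RR F) := by
  classical
  set q := Fintype.card F with hqdef
  have hq1 : (34 : ℝ) ≤ q := by exact_mod_cast hq
  have hcpos : 0 < c := by rw [hc]; positivity
  by_cases hcond : (p.2.2.1.1 ≠ p.1 ∧ p.2.2.1.1 ≠ p.2.1 ∧
    (∀ a ∈ p.2.2.2.1, a.1 ≠ p.1) ∧ (∀ a ∈ p.2.2.2.2, a.1 ≠ p.2.1) ∧
    p.2.2.2.1.card ≤ 8 ∧ p.2.2.2.2.card ≤ 8)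
  · obtain ⟨h1, h2, h3, h4, h5, h6⟩ := hcond
    set S := SS p.1 p.2.1 p.2.2.1 p.2.2.2.1 p.2.2.2.2 with hS
    have hb := mean_cnt (κ := kap) S 17
      (card_SS p.1 p.2.1 p.2.2.1 p.2.2.2.1 p.2.2.2.2 h5 h6) (by omega) (by omega)
    have hmean : 2 * c * (Fintype.card F : ℝ) ≤
        McD.mean (fun R : RR F => (cnt S R : ℝ)) := by
      refine le_trans ?_ hb
      rw [hc]
      have : Real.exp (-(68 * kap : ℝ)) ≤
          Real.exp (-(2 * (17 : ℕ) * kap * Fintype.card (Option F) / Fintype.card F)) := by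
        apply Real.exp_le_exp.mpr
        apply neg_le_neg
        rw [Fintype.card_option, ← hqdef]
        rw [div_le_iff₀ (by linarith)]
        push_cast
        have hk : (0 : ℝ) ≤ kap := Nat.cast_nonneg _
        nlinarith
      rw [← hqdef]
      rw [← hqdef] at this
      nlinarith
    have hne : Nonempty F := ⟨0⟩
    have hbad := card_bad (κ := kap) S 17
      (card_SS' p.1 p.2.1 p.2.2.1 p.2.2.2.1 p.2.2.2.2 h1 h2 h3 h4 h5 h6) c hcpos.le hmean
    have hsub : badSet F c p ⊆
        (univ.filter (fun R : RR F => (cnt S R : ℝ) < c * Fintype.card F)) := by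
      intro R hR
      simp only [badSet, mem_filter, mem_univ, true_and] at hR ⊢
      exact hR.2
    refine le_trans (by exact_mod_cast card_le_card hsub) (hbad.trans ?_)
    have hk : (0 : ℝ) < (kap * 17 : ℝ) ^ 2 := by
      have : (0 : ℝ) < kap := by norm_num [kap]
      positivity
    have hcard0 : (0 : ℝ) ≤ Fintype.card (RR F) := Nat.cast_nonneg _
    refine mul_le_mul_of_nonneg_right ?_ hcard0
    apply Real.exp_le_exp.mpr
    rw [Fintype.card_option, ← hqdef]
    have e17 : ((17 : ℕ) : ℝ) = 17 := by norm_num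
    rw [e17, Nat.cast_add, Nat.cast_one]
    have hqq : (0 : ℝ) < ((q : ℝ) + 1) * (kap * 17 : ℝ) ^ 2 := by positivity
    rw [div_le_iff₀ hqq]
    have hid : -(c ^ 2 / (kap * 17 : ℝ) ^ 2 * q) * (((q : ℝ) + 1) * (kap * 17 : ℝ) ^ 2) =
        -(c ^ 2 * q * (q + 1)) := by
      field_simp
    rw [hid]
    have hc2 : 0 < c ^ 2 := by positivity
    nlinarith [mul_pos hc2 (show (0 : ℝ) < q by linarith)]
  · have : badSet F c p = ∅ := by
      apply filter_eq_empty_iff.mpr
      intro R _ h
      exact hcond h.1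
    rw [this]
    simp only [card_empty, Nat.cast_zero]
    positivity


theorem card_params (F : Type) [Field F] [Fintype F] [DecidableEq F] :
    ((univ : Finset (Option F)) ×ˢ (univ : Finset (Option F)) ×ˢ (univ : Finset (Pt F)) ×ˢ
      (univ.filter (fun A : Finset (Pt F) => A.card ≤ 8)) ×ˢ
      (univ.filter (fun A : Finset (Pt F) => A.card ≤ 8))).card ≤
      (2 * Fintype.card F) ^ 36 := by
  have hq : 1 ≤ Fintype.card F := Fintype.card_pos
  have h8 := card_small_sets (α := Pt F) 8
  have hP : Fintype.card (Pt F) = (Fintype.card F + 1) * Fintype.card F := by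
    simp
  set q := Fintype.card F with hqdef
  have h1 : q + 1 ≤ 2 * q := by omega
  have h2 : Fintype.card (Pt F) + 1 ≤ (2 * q) ^ 2 := by
    rw [hP]
    nlinarith
  have h3 : (univ.filter (fun A : Finset (Pt F) => A.card ≤ 8)).card ≤ (2 * q) ^ 16 := by
    refine h8.trans ?_
    calc (Fintype.card (Pt F) + 1) ^ 8 ≤ ((2 * q) ^ 2) ^ 8 := Nat.pow_le_pow_left h2 8
      _ = (2 * q) ^ 16 := by rw [← pow_mul]
  simp only [card_product, card_univ, Fintype.card_option]
  rw [hP]
  rw [← hqdef]
  have hq' : q ≤ 2 * q := by omega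
  calc (q + 1) * ((q + 1) * ((q + 1) * q * (_ * _)))
      ≤ (2 * q) * ((2 * q) * ((2 * q) * (2 * q) * ((2 * q) ^ 16 * (2 * q) ^ 16))) := by
        gcongr
    _ = (2 * q) ^ 36 := by ring

theorem specR4 : SpecR4 := by
  classical
  set c : ℝ := Real.exp (-(68 * kap : ℝ)) / 2 with hc
  have hcpos : 0 < c := by positivity
  have hk : (0 : ℝ) < (kap * 17 : ℝ) ^ 2 := by
    have : (0 : ℝ) < kap := by norm_num [kap]
    positivity
  obtain ⟨q0, hq0⟩ := final_num (c ^ 2 / (kap * 17 : ℝ) ^ 2) (by positivity)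
  refine ⟨c, hcpos, max q0 34, ?_⟩
  intro F _ _ _ hF
  have hF0 : q0 ≤ Fintype.card F := (le_max_left _ _).trans hF
  have hF34 : 34 ≤ Fintype.card F := (le_max_right _ _).trans hF
  set PP := ((univ : Finset (Option F)) ×ˢ (univ : Finset (Option F)) ×ˢ
      (univ : Finset (Pt F)) ×ˢ
      (univ.filter (fun A : Finset (Pt F) => A.card ≤ 8)) ×ˢ
      (univ.filter (fun A : Finset (Pt F) => A.card ≤ 8))) with hP
  refine ⟨PP.biUnion (badSet F c), ?_, ?_⟩
  · intro R hR j j' v A A' hjj' hvj hvj' hA hA' hA8 hA8'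
    rw [count_eq]
    by_contra hcon
    push Not at hcon
    apply hR
    rw [mem_biUnion]
    refine ⟨(j, j', v, A, A'), ?_, ?_⟩
    · simp [hP, hA8, hA8']
    · simp only [badSet, mem_filter, mem_univ, true_and]
      exact ⟨⟨hvj, hvj', hA, hA', hA8, hA8'⟩, hcon⟩
  · have h1 : ((PP.biUnion (badSet F c)).card : ℝ) ≤
        (2 * (Fintype.card F : ℝ)) ^ 36 *
          (Real.exp (-(c ^ 2 / (kap * 17 : ℝ) ^ 2 * Fintype.card F)) *
            Fintype.card (RR F)) := by
      calc ((PP.biUnion (badSet F c)).card : ℝ)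
          ≤ ((∑ p ∈ PP, (badSet F c p).card : ℕ) : ℝ) := by exact_mod_cast card_biUnion_le
        _ = ∑ p ∈ PP, ((badSet F c p).card : ℝ) := by push_cast; rfl
        _ ≤ ∑ _p ∈ PP, (Real.exp (-(c ^ 2 / (kap * 17 : ℝ) ^ 2 * Fintype.card F)) *
            Fintype.card (RR F)) :=
            sum_le_sum fun p _ => card_badSet F hF34 c hc p
        _ = PP.card * (Real.exp (-(c ^ 2 / (kap * 17 : ℝ) ^ 2 * Fintype.card F)) *
            Fintype.card (RR F)) := by rw [sum_const, nsmul_eq_mul]
        _ ≤ _ := by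
            have h2 : (PP.card : ℝ) ≤ (2 * (Fintype.card F : ℝ)) ^ 36 := by
              have := card_params F
              exact_mod_cast this
            exact mul_le_mul_of_nonneg_right h2 (by positivity)
    have h2 := hq0 (Fintype.card F) hF0
    have h3 : (0 : ℝ) ≤ Fintype.card (RR F) := Nat.cast_nonneg _
    have h4 : (10 : ℝ) * ((PP.biUnion (badSet F c)).card : ℝ) ≤ Fintype.card (RR F) := by
      calc (10 : ℝ) * ((PP.biUnion (badSet F c)).card : ℝ)
          ≤ 10 * ((2 * (Fintype.card F : ℝ)) ^ 36 *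
          (Real.exp (-(c ^ 2 / (kap * 17 : ℝ) ^ 2 * Fintype.card F)) *
            Fintype.card (RR F))) := by linarith
        _ = (10 * (2 * (Fintype.card F : ℝ)) ^ 36 *
          Real.exp (-(c ^ 2 / (kap * 17 : ℝ) ^ 2 * Fintype.card F))) *
            Fintype.card (RR F) := by ring
        _ ≤ 1 * Fintype.card (RR F) := mul_le_mul_of_nonneg_right h2 h3
        _ = Fintype.card (RR F) := one_mul _
    exact_mod_cast h4

end R4

end Crest.Agent.R034
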