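import Crest.Agent.R034.Spec

/-! Row 34, module M9: `SpecR5` and the assembly of `SpecR`. -/

set_option autoImplicit false
set_option linter.unusedSectionVars false

namespace Crest.Agent.R034

open Finset

theorem specR_of (h1 : SpecR1) (h2 : SpecR2) (h3 : SpecR3) (h4 : SpecR4) (h5 : SpecR5) :
    SpecR := by
  obtain ⟨c, hc, q4, h4⟩ := h4
  refine ⟨c, hc, fun N hN => ?_⟩
  obtain ⟨q1, h1⟩ := h1 N hN
  obtain ⟨q2, h2⟩ := h2
  obtain ⟨q3, h3⟩ := h3 N hN
  obtain ⟨q5, h5⟩ := h5 N hN
  refine ⟨max q1 (max q2 (max q3 (max q4 q5))), ?_⟩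
  intro F _ _ _ hq k hk
  simp only [max_le_iff] at hq
  obtain ⟨hq1, hq2, hq3, hq4, hq5⟩ := hq
  obtain ⟨B1, hB1, hc1⟩ := h1 F hq1 k hk
  obtain ⟨B2, hB2, hc2⟩ := h2 F hq2
  obtain ⟨B3, hB3, hc3⟩ := h3 F hq3 k hk
  obtain ⟨B4, hB4, hc4⟩ := h4 F hq4
  obtain ⟨B5, hB5, hc5⟩ := h5 F hq5 k hk
  have hpos : 0 < Fintype.card (RR F) := Fintype.card_pos
  have hU : (B1 ∪ (B2 ∪ (B3 ∪ (B4 ∪ B5)))).card < Fintype.card (RR F) := by
    have e1 := Finset.card_union_le B1 (B2 ∪ (B3 ∪ (B4 ∪ B5)))
    have e2 := Finset.card_union_le B2 (B3 ∪ (B4 ∪ B5))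
    have e3 := Finset.card_union_le B3 (B4 ∪ B5)
    have e4 := Finset.card_union_le B4 B5
    omega
  have : ∃ R : RR F, R ∉ (B1 ∪ (B2 ∪ (B3 ∪ (B4 ∪ B5)))) := by
    by_contra hcon
    push Not at hcon
    have : (B1 ∪ (B2 ∪ (B3 ∪ (B4 ∪ B5)))) = Finset.univ := Finset.eq_univ_of_forall hcon
    rw [this, Finset.card_univ] at hU
    exact lt_irrefl _ hU
  obtain ⟨R, hR⟩ := this
  simp only [Finset.mem_union, not_or] at hR
  exact ⟨R, hB1 R hR.1, hB2 R hR.2.1, hB3 R hR.2.2.1, hB4 R hR.2.2.2.1, hB5 R hR.2.2.2.2⟩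

section

variable {F : Type} [Field F] [Fintype F] [DecidableEq F]

/-- the weight of a pair `(position, draw)` -/
noncomputable def wt (l : Ln F) (j : Option F) (v : F) : ℝ := if v = val l j then 2 else 1

theorem one_le_wt (l : Ln F) (j : Option F) (v : F) : 1 ≤ wt l j v := by
  unfold wt; split_ifs <;> norm_num

theorem two_pow_le (R : RR F) (l : Ln F) :
    (2 : ℝ) ^ (univ.filter (fun j => (j, val l j) ∈ Kset R)).card ≤
      ∏ j, ∏ r, wt l j (R j r) := by
  rw [← Finset.prod_const, Finset.prod_filter]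
  refine Finset.prod_le_prod (fun j _ => ?_) (fun j _ => ?_)
  · split_ifs <;> norm_num
  · split_ifs with h
    · simp only [Kset, Finset.mem_filter, Finset.mem_univ, true_and] at h
      obtain ⟨r, hr⟩ := h
      rw [← Finset.mul_prod_erase univ _ (Finset.mem_univ r)]
      have h1 : wt l j (R j r) = 2 := by simp [wt, hr]
      rw [h1]
      have h2 : (1 : ℝ) ≤ ∏ x ∈ univ.erase r, wt l j (R j x) := by
        refine Finset.prod_induction _ (fun x => (1 : ℝ) ≤ x) ?_ le_rfl (fun x _ => one_le_wt _ _ _)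
        intro a b ha hb
        nlinarith
      linarith
    · refine Finset.prod_induction _ (fun x => (1 : ℝ) ≤ x) ?_ le_rfl (fun x _ => one_le_wt _ _ _)
      intro a b ha hb
      nlinarith

theorem sum_wt (l : Ln F) :
    ∑ R : RR F, ∏ j, ∏ r, wt l j (R j r) =
      ((ord F : ℝ) + 1) ^ (kap * (ord F + 1)) := by
  have h1 : ∀ j, ∑ v : F, wt l j v = (ord F : ℝ) + 1 := by
    intro j
    have : ∀ v : F, wt l j v = 1 + if v = val l j then 1 else 0 := by
      intro v
      unfold wt; split_ifs <;> norm_num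
    simp only [this, Finset.sum_add_distrib, Finset.sum_const, Finset.card_univ,
      Finset.sum_ite_eq', Finset.mem_univ, if_true]
    simp
  have h2 : ∀ j, ∑ ρ : Fin kap → F, ∏ r, wt l j (ρ r) = ((ord F : ℝ) + 1) ^ kap := by
    intro j
    have := Finset.prod_univ_sum (fun _ : Fin kap => (univ : Finset F)) (fun _ v => wt l j v)
    rw [Fintype.piFinset_univ] at this
    rw [← this]
    simp [h1]
  have := Finset.prod_univ_sum (fun _ : Option F => (univ : Finset (Fin kap → F)))
    (fun j ρ => ∏ r, wt l j (ρ r))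
  rw [Fintype.piFinset_univ] at this
  rw [← this]
  simp only [h2, Finset.prod_const, Finset.card_univ, Fintype.card_option]
  rw [← pow_mul]

theorem card_bad_line (l : Ln F) (m : ℕ) :
    ((univ.filter (fun R : RR F =>
        m ≤ (univ.filter (fun j => (j, val l j) ∈ Kset R)).card)).card : ℝ) * 2 ^ m ≤
      ((ord F : ℝ) + 1) ^ (kap * (ord F + 1)) := by
  rw [← sum_wt l]
  calc ((univ.filter (fun R : RR F =>
        m ≤ (univ.filter (fun j => (j, val l j) ∈ Kset R)).card)).card : ℝ) * 2 ^ m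
      = ∑ R ∈ univ.filter (fun R : RR F =>
        m ≤ (univ.filter (fun j => (j, val l j) ∈ Kset R)).card), (2 : ℝ) ^ m := by simp
    _ ≤ ∑ R ∈ univ.filter (fun R : RR F =>
        m ≤ (univ.filter (fun j => (j, val l j) ∈ Kset R)).card), ∏ j, ∏ r, wt l j (R j r) := by
        refine Finset.sum_le_sum fun R hR => ?_
        refine le_trans ?_ (two_pow_le R l)
        exact pow_le_pow_right₀ (by norm_num) (Finset.mem_filter.1 hR).2
    _ ≤ _ := by
        refine Finset.sum_le_sum_of_subset_of_nonneg (Finset.filter_subset _ _) (fun R _ _ => ?_)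
        refine Finset.prod_nonneg fun j _ => Finset.prod_nonneg fun r _ => ?_
        exact le_trans zero_le_one (one_le_wt _ _ _)

theorem card_RR_five : Fintype.card (RR F) = ord F ^ (kap * (ord F + 1)) := by
  simp only [RR, Fintype.card_pi, Finset.prod_const, Finset.card_univ, Fintype.card_fin,
    Fintype.card_option]
  rw [← pow_mul]

end

theorem specR5 : SpecR5 := by
  intro N hN
  -- choose the threshold
  have htend := tendsto_pow_const_div_const_pow_of_one_lt (2 * N) (r := (2 : ℝ)) (by norm_num)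
  have hpos : (0 : ℝ) < (10 * Real.exp (2 * kap))⁻¹ := by positivity
  obtain ⟨K0, hK0⟩ := Filter.eventually_atTop.1 (htend.eventually_lt_const hpos)
  refine ⟨K0 ^ N + 1, ?_⟩
  intro F _ _ _ hq k hk
  have hq1 : 1 ≤ ord F := Fintype.card_pos
  have hkK : K0 ≤ k + 1 := by
    by_contra hcon
    push Not at hcon
    have h1 : (k + 1) ^ N ≤ K0 ^ N := Nat.pow_le_pow_left hcon.le N
    have := hk.2
    omega
  have hmain : 10 * (ord F : ℝ) ^ 2 * Real.exp (2 * kap) ≤ 2 ^ (k + 1) := by
    have h := (hK0 (k + 1) hkK).le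
    rw [div_le_iff₀ (by positivity)] at h
    have h2 : 10 * Real.exp (2 * kap) * ((k + 1 : ℕ) : ℝ) ^ (2 * N) ≤ 2 ^ (k + 1) := by
      have h3 := mul_le_mul_of_nonneg_left h (by positivity : (0:ℝ) ≤ 10 * Real.exp (2 * kap))
      rw [← mul_assoc, mul_inv_cancel₀ (by positivity), one_mul] at h3
      exact h3
    refine le_trans ?_ h2
    have h4 : (ord F : ℝ) ^ 2 ≤ ((k + 1 : ℕ) : ℝ) ^ (2 * N) := by
      have : (ord F : ℝ) ≤ ((k + 1 : ℕ) : ℝ) ^ N := by exact_mod_cast hk.2.le
      calc (ord F : ℝ) ^ 2 ≤ (((k + 1 : ℕ) : ℝ) ^ N) ^ 2 :=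
            pow_le_pow_left₀ (Nat.cast_nonneg _) this 2
        _ = _ := by rw [← pow_mul, mul_comm]
    have h5 := mul_le_mul_of_nonneg_left h4 (by positivity : (0:ℝ) ≤ 10 * Real.exp (2 * kap))
    linarith
  classical
  refine ⟨univ.filter (fun R : RR F => ¬ R5 R k), ?_, ?_⟩
  · intro R hR
    simpa using hR
  · have hsub : (univ.filter (fun R : RR F => ¬ R5 R k)) ⊆
        (univ : Finset (Ln F)).biUnion (fun l => univ.filter (fun R : RR F =>
          k + 1 ≤ (univ.filter (fun j => (j, val l j) ∈ Kset R)).card)) := by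
      intro R hR
      simp only [Finset.mem_filter, Finset.mem_univ, true_and, R5, not_forall, not_le] at hR
      obtain ⟨l, hl⟩ := hR
      simp only [Finset.mem_biUnion, Finset.mem_univ, Finset.mem_filter, true_and]
      exact ⟨l, hl⟩
    have hcard : ((univ.filter (fun R : RR F => ¬ R5 R k)).card : ℝ) * 2 ^ (k + 1) ≤
        (ord F : ℝ) ^ 2 * ((ord F : ℝ) + 1) ^ (kap * (ord F + 1)) := by
      have h1 : ((univ.filter (fun R : RR F => ¬ R5 R k)).card : ℝ) ≤
          ∑ l : Ln F, ((univ.filter (fun R : RR F =>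
          k + 1 ≤ (univ.filter (fun j => (j, val l j) ∈ Kset R)).card)).card : ℝ) := by
        have := (Finset.card_le_card hsub).trans Finset.card_biUnion_le
        exact_mod_cast this
      calc ((univ.filter (fun R : RR F => ¬ R5 R k)).card : ℝ) * 2 ^ (k + 1)
          ≤ (∑ l : Ln F, ((univ.filter (fun R : RR F =>
          k + 1 ≤ (univ.filter (fun j => (j, val l j) ∈ Kset R)).card)).card : ℝ)) * 2 ^ (k + 1) :=
            mul_le_mul_of_nonneg_right h1 (by positivity)
        _ = ∑ l : Ln F, ((univ.filter (fun R : RR F =>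
          k + 1 ≤ (univ.filter (fun j => (j, val l j) ∈ Kset R)).card)).card : ℝ) * 2 ^ (k + 1) := by
            rw [Finset.sum_mul]
        _ ≤ ∑ l : Ln F, ((ord F : ℝ) + 1) ^ (kap * (ord F + 1)) :=
            Finset.sum_le_sum fun l _ => card_bad_line l (k + 1)
        _ = _ := by
            rw [Finset.sum_const, Finset.card_univ, Fintype.card_prod, nsmul_eq_mul, Nat.cast_mul,
              ← sq]
    have hexp : ((ord F : ℝ) + 1) ^ (kap * (ord F + 1)) ≤
        Real.exp (2 * kap) * (ord F : ℝ) ^ (kap * (ord F + 1)) := by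
      have hqpos : (0 : ℝ) < ord F := by exact_mod_cast hq1
      have h1 : ((ord F : ℝ) + 1) ≤ (ord F : ℝ) * Real.exp (1 / (ord F : ℝ)) := by
        have := Real.add_one_le_exp (1 / (ord F : ℝ))
        calc ((ord F : ℝ) + 1) = (ord F : ℝ) * (1 / (ord F : ℝ) + 1) := by field_simp; ring
          _ ≤ _ := mul_le_mul_of_nonneg_left this hqpos.le
      calc ((ord F : ℝ) + 1) ^ (kap * (ord F + 1))
          ≤ ((ord F : ℝ) * Real.exp (1 / (ord F : ℝ))) ^ (kap * (ord F + 1)) :=
            pow_le_pow_left₀ (by positivity) h1 _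
        _ = Real.exp (1 / (ord F : ℝ)) ^ (kap * (ord F + 1)) *
              (ord F : ℝ) ^ (kap * (ord F + 1)) := by
            rw [mul_pow, mul_comm]
        _ ≤ _ := by
            refine mul_le_mul_of_nonneg_right ?_ (by positivity)
            rw [← Real.exp_nat_mul]
            refine Real.exp_le_exp.2 ?_
            push_cast
            have h2 : (1 : ℝ) / ord F ≤ 1 := by
              rw [div_le_one hqpos]; exact_mod_cast hq1
            have h3 : (ord F : ℝ) * (1 / ord F) = 1 := by field_simp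
            nlinarith
    have hfin : (10 : ℝ) * ((univ.filter (fun R : RR F => ¬ R5 R k)).card : ℝ) ≤
        (ord F : ℝ) ^ (kap * (ord F + 1)) := by
      have h2k : (0 : ℝ) < 2 ^ (k + 1) := by positivity
      have hM : (0 : ℝ) < (ord F : ℝ) ^ (kap * (ord F + 1)) := by
        have : (0 : ℝ) < ord F := by exact_mod_cast hq1
        positivity
      have h3 : (10 * ((univ.filter (fun R : RR F => ¬ R5 R k)).card : ℝ)) * 2 ^ (k + 1) ≤
          (ord F : ℝ) ^ (kap * (ord F + 1)) * 2 ^ (k + 1) := by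
        generalize ((ord F : ℝ) + 1) ^ (kap * (ord F + 1)) = M1 at hcard hexp
        generalize (ord F : ℝ) ^ (kap * (ord F + 1)) = M2 at hM hexp ⊢
        generalize ((univ.filter (fun R : RR F => ¬ R5 R k)).card : ℝ) = b at hcard ⊢
        generalize Real.exp (2 * kap) = ex at hmain hexp
        generalize (2 : ℝ) ^ (k + 1) = t at hcard hmain ⊢
        have hq2 : (0 : ℝ) ≤ (ord F : ℝ) ^ 2 := by positivity
        have e1 : (ord F : ℝ) ^ 2 * M1 ≤ (ord F : ℝ) ^ 2 * (ex * M2) :=
          mul_le_mul_of_nonneg_left hexp hq2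
        have e2 : (10 * (ord F : ℝ) ^ 2 * ex) * M2 ≤ t * M2 := mul_le_mul_of_nonneg_right hmain hM.le
        nlinarith
      exact le_of_mul_le_mul_right h3 h2k
    rw [card_RR_five]
    exact_mod_cast hfin

theorem specR_of' (h1 : SpecR1) (h2 : SpecR2) (h3 : SpecR3) (h4 : SpecR4) : SpecR :=
  specR_of h1 h2 h3 h4 specR5

end Crest.Agent.R034
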