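import Mathlib

/-!
# Sampling lemma for the stability theorem (row 34)

If every *good* `k × k` grid with vertices in `A × B` contains a cell with property `Q`, then at
least `|A||B|/(2k²)` of the pairs `A × B` have `Q`.
-/

namespace Crest.Agent.R034.Samp

open Finset

/-! ## One-coordinate counting bound on a finite product -/

section Count

variable {ι V : Type*} [Fintype ι] [DecidableEq ι]

/-- resampling identity -/
theorem sum_update (S : ι → Finset V) (i : ι) (f : (ι → V) → ℕ) :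
    ∑ G ∈ Fintype.piFinset S, ∑ t ∈ S i, f (Function.update G i t)
      = (S i).card * ∑ G ∈ Fintype.piFinset S, f G := by
  classical
  rw [Finset.mul_sum]
  have h2 : ∀ G ∈ Fintype.piFinset S, (S i).card * f G = ∑ _t ∈ S i, f G := by
    intro G _; simp
  rw [Finset.sum_congr rfl h2]
  rw [← Finset.sum_product', ← Finset.sum_product']
  refine Finset.sum_nbij' (fun p => (Function.update p.1 i p.2, p.1 i))
    (fun p => (Function.update p.1 i p.2, p.1 i)) ?_ ?_ ?_ ?_ ?_
  · rintro ⟨G, t⟩ h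
    simp only [Finset.mem_product, Fintype.mem_piFinset] at h ⊢
    refine ⟨fun j => ?_, h.1 i⟩
    by_cases hj : j = i
    · subst hj; simpa using h.2
    · simpa [Function.update_of_ne hj] using h.1 j
  · rintro ⟨G, t⟩ h
    simp only [Finset.mem_product, Fintype.mem_piFinset] at h ⊢
    refine ⟨fun j => ?_, h.1 i⟩
    by_cases hj : j = i
    · subst hj; simpa using h.2
    · simpa [Function.update_of_ne hj] using h.1 j
  · rintro ⟨G, t⟩ _; simp
  · rintro ⟨G, t⟩ _; simp
  · rintro ⟨G, t⟩ _; simp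

/-- if, whatever the other coordinates, at most `N` values of coordinate `i` make `E` true,
then `E` has at most `N/|S i|` of the product. -/
theorem cnt_le (S : ι → Finset V) (i : ι) (E : (ι → V) → Prop) [DecidablePred E] (N : ℕ)
    (h : ∀ G ∈ Fintype.piFinset S, ((S i).filter (fun t => E (Function.update G i t))).card ≤ N) :
    (S i).card * ((Fintype.piFinset S).filter E).card ≤ N * (Fintype.piFinset S).card := by
  have h1 := sum_update S i (fun G => if E G then 1 else 0)
  have h2 : ((Fintype.piFinset S).filter E).card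
      = ∑ G ∈ Fintype.piFinset S, (if E G then 1 else 0) := by
    rw [Finset.card_filter]
  rw [h2, ← h1]
  calc ∑ G ∈ Fintype.piFinset S, ∑ t ∈ S i, (if E (Function.update G i t) then 1 else 0)
      ≤ ∑ _G ∈ Fintype.piFinset S, N := by
        apply Finset.sum_le_sum
        intro G hG
        rw [← Finset.card_filter]
        exact h G hG
    _ = N * (Fintype.piFinset S).card := by simp [mul_comm]

/-- two-coordinate count -/
theorem cnt_two (S : ι → Finset V) (i j : ι) (hij : i ≠ j) (Q : V → V → Prop)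
    [∀ x y, Decidable (Q x y)] :
    (S i).card * ((S j).card * ((Fintype.piFinset S).filter (fun G => Q (G i) (G j))).card)
      = ((S i ×ˢ S j).filter (fun p => Q p.1 p.2)).card * (Fintype.piFinset S).card := by
  have h1 := sum_update S j (fun G => if Q (G i) (G j) then 1 else 0)
  have h2 : ((Fintype.piFinset S).filter (fun G => Q (G i) (G j))).card
      = ∑ G ∈ Fintype.piFinset S, (if Q (G i) (G j) then 1 else 0) := by
    rw [Finset.card_filter]
  rw [h2, ← h1]
  have h3 := sum_update S i (fun G => ∑ t ∈ S j, if Q (Function.update G j t i) (Function.update G j t j)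
    then 1 else 0)
  rw [← h3]
  have h4 : ∀ G ∈ Fintype.piFinset S, (∑ s ∈ S i, ∑ t ∈ S j,
      if Q (Function.update (Function.update G i s) j t i)
        (Function.update (Function.update G i s) j t j) then 1 else 0)
      = ((S i ×ˢ S j).filter (fun p => Q p.1 p.2)).card := by
    intro G _
    rw [Finset.card_filter, Finset.sum_product]
    refine Finset.sum_congr rfl fun s _ => Finset.sum_congr rfl fun t _ => ?_
    simp [Function.update_of_ne hij]
  rw [Finset.sum_congr rfl h4]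
  simp [mul_comm]

end Count

section Grid

variable {V Wd I : Type*}

/-- abstract axioms of the (truncated) plane: vertices, words, parts -/
structure Ax (part : V → I) (mem : V → Wd → Prop) (join : V → V → Wd) : Prop where
  meet : ∀ {x y : V} {l l' : Wd}, mem x l → mem x l' → mem y l → mem y l' → x ≠ y → l = l'
  part_inj : ∀ {x y : V} {l : Wd}, mem x l → mem y l → part x = part y → x = y
  join_left : ∀ {x y : V}, part x ≠ part y → mem x (join x y)
  join_right : ∀ {x y : V}, part x ≠ part y → mem y (join x y)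

/-- grid in general position -/
structure Good (part : V → I) (mem : V → Wd → Prop) (join : V → V → Wd) {k : ℕ}
    (T U : Fin k → V) : Prop where
  part_ne : ∀ a b, part (T a) ≠ part (U b)
  inj : ∀ a b a' b', join (T a) (U b) = join (T a') (U b') → a = a' ∧ b = b'
  three : ∀ x, (∀ a, x ≠ T a) → (∀ b, x ≠ U b) → ∀ a₁ b₁ a₂ b₂ a₃ b₃ : Fin k,
    (a₁, b₁) ≠ (a₂, b₂) → (a₁, b₁) ≠ (a₃, b₃) → (a₂, b₂) ≠ (a₃, b₃) →
    mem x (join (T a₁) (U b₁)) → mem x (join (T a₂) (U b₂)) → mem x (join (T a₃) (U b₃)) → False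

variable {part : V → I} {mem : V → Wd → Prop} {join : V → V → Wd}

theorem not_good (ax : Ax part mem join) {k : ℕ} {T U : Fin k → V}
    (hg : ¬ Good part mem join T U) :
    (∃ a b, part (T a) = part (U b)) ∨
    (∃ a a' b, a ≠ a' ∧ part (T a) ≠ part (U b) ∧ mem (T a') (join (T a) (U b))) ∨
    (∃ b b', b ≠ b' ∧ U b = U b') ∨
    (∃ a b b', U b ≠ U b' ∧ ∃ l, mem (U b) l ∧ mem (U b') l ∧ mem (T a) l) ∨
    (∃ a₁ b₁ a₂ b₂ a₃ b₃, a₃ ≠ a₁ ∧ a₃ ≠ a₂ ∧ join (T a₁) (U b₁) ≠ join (T a₂) (U b₂) ∧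
      ∃ x l, mem x (join (T a₁) (U b₁)) ∧ mem x (join (T a₂) (U b₂)) ∧ x ≠ U b₃ ∧
        mem x l ∧ mem (U b₃) l ∧ mem (T a₃) l) := by
  by_contra hcon
  push Not at hcon
  obtain ⟨e1, e2, e3, e4, e5⟩ := hcon
  apply hg
  have hinj : ∀ a b a' b', join (T a) (U b) = join (T a') (U b') → a = a' ∧ b = b' := by
    intro a b a' b' h
    have ha : a = a' := by
      by_contra hne
      refine e2 a a' b hne (e1 a b) ?_
      rw [h]; exact ax.join_left (e1 a' b')
    refine ⟨ha, ?_⟩
    subst ha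
    by_contra hne
    by_cases hU : U b = U b'
    · exact e3 b b' hne hU
    · refine e4 a b b' hU (join (T a) (U b)) (ax.join_right (e1 a b)) ?_ (ax.join_left (e1 a b))
      rw [h]; exact ax.join_right (e1 a b')
  refine ⟨e1, hinj, ?_⟩
  intro x hxT hxU a₁ b₁ a₂ b₂ a₃ b₃ h12 h13 h23 m1 m2 m3
  -- words through x with the same T (or U) index coincide
  have key : ∀ a b a' b', (a, b) ≠ (a', b') → mem x (join (T a) (U b)) →
      mem x (join (T a') (U b')) → a ≠ a' := by
    intro a b a' b' hne h h' haa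
    subst haa
    have := ax.meet h h' (ax.join_left (e1 a b)) (ax.join_left (e1 a b')) (hxT a)
    obtain ⟨_, hb⟩ := hinj _ _ _ _ this
    exact hne (by rw [hb])
  have n13 := key _ _ _ _ h13 m1 m3
  have n23 := key _ _ _ _ h23 m2 m3
  have hne : join (T a₁) (U b₁) ≠ join (T a₂) (U b₂) := by
    intro h
    obtain ⟨h1, h2⟩ := hinj _ _ _ _ h
    exact h12 (by rw [h1, h2])
  exact e5 a₁ b₁ a₂ b₂ a₃ b₃ n13.symm n23.symm hne x (join (T a₃) (U b₃)) m1 m2 (hxU b₃) m3
    (ax.join_right (e1 a₃ b₃)) (ax.join_left (e1 a₃ b₃))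

end Grid

section Pairs

open Classical in
/-- **Sampling lemma.** -/
theorem pairs_ge {V Wd I : Type*} {part : V → I} {mem : V → Wd → Prop} {join : V → V → Wd}
    (ax : Ax part mem join) (A B : Finset V) (N k : ℕ) (hk : 0 < k)
    (h1 : ∀ u ∈ B, (A.filter (fun t => part t = part u)).card ≤ N)
    (h2 : ∀ l u, u ∈ B → mem u l → (A.filter (fun t => mem t l)).card ≤ N)
    (hA : 16 * k ^ 6 * N ≤ A.card) (hB : 4 * k ^ 2 ≤ B.card) (Q : V → V → Prop)
    (hC : ∀ T U : Fin k → V, (∀ a, T a ∈ A) → (∀ b, U b ∈ B) → Good part mem join T U →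
      ∃ a b, Q (T a) (U b)) :
    A.card * B.card ≤ 2 * k ^ 2 * ((A ×ˢ B).filter (fun p => Q p.1 p.2)).card := by
  classical
  rcases Nat.eq_zero_or_pos A.card with hA0 | hA0
  · simp [hA0]
  rcases Nat.eq_zero_or_pos B.card with hB0 | hB0
  · simp [hB0]
  set P := ((A ×ˢ B).filter (fun p => Q p.1 p.2)).card with hP
  let S : Fin k ⊕ Fin k → Finset V := Sum.elim (fun _ => A) (fun _ => B)
  set Ω := Fintype.piFinset S with hΩ
  have hSl : ∀ a, S (Sum.inl a) = A := fun a => rfl
  have hSr : ∀ b, S (Sum.inr b) = B := fun b => rfl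
  have hΩpos : 0 < Ω.card := by
    rw [hΩ, Fintype.card_piFinset]
    refine Finset.prod_pos ?_
    rintro (a | b) _
    · exact hA0
    · exact hB0
  -- events
  let E1 : Fin k × Fin k → (Fin k ⊕ Fin k → V) → Prop :=
    fun p G => part (G (Sum.inl p.1)) = part (G (Sum.inr p.2))
  let E2 : Fin k × Fin k × Fin k → (Fin k ⊕ Fin k → V) → Prop :=
    fun p G => p.1 ≠ p.2.1 ∧ part (G (Sum.inl p.1)) ≠ part (G (Sum.inr p.2.2)) ∧
      mem (G (Sum.inl p.2.1)) (join (G (Sum.inl p.1)) (G (Sum.inr p.2.2)))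
  let E3 : Fin k × Fin k → (Fin k ⊕ Fin k → V) → Prop :=
    fun p G => p.1 ≠ p.2 ∧ G (Sum.inr p.1) = G (Sum.inr p.2)
  let E4 : Fin k × Fin k × Fin k → (Fin k ⊕ Fin k → V) → Prop :=
    fun p G => G (Sum.inr p.2.1) ≠ G (Sum.inr p.2.2) ∧
      ∃ l, mem (G (Sum.inr p.2.1)) l ∧ mem (G (Sum.inr p.2.2)) l ∧ mem (G (Sum.inl p.1)) l
  let E5 : (Fin k × Fin k) × (Fin k × Fin k) × (Fin k × Fin k) → (Fin k ⊕ Fin k → V) → Prop :=
    fun p G => p.2.2.1 ≠ p.1.1 ∧ p.2.2.1 ≠ p.2.1.1 ∧
      join (G (Sum.inl p.1.1)) (G (Sum.inr p.1.2)) ≠ join (G (Sum.inl p.2.1.1)) (G (Sum.inr p.2.1.2)) ∧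
      ∃ x l, mem x (join (G (Sum.inl p.1.1)) (G (Sum.inr p.1.2))) ∧
        mem x (join (G (Sum.inl p.2.1.1)) (G (Sum.inr p.2.1.2))) ∧
        x ≠ G (Sum.inr p.2.2.2) ∧ mem x l ∧ mem (G (Sum.inr p.2.2.2)) l ∧
        mem (G (Sum.inl p.2.2.1)) l
  have hmemB : ∀ G ∈ Ω, ∀ b, G (Sum.inr b) ∈ B := by
    intro G hG b
    have := (Fintype.mem_piFinset.1 hG) (Sum.inr b)
    simpa [S] using this
  have hmemA : ∀ G ∈ Ω, ∀ a, G (Sum.inl a) ∈ A := by
    intro G hG a
    have := (Fintype.mem_piFinset.1 hG) (Sum.inl a)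
    simpa [S] using this
  -- individual bounds
  have b1 : ∀ p, A.card * (Ω.filter (E1 p)).card ≤ N * Ω.card := by
    rintro ⟨a, b⟩
    have := cnt_le S (Sum.inl a) (E1 (a, b)) N ?_
    · exact this
    intro G hG
    refine le_trans (Finset.card_le_card ?_) (h1 (G (Sum.inr b)) (hmemB G hG b))
    intro t ht
    simp only [Finset.mem_filter, hSl] at ht ⊢
    refine ⟨ht.1, ?_⟩
    have := ht.2
    simpa [E1] using this
  have b2 : ∀ p, A.card * (Ω.filter (E2 p)).card ≤ N * Ω.card := by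
    rintro ⟨a, a', b⟩
    have := cnt_le S (Sum.inl a') (E2 (a, a', b)) N ?_
    · exact this
    intro G hG
    by_cases hq : a ≠ a' ∧ part (G (Sum.inl a)) ≠ part (G (Sum.inr b))
    · refine le_trans (Finset.card_le_card ?_)
        (h2 (join (G (Sum.inl a)) (G (Sum.inr b))) (G (Sum.inr b)) (hmemB G hG b)
          (ax.join_right hq.2))
      intro t ht
      simp only [Finset.mem_filter, hSl] at ht ⊢
      refine ⟨ht.1, ?_⟩
      have h := ht.2.2.2
      have hne : (Sum.inl a : Fin k ⊕ Fin k) ≠ Sum.inl a' := fun h => hq.1 (Sum.inl.inj h)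
      simpa [E2, Function.update_of_ne hne] using h
    · rw [Finset.filter_eq_empty_iff.2]
      · simp
      intro t _ ht
      apply hq
      have hne : (Sum.inl a : Fin k ⊕ Fin k) ≠ Sum.inl a' := fun h => ht.1 (Sum.inl.inj h)
      refine ⟨ht.1, ?_⟩
      have := ht.2.1
      simpa [Function.update_of_ne hne] using this
  have b3 : ∀ p, B.card * (Ω.filter (E3 p)).card ≤ 1 * Ω.card := by
    rintro ⟨b, b'⟩
    have := cnt_le S (Sum.inr b) (E3 (b, b')) 1 ?_
    · exact this
    intro G hG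
    by_cases hq : b ≠ b'
    · rw [Finset.card_le_one]
      intro s hs t ht
      simp only [Finset.mem_filter] at hs ht
      have hne : (Sum.inr b' : Fin k ⊕ Fin k) ≠ Sum.inr b := fun h => hq (Sum.inr.inj h).symm
      have h1 := hs.2.2
      have h2 := ht.2.2
      simp only [Function.update_self, Function.update_of_ne hne] at h1 h2
      rw [h1, h2]
    · rw [Finset.filter_eq_empty_iff.2]
      · simp
      intro t _ ht
      exact hq ht.1
  have b4 : ∀ p, A.card * (Ω.filter (E4 p)).card ≤ N * Ω.card := by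
    rintro ⟨a, b, b'⟩
    have := cnt_le S (Sum.inl a) (E4 (a, b, b')) N ?_
    · exact this
    intro G hG
    by_cases hq : G (Sum.inr b) ≠ G (Sum.inr b') ∧
        ∃ l, mem (G (Sum.inr b)) l ∧ mem (G (Sum.inr b')) l
    · obtain ⟨hne, l₀, hl1, hl2⟩ := hq
      refine le_trans (Finset.card_le_card ?_) (h2 l₀ (G (Sum.inr b)) (hmemB G hG b) hl1)
      intro t ht
      simp only [Finset.mem_filter, hSl] at ht ⊢
      refine ⟨ht.1, ?_⟩
      obtain ⟨_, l, m1, m2, m3⟩ := ht.2
      simp only [Function.update_self, ne_eq, reduceCtorEq, not_false_eq_true,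
        Function.update_of_ne] at m1 m2 m3
      have : l = l₀ := ax.meet m1 hl1 m2 hl2 hne
      rwa [this] at m3
    · rw [Finset.filter_eq_empty_iff.2]
      · simp
      intro t _ ht
      apply hq
      obtain ⟨hne, l, m1, m2, m3⟩ := ht
      simp only [Function.update_self, ne_eq, reduceCtorEq, not_false_eq_true,
        Function.update_of_ne] at hne m1 m2 m3
      exact ⟨hne, l, m1, m2⟩
  have b5 : ∀ p, A.card * (Ω.filter (E5 p)).card ≤ N * Ω.card := by
    rintro ⟨⟨a₁, b₁⟩, ⟨a₂, b₂⟩, ⟨a₃, b₃⟩⟩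
    have := cnt_le S (Sum.inl a₃) (E5 ((a₁, b₁), (a₂, b₂), (a₃, b₃))) N ?_
    · exact this
    intro G hG
    by_cases hq : a₃ ≠ a₁ ∧ a₃ ≠ a₂ ∧
      join (G (Sum.inl a₁)) (G (Sum.inr b₁)) ≠ join (G (Sum.inl a₂)) (G (Sum.inr b₂)) ∧
      ∃ x l, mem x (join (G (Sum.inl a₁)) (G (Sum.inr b₁))) ∧
        mem x (join (G (Sum.inl a₂)) (G (Sum.inr b₂))) ∧
        x ≠ G (Sum.inr b₃) ∧ mem x l ∧ mem (G (Sum.inr b₃)) l
    · obtain ⟨n1, n2, hne, x₀, l₀, m1, m2, m3, m4, m5⟩ := hq
      refine le_trans (Finset.card_le_card ?_) (h2 l₀ (G (Sum.inr b₃)) (hmemB G hG b₃) m5)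
      intro t ht
      simp only [Finset.mem_filter, hSl] at ht ⊢
      refine ⟨ht.1, ?_⟩
      obtain ⟨_, _, _, x, l, p1, p2, p3, p4, p5, p6⟩ := ht.2
      have e1 : (Sum.inl a₁ : Fin k ⊕ Fin k) ≠ Sum.inl a₃ := fun h => n1 (Sum.inl.inj h).symm
      have e2 : (Sum.inl a₂ : Fin k ⊕ Fin k) ≠ Sum.inl a₃ := fun h => n2 (Sum.inl.inj h).symm
      simp only [Function.update_self, ne_eq, reduceCtorEq, not_false_eq_true,
        Function.update_of_ne, e1, e2] at p1 p2 p3 p4 p5 p6
      have hx : x = x₀ := by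
        by_contra hxx
        exact hne (ax.meet p1 p2 m1 m2 hxx)
      subst hx
      have : l = l₀ := ax.meet p4 m4 p5 m5 m3
      rwa [this] at p6
    · rw [Finset.filter_eq_empty_iff.2]
      · simp
      intro t _ ht
      apply hq
      obtain ⟨n1, n2, hne, x, l, p1, p2, p3, p4, p5, p6⟩ := ht
      have e1 : (Sum.inl a₁ : Fin k ⊕ Fin k) ≠ Sum.inl a₃ := fun h => n1 (Sum.inl.inj h).symm
      have e2 : (Sum.inl a₂ : Fin k ⊕ Fin k) ≠ Sum.inl a₃ := fun h => n2 (Sum.inl.inj h).symm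
      simp only [Function.update_self, ne_eq, reduceCtorEq, not_false_eq_true,
        Function.update_of_ne, e1, e2] at hne p1 p2 p3 p4 p5 p6
      exact ⟨n1, n2, hne, x, l, p1, p2, p3, p4, p5⟩
  -- the bad set
  let GoodG : (Fin k ⊕ Fin k → V) → Prop :=
    fun G => Good part mem join (fun a => G (Sum.inl a)) (fun b => G (Sum.inr b))
  have hbad : Ω.filter (fun G => ¬ GoodG G) ⊆
      (Finset.univ.biUnion fun p => Ω.filter (E1 p)) ∪
      ((Finset.univ.biUnion fun p => Ω.filter (E2 p)) ∪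
      ((Finset.univ.biUnion fun p => Ω.filter (E3 p)) ∪
      ((Finset.univ.biUnion fun p => Ω.filter (E4 p)) ∪
      (Finset.univ.biUnion fun p => Ω.filter (E5 p))))) := by
    intro G hG
    rw [Finset.mem_filter] at hG
    obtain ⟨hGΩ, hng⟩ := hG
    simp only [Finset.mem_union, Finset.mem_biUnion, Finset.mem_univ, true_and,
      Finset.mem_filter]
    rcases not_good ax hng with h | h | h | h | h
    · obtain ⟨a, b, h⟩ := h
      exact Or.inl ⟨(a, b), hGΩ, h⟩
    · obtain ⟨a, a', b, h⟩ := h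
      exact Or.inr (Or.inl ⟨(a, a', b), hGΩ, h⟩)
    · obtain ⟨b, b', h⟩ := h
      exact Or.inr (Or.inr (Or.inl ⟨(b, b'), hGΩ, h⟩))
    · obtain ⟨a, b, b', h⟩ := h
      exact Or.inr (Or.inr (Or.inr (Or.inl ⟨(a, b, b'), hGΩ, h⟩)))
    · obtain ⟨a₁, b₁, a₂, b₂, a₃, b₃, h⟩ := h
      exact Or.inr (Or.inr (Or.inr (Or.inr ⟨((a₁, b₁), (a₂, b₂), (a₃, b₃)), hGΩ, h⟩)))
  have hcard : (Ω.filter (fun G => ¬ GoodG G)).card ≤
      (∑ p, (Ω.filter (E1 p)).card) + ((∑ p, (Ω.filter (E2 p)).card) +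
      ((∑ p, (Ω.filter (E3 p)).card) + ((∑ p, (Ω.filter (E4 p)).card) +
      (∑ p, (Ω.filter (E5 p)).card)))) := by
    refine le_trans (Finset.card_le_card hbad) ?_
    refine le_trans (Finset.card_union_le _ _) (Nat.add_le_add Finset.card_biUnion_le ?_)
    refine le_trans (Finset.card_union_le _ _) (Nat.add_le_add Finset.card_biUnion_le ?_)
    refine le_trans (Finset.card_union_le _ _) (Nat.add_le_add Finset.card_biUnion_le ?_)
    exact le_trans (Finset.card_union_le _ _)
      (Nat.add_le_add Finset.card_biUnion_le Finset.card_biUnion_le)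
  have s1 : A.card * (∑ p, (Ω.filter (E1 p)).card) ≤ k ^ 2 * (N * Ω.card) := by
    rw [Finset.mul_sum]
    refine le_trans (Finset.sum_le_sum fun p _ => b1 p) ?_
    simp [pow_two]
  have s2 : A.card * (∑ p, (Ω.filter (E2 p)).card) ≤ k ^ 3 * (N * Ω.card) := by
    rw [Finset.mul_sum]
    refine le_trans (Finset.sum_le_sum fun p _ => b2 p) ?_
    simp [pow_succ, mul_assoc]
  have s3 : B.card * (∑ p, (Ω.filter (E3 p)).card) ≤ k ^ 2 * (1 * Ω.card) := by
    rw [Finset.mul_sum]
    refine le_trans (Finset.sum_le_sum fun p _ => b3 p) ?_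
    simp [pow_two]
  have s4 : A.card * (∑ p, (Ω.filter (E4 p)).card) ≤ k ^ 3 * (N * Ω.card) := by
    rw [Finset.mul_sum]
    refine le_trans (Finset.sum_le_sum fun p _ => b4 p) ?_
    simp [pow_succ, mul_assoc]
  have s5 : A.card * (∑ p, (Ω.filter (E5 p)).card) ≤ k ^ 6 * (N * Ω.card) := by
    rw [Finset.mul_sum]
    refine le_trans (Finset.sum_le_sum fun p _ => b5 p) ?_
    simp [pow_succ, mul_assoc]
  -- assemble: bad ≤ Ω/2
  set e1 := ∑ p, (Ω.filter (E1 p)).card
  set e2 := ∑ p, (Ω.filter (E2 p)).card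
  set e3 := ∑ p, (Ω.filter (E3 p)).card
  set e4 := ∑ p, (Ω.filter (E4 p)).card
  set e5 := ∑ p, (Ω.filter (E5 p)).card
  have hk2 : k ^ 2 ≤ k ^ 6 := Nat.pow_le_pow_right hk (by norm_num)
  have hk3 : k ^ 3 ≤ k ^ 6 := Nat.pow_le_pow_right hk (by norm_num)
  have hsumA : 4 * (e1 + e2 + e4 + e5) ≤ Ω.card := by
    have : A.card * (4 * (e1 + e2 + e4 + e5)) ≤ A.card * Ω.card := by
      calc A.card * (4 * (e1 + e2 + e4 + e5))
          = 4 * (A.card * e1 + A.card * e2 + A.card * e4 + A.card * e5) := by ring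
        _ ≤ 4 * (k ^ 2 * (N * Ω.card) + k ^ 3 * (N * Ω.card) + k ^ 3 * (N * Ω.card)
              + k ^ 6 * (N * Ω.card)) := by gcongr
        _ ≤ 4 * (k ^ 6 * (N * Ω.card) + k ^ 6 * (N * Ω.card) + k ^ 6 * (N * Ω.card)
              + k ^ 6 * (N * Ω.card)) := by gcongr
        _ = (16 * k ^ 6 * N) * Ω.card := by ring
        _ ≤ A.card * Ω.card := by gcongr
    exact Nat.le_of_mul_le_mul_left this hA0
  have hsumB : 4 * e3 ≤ Ω.card := by
    have : B.card * (4 * e3) ≤ B.card * Ω.card := by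
      calc B.card * (4 * e3) = 4 * (B.card * e3) := by ring
        _ ≤ 4 * (k ^ 2 * (1 * Ω.card)) := by gcongr
        _ = (4 * k ^ 2) * Ω.card := by ring
        _ ≤ B.card * Ω.card := by gcongr
    exact Nat.le_of_mul_le_mul_left this hB0
  have hbadle : 2 * (Ω.filter (fun G => ¬ GoodG G)).card ≤ Ω.card := by omega
  have hsplit : (Ω.filter GoodG).card + (Ω.filter (fun G => ¬ GoodG G)).card = Ω.card :=
    Finset.card_filter_add_card_filter_not _
  have hgood : Ω.card ≤ 2 * (Ω.filter GoodG).card := by omega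
  -- each good grid has a cell satisfying Q
  have hsub : Ω.filter GoodG ⊆ Finset.univ.biUnion (fun p : Fin k × Fin k =>
      Ω.filter (fun G => Q (G (Sum.inl p.1)) (G (Sum.inr p.2)))) := by
    intro G hG
    rw [Finset.mem_filter] at hG
    obtain ⟨a, b, hab⟩ := hC (fun a => G (Sum.inl a)) (fun b => G (Sum.inr b))
      (fun a => hmemA G hG.1 a) (fun b => hmemB G hG.1 b) hG.2
    simp only [Finset.mem_biUnion, Finset.mem_univ, true_and, Finset.mem_filter]
    exact ⟨(a, b), hG.1, hab⟩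
  have hcell : ∀ p : Fin k × Fin k, A.card * (B.card *
      (Ω.filter (fun G => Q (G (Sum.inl p.1)) (G (Sum.inr p.2)))).card) = P * Ω.card := by
    rintro ⟨a, b⟩
    have := cnt_two S (Sum.inl a) (Sum.inr b) (by simp) Q
    exact this
  have hfin : A.card * B.card * Ω.card ≤ 2 * k ^ 2 * P * Ω.card := by
    calc A.card * B.card * Ω.card ≤ A.card * B.card * (2 * (Ω.filter GoodG).card) := by gcongr
      _ ≤ A.card * B.card * (2 * ∑ p : Fin k × Fin k,
          (Ω.filter (fun G => Q (G (Sum.inl p.1)) (G (Sum.inr p.2)))).card) := by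
          gcongr
          exact le_trans (Finset.card_le_card hsub) Finset.card_biUnion_le
      _ = 2 * ∑ p : Fin k × Fin k, A.card * (B.card *
          (Ω.filter (fun G => Q (G (Sum.inl p.1)) (G (Sum.inr p.2)))).card) := by
          simp only [Finset.mul_sum]
          refine Finset.sum_congr rfl fun p _ => ?_
          ring
      _ = 2 * ∑ _p : Fin k × Fin k, P * Ω.card := by
          rw [Finset.sum_congr rfl fun p _ => hcell p]
      _ = 2 * k ^ 2 * P * Ω.card := by
          simp [pow_two]; ring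
  exact Nat.le_of_mul_le_mul_right hfin hΩpos

end Pairs

end Crest.Agent.R034.Samp
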