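import Crest.Agent.R034.Spec
import Crest.Agent.R034.Samp

/-!
# Module M3: stability (`SpecBKT → SpecStab`)
-/

set_option autoImplicit false

namespace Crest.Agent.R034

namespace Stab

open Finset

variable {F : Type} [Field F]

/-! ## plane lemmas -/

theorem on_meet {x y : Pt F} {l l' : Ln F} (h1 : On x l) (h2 : On x l') (h3 : On y l)
    (h4 : On y l') (hxy : x ≠ y) : l = l' := by
  obtain ⟨i, a⟩ := x
  obtain ⟨j, b⟩ := y
  obtain ⟨m, c⟩ := l
  obtain ⟨m', c'⟩ := l'
  unfold On at h1 h2 h3 h4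
  simp only at h1 h2 h3 h4
  rcases i with _ | x₁ <;> rcases j with _ | x₂
  · exfalso; apply hxy
    simp only [val] at h1 h3
    rw [← h1, ← h3]
  · simp only [val] at h1 h2 h3 h4
    have hm : m = m' := by rw [h1, h2]
    subst hm
    have : c = c' := by
      have := h3.trans h4.symm
      exact add_left_cancel this
    rw [this]
  · simp only [val] at h1 h2 h3 h4
    have hm : m = m' := by rw [h3, h4]
    subst hm
    have : c = c' := by
      have := h1.trans h2.symm
      exact add_left_cancel this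
    rw [this]
  · simp only [val] at h1 h2 h3 h4
    have hx : x₁ ≠ x₂ := by
      rintro rfl
      apply hxy
      rw [← h1, ← h3]
    have e1 : (m - m') * (x₁ - x₂) = 0 := by
      linear_combination h1 - h2 - h3 + h4
    have hm : m = m' := by
      rcases mul_eq_zero.1 e1 with h | h
      · exact sub_eq_zero.1 h
      · exact absurd (sub_eq_zero.1 h) hx
    subst hm
    have : c = c' := by
      have := h1.trans h2.symm
      exact add_left_cancel this
    rw [this]

theorem on_part {x y : Pt F} {l : Ln F} (h1 : On x l) (h2 : On y l) (h : x.1 = y.1) : x = y := by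
  unfold On at h1 h2
  refine Prod.ext h ?_
  rw [← h1, ← h2, h]

theorem on_thru_left {x y : Pt F} (h : x.1 ≠ y.1) : On x (thru x y) := by
  obtain ⟨i, a⟩ := x
  obtain ⟨j, b⟩ := y
  rcases i with _ | x₁ <;> rcases j with _ | x₂
  · exact absurd rfl h
  · simp [On, thru, val]
  · simp [On, thru, val]
  · simp [On, thru, val]

theorem on_thru_right {x y : Pt F} (h : x.1 ≠ y.1) : On y (thru x y) := by
  obtain ⟨i, a⟩ := x
  obtain ⟨j, b⟩ := y
  rcases i with _ | x₁ <;> rcases j with _ | x₂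
  · exact absurd rfl h
  · simp [On, thru, val]
  · simp [On, thru, val]
  · have hx : x₂ - x₁ ≠ 0 := by
      intro h0
      apply h
      simp only
      rw [sub_eq_zero.1 h0]
    simp only [On, thru, val]
    field_simp
    ring

theorem ax : Samp.Ax (fun z : Pt F => z.1) (fun z l => On z l) (thru : Pt F → Pt F → Ln F) where
  meet := fun h1 h2 h3 h4 h5 => on_meet h1 h2 h3 h4 h5
  part_inj := fun h1 h2 h3 => on_part h1 h2 h3
  join_left := fun h => on_thru_left h
  join_right := fun h => on_thru_right h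

theorem eq_thru {x y : Pt F} {l : Ln F} (h : x.1 ≠ y.1) (h1 : On x l) (h2 : On y l) :
    l = thru x y :=
  on_meet h1 (on_thru_left h) h2 (on_thru_right h) (fun hh => h (by rw [hh]))

/-- a *block*: a line or a position -/
structure Block (m : Pt F → Prop) : Prop where
  line : ∀ l : Ln F, (∃ u, On u l ∧ ¬ m u) → ∀ t t', m t → m t' → On t l → On t' l → t = t'
  pos : ∀ u, ¬ m u → ∀ t t', m t → m t' → t.1 = u.1 → t'.1 = u.1 → t = t'
  uniq : ∀ l l' : Ln F, (∀ u, On u l → m u) → (∀ u, On u l' → m u) → l = l'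

theorem block_line (l₀ : Ln F) : Block (fun z => On z l₀) where
  line := by
    rintro l ⟨u, hu, hu'⟩ t t' ht ht' h1 h2
    by_contra hne
    have := on_meet h1 ht h2 ht' hne
    rw [this] at hu
    exact hu' hu
  pos := by
    intro u _ t t' ht ht' h1 h2
    exact on_part ht ht' (h1.trans h2.symm)
  uniq := by
    intro l l' h h'
    have key : ∀ l : Ln F, (∀ u, On u l → On u l₀) → l = l₀ := by
      intro l h
      have h0 : On ((none : Option F), val l none) l := rfl
      have h1 : On (some (0 : F), val l (some 0)) l := rfl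
      exact on_meet h0 (h _ h0) h1 (h _ h1) (by simp)
    rw [key l h, key l' h']

theorem block_pos (i : Option F) : Block (fun z : Pt F => z.1 = i) where
  line := by
    rintro l _ t t' ht ht' h1 h2
    exact on_part h1 h2 (ht.trans ht'.symm)
  pos := by
    intro u hu t t' ht _ h1 _
    exact absurd (h1.symm.trans ht) hu
  uniq := by
    intro l l' h _
    exfalso
    have h0 := h ((none : Option F), val l none) rfl
    have h1 := h (some (0 : F), val l (some 0)) rfl
    simp only at h0 h1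
    rw [← h0] at h1
    exact absurd h1 (by simp)

/-! ## counting -/

variable [Fintype F] [DecidableEq F]

/-- lines avoiding `Kset R` -/
def LL (R : RR F) : Finset (Ln F) := univ.filter (fun l => Avoids (Kset R) l)

theorem mem_LL {R : RR F} {l : Ln F} : l ∈ LL R ↔ Avoids (Kset R) l := by simp [LL]

/-- number of points of `S` on `l` -/
def nn (S : Finset (Pt F)) (l : Ln F) : ℕ := (S.filter (fun z => On z l)).card

theorem avoids_on {R : RR F} {l : Ln F} (h : Avoids (Kset R) l) {z : Pt F} (hz : On z l) :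
    z ∉ Kset R := by
  have := h z.1
  unfold On at hz
  rw [hz] at this
  exact this

theorem N0_eq {R : RR F} {z : Pt F} (hz : z ∉ Kset R) :
    N0 R z = ((LL R).filter (fun l => On z l)).card := by
  unfold N0 LL
  rw [Finset.filter_filter]
  congr 1
  ext l
  simp only [Finset.mem_filter, Finset.mem_univ, true_and]
  constructor
  · rintro ⟨h1, h2⟩
    refine ⟨?_, h1⟩
    intro i
    by_cases hi : i = z.1
    · subst hi
      have : (z.1, val l z.1) = z := Prod.ext rfl h1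
      rw [this]; exact hz
    · exact h2 i hi
  · rintro ⟨h1, h2⟩
    exact ⟨h2, fun i _ => h1 i⟩

omit [Field F] in
/-- points of `Kset R` in one position -/
theorem card_K_pos (R : RR F) (i : Option F) :
    (univ.filter (fun y : F => (i, y) ∈ Kset R)).card ≤ kap := by
  classical
  have : univ.filter (fun y : F => (i, y) ∈ Kset R) ⊆ univ.image (R i) := by
    intro y hy
    simp only [Kset, Finset.mem_filter, Finset.mem_univ, true_and] at hy
    obtain ⟨r, hr⟩ := hy
    simp only [Finset.mem_image, Finset.mem_univ, true_and]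
    exact ⟨r, hr⟩
  refine le_trans (Finset.card_le_card this) (le_trans Finset.card_image_le ?_)
  simp

theorem card_LL_eq (R : RR F) (i : Option F) :
    (LL R).card = ∑ y : F, ((LL R).filter (fun l => On (i, y) l)).card := by
  rw [Finset.card_eq_sum_card_fiberwise (f := fun l => val l i) (t := univ)
    (fun _ _ => by simp)]
  rfl

theorem card_LL_ge (R : RR F) (D Δ : ℝ) (hD : Δ ≤ D)
    (hR : ∀ z : Pt F, |(N0 R z : ℝ) - D| ≤ Δ) :
    ((ord F : ℝ) - kap) * (D - Δ) ≤ ((LL R).card : ℝ) := by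
  classical
  rw [card_LL_eq R none]
  push_cast
  set P := univ.filter (fun y : F => ((none : Option F), y) ∉ Kset R) with hP
  have h1 : ((ord F : ℝ) - kap) ≤ (P.card : ℝ) := by
    have h2 := card_K_pos R (none : Option F)
    have h3 : (univ.filter (fun y : F => ((none : Option F), y) ∈ Kset R)).card + P.card
        = (univ : Finset F).card := by
      rw [hP]
      exact Finset.card_filter_add_card_filter_not _
    have h4 : (univ : Finset F).card = ord F := rfl
    rw [h4] at h3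
    have : (ord F : ℝ) = ((univ.filter (fun y : F => ((none : Option F), y) ∈ Kset R)).card : ℝ)
        + P.card := by exact_mod_cast h3.symm
    have h5 : (((univ.filter (fun y : F => ((none : Option F), y) ∈ Kset R)).card : ℕ) : ℝ)
        ≤ (kap : ℝ) := by exact_mod_cast h2
    linarith
  calc ((ord F : ℝ) - kap) * (D - Δ) ≤ (P.card : ℝ) * (D - Δ) := by
        apply mul_le_mul_of_nonneg_right h1; linarith
    _ = ∑ _y ∈ P, (D - Δ) := by rw [Finset.sum_const, nsmul_eq_mul]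
    _ ≤ ∑ y ∈ P, (((LL R).filter (fun l => On ((none : Option F), y) l)).card : ℝ) := by
        apply Finset.sum_le_sum
        intro y hy
        have hy' : ((none : Option F), y) ∉ Kset R := by
          have := hy
          simp only [hP, Finset.mem_filter, Finset.mem_univ, true_and] at this
          exact this
        rw [← N0_eq hy']
        have := (abs_le.1 (hR ((none : Option F), y))).1
        linarith
    _ ≤ ∑ y : F, (((LL R).filter (fun l => On ((none : Option F), y) l)).card : ℝ) := by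
        apply Finset.sum_le_sum_of_subset_of_nonneg (Finset.subset_univ _)
        intros; positivity

theorem sum_nn (R : RR F) (S : Finset (Pt F)) (hS : ∀ z ∈ S, z ∉ Kset R) :
    ∑ l ∈ LL R, nn S l = ∑ z ∈ S, N0 R z := by
  have := Finset.sum_card_bipartiteAbove_eq_sum_card_bipartiteBelow
    (s := S) (t := LL R) (fun z l => On z l)
  unfold Finset.bipartiteAbove Finset.bipartiteBelow at this
  rw [Finset.sum_congr rfl fun z hz => N0_eq (hS z hz), this]
  rfl

/-- the excess -/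
def EE (R : RR F) (S : Finset (Pt F)) : ℕ := ∑ l ∈ LL R, (nn S l - 1)

theorem EE_le (R : RR F) (S : Finset (Pt F)) (hS : ∀ z ∈ S, z ∉ Kset R)
    (hcov : ∀ l ∈ LL R, 1 ≤ nn S l) (hcard : S.card ≤ ord F) (D Δ : ℝ) (hD : Δ ≤ D)
    (hD0 : 0 ≤ D) (hΔ : 0 ≤ Δ) (hDq : D ≤ ord F) (hΔk : (kap : ℝ) ≤ Δ)
    (hR : ∀ z : Pt F, |(N0 R z : ℝ) - D| ≤ Δ) :
    (EE R S : ℝ) ≤ 3 * (ord F * Δ) := by
  have h1 : (EE R S : ℝ) = (∑ l ∈ LL R, (nn S l : ℝ)) - ((LL R).card : ℝ) := by
    unfold EE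
    push_cast
    rw [Finset.sum_congr rfl (g := fun l => ((nn S l : ℝ) - 1))]
    · simp [Finset.sum_sub_distrib]
    · intro l hl
      rw [Nat.cast_sub (hcov l hl)]; simp
  have h2 : (∑ l ∈ LL R, (nn S l : ℝ)) = ∑ z ∈ S, (N0 R z : ℝ) := by
    exact_mod_cast sum_nn R S hS
  have h3 : ∑ z ∈ S, (N0 R z : ℝ) ≤ (ord F : ℝ) * (D + Δ) := by
    calc ∑ z ∈ S, (N0 R z : ℝ) ≤ ∑ _z ∈ S, (D + Δ) := by
          apply Finset.sum_le_sum
          intro z _
          have := (abs_le.1 (hR z)).2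
          linarith
      _ = (S.card : ℝ) * (D + Δ) := by rw [Finset.sum_const, nsmul_eq_mul]
      _ ≤ (ord F : ℝ) * (D + Δ) := by
          apply mul_le_mul_of_nonneg_right
          · exact_mod_cast hcard
          · linarith
  have h4 := card_LL_ge R D Δ hD hR
  rw [h1, h2]
  have hk : (0:ℝ) ≤ kap := by positivity
  nlinarith [mul_nonneg hk hΔ, mul_nonneg hk hD0, mul_le_mul_of_nonneg_left hDq hk,
    mul_le_mul_of_nonneg_left hΔk (show (0:ℝ) ≤ ord F by positivity)]

/-- LL-pairs between `S ∩ m` and `S \ m` -/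
theorem cross_le (R : RR F) (S : Finset (Pt F)) {m : Pt F → Prop} [DecidablePred m]
    (hm : Block m) :
    (((S.filter m) ×ˢ (S.filter (fun z => ¬ m z))).filter
      (fun p => p.1.1 ≠ p.2.1 ∧ Avoids (Kset R) (thru p.1 p.2))).card ≤ EE R S := by
  classical
  set Q := (((S.filter m) ×ˢ (S.filter (fun z => ¬ m z))).filter
      (fun p => p.1.1 ≠ p.2.1 ∧ Avoids (Kset R) (thru p.1 p.2))) with hQ
  have hmaps : ∀ p ∈ Q, thru p.1 p.2 ∈ LL R := by
    intro p hp
    rw [hQ, Finset.mem_filter] at hp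
    exact mem_LL.2 hp.2.2
  rw [Finset.card_eq_sum_card_fiberwise hmaps]
  unfold EE
  apply Finset.sum_le_sum
  intro l hl
  rcases Finset.eq_empty_or_nonempty (Q.filter (fun p => thru p.1 p.2 = l)) with he | ⟨⟨u₀, v₀⟩, hne⟩
  · rw [he]; simp
  · simp only [hQ, Finset.mem_filter, Finset.mem_product] at hne
    obtain ⟨⟨⟨⟨hu0S, hu0m⟩, hv0S, hv0m⟩, hpos0, _⟩, hthru0⟩ := hne
    have hu0l : On u₀ l := hthru0 ▸ on_thru_left hpos0
    have hv0l : On v₀ l := hthru0 ▸ on_thru_right hpos0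
    have hsub : ∀ p ∈ Q.filter (fun p => thru p.1 p.2 = l),
        p.2 ∈ (S.filter (fun z => On z l)).erase u₀ ∧ p.1 = u₀ := by
      rintro ⟨u, v⟩ hp
      simp only [hQ, Finset.mem_filter, Finset.mem_product] at hp
      obtain ⟨⟨⟨⟨huS, hum⟩, hvS, hvm⟩, hpos, _⟩, hthru⟩ := hp
      have hul : On u l := hthru ▸ on_thru_left hpos
      have hvl : On v l := hthru ▸ on_thru_right hpos
      have hu : u = u₀ := hm.line l ⟨v, hvl, hvm⟩ u u₀ hum hu0m hul hu0l
      refine ⟨?_, hu⟩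
      rw [Finset.mem_erase, Finset.mem_filter]
      refine ⟨?_, hvS, hvl⟩
      rintro rfl
      exact hvm hu0m
    have hcard : (Q.filter (fun p => thru p.1 p.2 = l)).card
        ≤ ((S.filter (fun z => On z l)).erase u₀).card := by
      apply Finset.card_le_card_of_injOn (fun p => p.2)
      · intro p hp
        exact (hsub p hp).1
      · intro p hp p' hp' h
        exact Prod.ext ((hsub p hp).2.trans (hsub p' hp').2.symm) h
    refine le_trans hcard ?_
    rw [Finset.card_erase_of_mem]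
    · rfl
    · rw [Finset.mem_filter]; exact ⟨hu0S, hu0l⟩

/-- poor LL-pairs -/
theorem poor_le (R : RR F) (S : Finset (Pt F)) (r : ℝ) (hr : 0 ≤ r) :
    (((S ×ˢ S).filter (fun p => p.1.1 ≠ p.2.1 ∧ Avoids (Kset R) (thru p.1 p.2) ∧
      (nn S (thru p.1 p.2) : ℝ) < r)).card : ℝ) ≤ r * EE R S := by
  classical
  set Q := ((S ×ˢ S).filter (fun p => p.1.1 ≠ p.2.1 ∧ Avoids (Kset R) (thru p.1 p.2) ∧
      (nn S (thru p.1 p.2) : ℝ) < r)) with hQ
  have hmaps : ∀ p ∈ Q, thru p.1 p.2 ∈ LL R := by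
    intro p hp
    rw [hQ, Finset.mem_filter] at hp
    exact mem_LL.2 hp.2.2.1
  rw [Finset.card_eq_sum_card_fiberwise hmaps]
  unfold EE
  push_cast
  rw [Finset.mul_sum]
  apply Finset.sum_le_sum
  intro l hl
  rcases Finset.eq_empty_or_nonempty (Q.filter (fun p => thru p.1 p.2 = l)) with he | ⟨⟨u₀, v₀⟩, hne⟩
  · rw [he]; simp; positivity
  · simp only [hQ, Finset.mem_filter, Finset.mem_product] at hne
    obtain ⟨⟨_, hpos0, _, hlt⟩, hthru0⟩ := hne
    rw [hthru0] at hlt
    have hsub : (Q.filter (fun p => thru p.1 p.2 = l)) ⊆ (S.filter (fun z => On z l)).offDiag := by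
      rintro ⟨u, v⟩ hp
      simp only [hQ, Finset.mem_filter, Finset.mem_product] at hp
      obtain ⟨⟨⟨huS, hvS⟩, hpos, _⟩, hthru⟩ := hp
      have hul : On u l := hthru ▸ on_thru_left hpos
      have hvl : On v l := hthru ▸ on_thru_right hpos
      rw [Finset.mem_offDiag, Finset.mem_filter, Finset.mem_filter]
      exact ⟨⟨huS, hul⟩, ⟨hvS, hvl⟩, fun h => hpos (congrArg Prod.fst h)⟩
    have h1 : (Q.filter (fun p => thru p.1 p.2 = l)).card ≤ nn S l * (nn S l - 1) := by
      refine le_trans (Finset.card_le_card hsub) ?_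
      rw [Finset.offDiag_card]
      unfold nn
      rw [Nat.mul_sub, Nat.mul_one]
    calc ((Q.filter (fun p => thru p.1 p.2 = l)).card : ℝ)
        ≤ ((nn S l * (nn S l - 1) : ℕ) : ℝ) := by exact_mod_cast h1
      _ = (nn S l : ℝ) * ((nn S l - 1 : ℕ) : ℝ) := by push_cast; ring
      _ ≤ r * ((nn S l - 1 : ℕ) : ℝ) := by
          apply mul_le_mul_of_nonneg_right hlt.le; positivity

/-! ## blocks -/

theorem full_of_small (R : RR F) (K T : Finset (Pt F)) (hK : K ⊆ Kset R)
    (hT : ∀ l, Avoids K l → ∃ j, (j, val l j) ∈ T) {m : Pt F → Prop} [DecidablePred m]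
    (hm : Block m) (D Δ : ℝ) (hR : ∀ z : Pt F, |(N0 R z : ℝ) - D| ≤ Δ)
    (hB : ((((T \ Kset R).filter (fun z => ¬ m z)).card : ℝ)) + 1 < D - Δ) :
    ∀ z, m z → z ∉ K → z ∈ T := by
  classical
  intro z hmz hzK
  by_contra hzT
  set B := (T \ Kset R).filter (fun z => ¬ m z) with hBdef
  set Lz := univ.filter (fun l : Ln F => On z l ∧ AvoidsOff (Kset R) z l) with hLz
  have hsplit : (Lz.filter (fun l => ∀ u, On u l → m u)).card +
      (Lz.filter (fun l => ¬ ∀ u, On u l → m u)).card = Lz.card :=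
    Finset.card_filter_add_card_filter_not _
  have h1 : (Lz.filter (fun l => ∀ u, On u l → m u)).card ≤ 1 := by
    rw [Finset.card_le_one]
    intro l hl l' hl'
    exact hm.uniq l l' (Finset.mem_filter.1 hl).2 (Finset.mem_filter.1 hl').2
  -- the second part injects into `B`
  have hex : ∀ l ∈ Lz.filter (fun l => ¬ ∀ u, On u l → m u),
      ∃ w, w ∈ B ∧ On w l ∧ w ≠ z := by
    intro l hl
    simp only [hLz, Finset.mem_filter, Finset.mem_univ, true_and] at hl
    obtain ⟨⟨hzl, hoff⟩, hnall⟩ := hl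
    push Not at hnall
    have hav : Avoids K l := by
      intro i hi
      by_cases hiz : i = z.1
      · subst hiz
        have : (z.1, val l z.1) = z := Prod.ext rfl hzl
        rw [this] at hi
        exact hzK hi
      · exact hoff i hiz (hK hi)
    obtain ⟨j, hj⟩ := hT l hav
    have hwl : On (j, val l j) l := rfl
    have hwz : (j, val l j) ≠ z := by
      intro h; rw [h] at hj; exact hzT hj
    have hjz : j ≠ z.1 := by
      intro h
      exact hwz (on_part hwl hzl h)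
    refine ⟨(j, val l j), ?_, hwl, hwz⟩
    rw [hBdef, Finset.mem_filter, Finset.mem_sdiff]
    refine ⟨⟨hj, hoff j hjz⟩, ?_⟩
    intro hmw
    exact hwz (hm.line l hnall _ _ hmw hmz hwl hzl)
  have h2 : (Lz.filter (fun l => ¬ ∀ u, On u l → m u)).card ≤ B.card := by
    choose! f hf1 hf2 hf3 using hex
    apply Finset.card_le_card_of_injOn f
    · intro l hl; exact hf1 l hl
    · intro l hl l' hl' h
      have hzl : On z l := by
        have := (Finset.mem_filter.1 hl).1
        rw [hLz, Finset.mem_filter] at this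
        exact this.2.1
      have hzl' : On z l' := by
        have := (Finset.mem_filter.1 hl').1
        rw [hLz, Finset.mem_filter] at this
        exact this.2.1
      refine on_meet (hf2 l hl) ?_ hzl hzl' (hf3 l hl)
      rw [h]; exact hf2 l' hl'
  have h3 : Lz.card ≤ B.card + 1 := by omega
  have h4 : N0 R z = Lz.card := rfl
  have h5 := (abs_le.1 (hR z)).1
  have h6 : (N0 R z : ℝ) ≤ (B.card : ℝ) + 1 := by
    rw [h4]; exact_mod_cast h3
  linarith

omit [Fintype F] in
theorem grid_of_good {k : ℕ} {T W : Fin k → Pt F}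
    (h : Samp.Good (fun z : Pt F => z.1) (fun z l => On z l) (thru : Pt F → Pt F → Ln F) T W) :
    Grid k T W where
  pos := h.part_ne
  inj := h.inj
  two := by
    intro z h1 h2
    by_contra hcon
    push Not at hcon
    obtain ⟨⟨a₁, b₁⟩, ⟨a₂, b₂⟩, ⟨a₃, b₃⟩, m1, m2, m3, h12, h13, h23⟩ :=
      Finset.two_lt_card_iff.1 hcon
    simp only [Finset.mem_filter, Finset.mem_univ, true_and] at m1 m2 m3
    exact h.three z (fun a h => h1 a h.symm) (fun b h => h2 b h.symm)
      a₁ b₁ a₂ b₂ a₃ b₃ h12 h13 h23 m1 m2 m3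

theorem pairs_ge' (R : RR F) (k : ℕ) (hk : 0 < k) (h3 : R3 R k) (A B : Finset (Pt F)) (N : ℕ)
    (hAK : ∀ z ∈ A, z ∉ Kset R) (hBK : ∀ z ∈ B, z ∉ Kset R)
    (h1 : ∀ u ∈ B, (A.filter (fun t => t.1 = u.1)).card ≤ N)
    (h2 : ∀ l u, u ∈ B → On u l → (A.filter (fun t => On t l)).card ≤ N)
    (hA : 16 * k ^ 6 * N ≤ A.card) (hB : 4 * k ^ 2 ≤ B.card) :
    A.card * B.card ≤ 2 * k ^ 2 * ((A ×ˢ B).filter
      (fun p => p.1.1 ≠ p.2.1 ∧ Avoids (Kset R) (thru p.1 p.2))).card := by
  have := Samp.pairs_ge (ax (F := F)) A B N k hk (by intro u hu; convert h1 u hu)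
    (by intro l u hu hl; convert h2 l u hu hl) hA hB
    (fun u v => u.1 ≠ v.1 ∧ Avoids (Kset R) (thru u v))
    (by
      intro T U hT hU hg
      obtain ⟨a, b, hab⟩ := h3 T U (grid_of_good hg) (fun a => hAK _ (hT a)) (fun b => hBK _ (hU b))
      exact ⟨a, b, hg.part_ne a b, hab⟩)
  convert this

theorem block_pairs (R : RR F) (k : ℕ) (hk : 0 < k) (h3 : R3 R k) (S : Finset (Pt F))
    (hS : ∀ z ∈ S, z ∉ Kset R) {m : Pt F → Prop} [DecidablePred m] (hm : Block m)
    (hA : 16 * k ^ 6 ≤ (S.filter m).card) (hB : 4 * k ^ 2 ≤ (S.filter (fun z => ¬ m z)).card) :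
    (S.filter m).card * (S.filter (fun z => ¬ m z)).card ≤ 2 * k ^ 2 * EE R S := by
  have := pairs_ge' R k hk h3 (S.filter m) (S.filter (fun z => ¬ m z)) 1
    (fun z hz => hS z (Finset.mem_filter.1 hz).1) (fun z hz => hS z (Finset.mem_filter.1 hz).1)
    (by
      intro u hu
      rw [Finset.card_le_one]
      intro t ht t' ht'
      simp only [Finset.mem_filter] at ht ht' hu
      exact hm.pos u hu.2 t t' ht.1.2 ht'.1.2 ht.2 ht'.2)
    (by
      intro l u hu hl
      rw [Finset.card_le_one]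
      intro t ht t' ht'
      simp only [Finset.mem_filter] at ht ht' hu
      exact hm.line l ⟨u, hl, hu.2⟩ t t' ht.1.2 ht'.1.2 ht.2 ht'.2)
    (by simpa using hA) hB
  refine le_trans this (Nat.mul_le_mul_left _ (cross_le R S hm))

/-! ## the constant -/

theorem D0_ge {q : ℕ} (hq : 2 ≤ q) : Real.exp (-2000) * q ≤ D0 q := by
  unfold D0
  have hq0 : (0:ℝ) < q := by positivity
  have hq2 : (2:ℝ) ≤ q := by exact_mod_cast hq
  have hx : 1 / (q:ℝ) ≤ 1 / 2 := one_div_le_one_div_of_le (by norm_num) hq2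
  have hx0 : 0 < 1 / (q:ℝ) := by positivity
  have h1 : Real.exp (-2 * (1 / (q:ℝ))) ≤ 1 - 1 / (q:ℝ) := by
    have h2 : 1 + 2 * (1 / (q:ℝ)) ≤ Real.exp (2 * (1 / (q:ℝ))) := by
      have := Real.add_one_le_exp (2 * (1 / (q:ℝ))); linarith
    have h3 : Real.exp (-2 * (1 / (q:ℝ))) = (Real.exp (2 * (1 / (q:ℝ))))⁻¹ := by
      rw [← Real.exp_neg]; ring_nf
    rw [h3, inv_le_comm₀ (Real.exp_pos _) (by linarith)]
    refine le_trans ?_ h2
    rw [inv_le_comm₀ (by linarith) (by positivity), ← one_div, div_le_iff₀ (by positivity)]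
    nlinarith
  have h4 : (Real.exp (-2 * (1 / (q:ℝ)))) ^ (kap * q) ≤ (1 - 1 / (q:ℝ)) ^ (kap * q) :=
    pow_le_pow_left₀ (Real.exp_pos _).le h1 _
  have h5 : (Real.exp (-2 * (1 / (q:ℝ)))) ^ (kap * q) = Real.exp (-2000) := by
    rw [← Real.exp_nat_mul]
    congr 1
    push_cast
    field_simp
    norm_num
  rw [h5] at h4
  rw [mul_comm]
  exact mul_le_mul_of_nonneg_left h4 hq0.le

theorem D0_le {q : ℕ} (hq : 1 ≤ q) : D0 q ≤ q := by
  unfold D0
  have hq0 : (0:ℝ) < q := by positivity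
  have hq1 : (1:ℝ) ≤ q := by exact_mod_cast hq
  have h1 : (1 - 1 / (q:ℝ)) ^ (kap * q) ≤ 1 := by
    apply pow_le_one₀
    · rw [sub_nonneg, div_le_one hq0]; exact hq1
    · linarith [show 0 < 1 / (q:ℝ) by positivity]
  nlinarith

/-! ## the stability theorem -/

theorem root_lt {a k q N : ℕ} (h0 : (a + 1) ^ N ≤ q) (h : q < (k + 1) ^ N) : a < k := by
  have h1 : (a + 1) ^ N < (k + 1) ^ N := lt_of_le_of_lt h0 h
  have h2 : a + 1 < k + 1 := lt_of_pow_lt_pow_left₀ N (Nat.zero_le _) h1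
  omega

set_option maxHeartbeats 1000000 in
theorem specStab (hBKT : SpecBKT) : SpecStab := by
  classical
  obtain ⟨C0, hBKT⟩ := hBKT
  set α := Real.exp (-2000) with hα
  have hα0 : 0 < α := Real.exp_pos _
  have hα1 : α ≤ 1 := by
    rw [hα, Real.exp_le_one_iff]; norm_num
  obtain ⟨k0, hk0⟩ := exists_nat_gt (10000 / α ^ 2)
  refine ⟨4 * C0 + 40, by omega, (k0 + 1) ^ (4 * C0 + 40), ?_⟩
  intro F _ _ _ hsq hq0 k hk R hR1 hR3 K hK T hTc hT
  obtain ⟨hk1, hk2⟩ := hk
  have hkk : k0 < k := root_lt hq0 hk2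
  have h40 : 0 < k → k ^ 40 ≤ ord F := fun h =>
    le_trans (Nat.pow_le_pow_right h (Nat.le_add_left _ _)) hk1
  have hfinal : 1 < k → ¬ (ord F ≤ (k ^ 4) ^ C0) := by
    intro h h'
    have h2 : (k ^ 4) ^ C0 < k ^ (4 * C0 + 40) := by
      rw [← pow_mul]
      exact Nat.pow_lt_pow_right h (Nat.lt_add_of_pos_right (by norm_num))
    exact absurd (le_trans hk1 h') (not_le.2 h2)
  clear hk1 hk2 hq0
  set κ : ℝ := (k : ℝ) with hκ
  set s : ℝ := Real.sqrt (ord F) with hs
  have hκ0 : 10000 / α ^ 2 < κ := lt_trans hk0 (by rw [hκ]; exact_mod_cast hkk)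
  have f0 : 10000 ≤ α ^ 2 * κ := by
    rw [div_lt_iff₀ (by positivity)] at hκ0; linarith
  have hκpos : 0 < κ := by
    by_contra h
    have : α ^ 2 * κ ≤ 0 := mul_nonpos_of_nonneg_of_nonpos (by positivity) (not_lt.1 h)
    linarith
  have f1 : 10000 ≤ α * κ := by
    refine le_trans f0 ?_
    have : α ^ 2 ≤ α := pow_le_of_le_one hα0.le hα1 two_ne_zero
    exact mul_le_mul_of_nonneg_right this hκpos.le
  have f2 : 10000 ≤ κ := by
    exact le_trans f1 (mul_le_of_le_one_left hκpos.le hα1)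
  have hκ1 : 1 ≤ κ := by linarith
  have hkpos : 0 < k := by
    rcases Nat.eq_zero_or_pos k with h | h
    · rw [h] at hκ; simp at hκ; linarith
    · exact h
  have hs2 : s ^ 2 = (ord F : ℝ) := Real.sq_sqrt (by positivity)
  have hs0 : 0 ≤ s := Real.sqrt_nonneg _
  have f3 : κ ^ 20 ≤ s := by
    apply Real.le_sqrt_of_sq_le
    have h1 : k ^ 40 ≤ ord F := h40 hkpos
    have h2 : ((k ^ 40 : ℕ) : ℝ) ≤ (ord F : ℝ) := by exact_mod_cast h1
    calc (κ ^ 20) ^ 2 = ((k ^ 40 : ℕ) : ℝ) := by rw [hκ]; push_cast; ring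
      _ ≤ (ord F : ℝ) := h2
  have f4 : 10000 * κ ^ 10 ≤ α * s := by
    calc 10000 * κ ^ 10 ≤ (α * κ) * κ ^ 19 := by
          apply mul_le_mul f1 (pow_le_pow_right₀ hκ1 (by norm_num)) (by positivity) (by positivity)
      _ = α * κ ^ 20 := by ring
      _ ≤ α * s := mul_le_mul_of_nonneg_left f3 hα0.le
  have hκ10 : κ ≤ κ ^ 10 := le_self_pow₀ hκ1 (by norm_num)
  have hκ2 : κ ^ 2 ≤ κ ^ 10 := pow_le_pow_right₀ hκ1 (by norm_num)
  have f5 : 1 ≤ s := le_trans (one_le_pow₀ hκ1) f3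
  have f6 : 16 * κ ^ 2 ≤ s := by
    refine le_trans ?_ f3
    calc 16 * κ ^ 2 ≤ κ * κ ^ 2 := by
          apply mul_le_mul_of_nonneg_right _ (by positivity); linarith
      _ = κ ^ 3 := by ring
      _ ≤ κ ^ 20 := pow_le_pow_right₀ hκ1 (by norm_num)
  -- `D` and `Δ`
  set D : ℝ := D0 (ord F) with hD
  set Δ : ℝ := κ * s with hΔ
  have hq2 : 2 ≤ ord F := by
    have : (2:ℝ) ≤ (ord F : ℝ) := by
      rw [← hs2]
      have h0 : 10000 * κ ^ 10 ≤ s := le_trans f4 (mul_le_of_le_one_left hs0 hα1)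
      have h1 : (1:ℝ) ≤ κ ^ 10 := one_le_pow₀ hκ1
      have h2 : s ≤ s ^ 2 := le_self_pow₀ f5 two_ne_zero
      linarith
    exact_mod_cast this
  have hD1 : α * s ^ 2 ≤ D := by
    rw [hs2]; exact D0_ge hq2
  have hD2 : D ≤ s ^ 2 := by
    rw [hs2]; exact D0_le (by omega)
  have hR : ∀ z : Pt F, |(N0 R z : ℝ) - D| ≤ Δ := hR1
  have h5000 : 5000 * (κ ^ 10 * s) ≤ α * s ^ 2 / 2 := by
    have := mul_le_mul_of_nonneg_right f4 hs0
    calc 5000 * (κ ^ 10 * s) = (10000 * κ ^ 10 * s) / 2 := by ring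
      _ ≤ (α * s * s) / 2 := by linarith
      _ = α * s ^ 2 / 2 := by ring
  have g1 : κ * s + 1 ≤ α * s ^ 2 / 2 := by
    have h1 : 1 ≤ κ * s := one_le_mul_of_one_le_of_one_le hκ1 f5
    have h3 : κ * s ≤ κ ^ 10 * s := mul_le_mul_of_nonneg_right hκ10 hs0
    linarith [h5000]
  have g2 : 4 * κ ^ 2 ≤ α * s ^ 2 / 2 := by
    have h4 : 0 ≤ κ ^ 10 := by positivity
    have h3 : κ ^ 10 ≤ κ ^ 10 * s := le_mul_of_one_le_right h4 f5
    linarith [h5000]
  have hDΔ : Δ ≤ D := by
    have h0 : 0 ≤ α * s ^ 2 := by positivity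
    rw [hΔ]; linarith
  have hD0' : 0 ≤ D := le_trans (by positivity) hD1
  have hΔ0 : 0 ≤ Δ := by positivity
  have hkapΔ : (kap : ℝ) ≤ Δ := by
    have : (kap : ℝ) = 1000 := by norm_num
    rw [this, hΔ]
    exact le_trans (by linarith) (le_mul_of_one_le_right hκpos.le f5)
  set S := T \ Kset R with hS
  have hSK : ∀ z ∈ S, z ∉ Kset R := fun z hz => (Finset.mem_sdiff.1 hz).2
  have hScard : S.card ≤ ord F := le_trans (Finset.card_le_card Finset.sdiff_subset) hTc
  have hcov : ∀ l ∈ LL R, 1 ≤ nn S l := by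
    intro l hl
    rw [mem_LL] at hl
    obtain ⟨j, hj⟩ := hT l (fun i hi => hl i (hK hi))
    unfold nn
    rw [Nat.one_le_iff_ne_zero, Finset.card_ne_zero]
    refine ⟨(j, val l j), ?_⟩
    rw [Finset.mem_filter, hS, Finset.mem_sdiff]
    exact ⟨⟨hj, hl j⟩, rfl⟩
  have hE : (EE R S : ℝ) ≤ 3 * κ * s ^ 3 := by
    have := EE_le R S hSK hcov hScard D Δ hDΔ hD0' hΔ0 (by rw [← hs2]; exact hD2) hkapΔ hR
    calc (EE R S : ℝ) ≤ 3 * (ord F * Δ) := this
      _ = 3 * κ * s ^ 3 := by rw [← hs2, hΔ]; ring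
  -- the full case
  by_cases hl : ∃ l₀ : Ln F, (((S.filter (fun z => ¬ On z l₀)).card : ℝ)) + 1 < D - Δ
  · obtain ⟨l₀, hl₀⟩ := hl
    left
    exact ⟨l₀, fun j hj => full_of_small R K T hK hT (block_line l₀) D Δ hR hl₀
      (j, val l₀ j) rfl hj⟩
  by_cases hp : ∃ i₀ : Option F, (((S.filter (fun z => ¬ z.1 = i₀)).card : ℝ)) + 1 < D - Δ
  · obtain ⟨i₀, hi₀⟩ := hp
    right
    exact ⟨i₀, fun y hy => full_of_small R K T hK hT (block_pos i₀) D Δ hR hi₀
      (i₀, y) rfl hy⟩
  exfalso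
  push Not at hl hp
  have hBge : ∀ b : ℝ, D - Δ ≤ b + 1 → α * s ^ 2 / 2 ≤ b := by
    intro b hb
    rw [hΔ] at hb
    linarith
  have hblk : ∀ (m : Pt F → Prop) [DecidablePred m], Block m →
      D - Δ ≤ (((S.filter (fun z => ¬ m z)).card : ℝ)) + 1 →
      ((S.filter m).card : ℝ) ≤ κ ^ 4 * s := by
    intro m _ hm hb
    have hb' := hBge _ hb
    by_cases h16 : 16 * k ^ 6 ≤ (S.filter m).card
    · have h4 : 4 * k ^ 2 ≤ (S.filter (fun z => ¬ m z)).card := by
        have : ((4 * k ^ 2 : ℕ) : ℝ) ≤ ((S.filter (fun z => ¬ m z)).card : ℝ) := by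
          push_cast; exact le_trans g2 hb'
        exact_mod_cast this
      have h5 := block_pairs R k hkpos hR3 S hSK hm h16 h4
      have h6 : ((S.filter m).card : ℝ) * ((S.filter (fun z => ¬ m z)).card : ℝ)
          ≤ 2 * κ ^ 2 * (EE R S : ℝ) := by rw [hκ]; exact_mod_cast h5
      have h7 : ((S.filter m).card : ℝ) * (α * s ^ 2 / 2) ≤ 6 * κ ^ 3 * s ^ 3 := by
        calc ((S.filter m).card : ℝ) * (α * s ^ 2 / 2)
            ≤ ((S.filter m).card : ℝ) * ((S.filter (fun z => ¬ m z)).card : ℝ) := by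
              apply mul_le_mul_of_nonneg_left hb'; positivity
          _ ≤ 2 * κ ^ 2 * (EE R S : ℝ) := h6
          _ ≤ 2 * κ ^ 2 * (3 * κ * s ^ 3) := by
              apply mul_le_mul_of_nonneg_left hE; positivity
          _ = 6 * κ ^ 3 * s ^ 3 := by ring
      -- 6 κ^3 s^3 ≤ κ^4 s * (α s^2/2)
      have h8 : 6 * κ ^ 3 * s ^ 3 ≤ (κ ^ 4 * s) * (α * s ^ 2 / 2) := by
        have : (κ ^ 4 * s) * (α * s ^ 2 / 2) = (α * κ / 2) * (κ ^ 3 * s ^ 3) := by ring
        rw [this]
        have h9 : 0 ≤ κ ^ 3 * s ^ 3 := by positivity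
        have h11 := mul_le_mul_of_nonneg_right (show 6 ≤ α * κ / 2 by linarith) h9
        linarith
      have h10 : 0 < α * s ^ 2 / 2 := by positivity
      exact le_of_mul_le_mul_right (le_trans h7 h8) h10
    · push Not at h16
      have : ((S.filter m).card : ℝ) ≤ 16 * κ ^ 6 := by
        have : ((S.filter m).card : ℝ) ≤ ((16 * k ^ 6 : ℕ) : ℝ) := by exact_mod_cast h16.le
        push_cast at this
        exact this
      refine le_trans this ?_
      calc 16 * κ ^ 6 = κ ^ 4 * (16 * κ ^ 2) := by ring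
        _ ≤ κ ^ 4 * s := mul_le_mul_of_nonneg_left f6 (by positivity)
  have hline : ∀ l : Ln F, ((S.filter (fun z => On z l)).card : ℝ) ≤ κ ^ 4 * s :=
    fun l => hblk _ (block_line l) (hl l)
  have hposn : ∀ i : Option F, ((S.filter (fun z => z.1 = i)).card : ℝ) ≤ κ ^ 4 * s :=
    fun i => hblk _ (block_pos i) (hp i)
  have hSge : α * s ^ 2 / 2 ≤ (S.card : ℝ) := by
    refine le_trans (hBge _ (hp none)) ?_
    exact_mod_cast Finset.card_le_card (Finset.filter_subset _ _)
  set M := ⌊κ ^ 4 * s⌋₊ with hM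
  have hM1 : (M : ℝ) ≤ κ ^ 4 * s := Nat.floor_le (by positivity)
  have hMS : 16 * k ^ 6 * M ≤ S.card := by
    have : ((16 * k ^ 6 * M : ℕ) : ℝ) ≤ (S.card : ℝ) := by
      push_cast
      calc 16 * κ ^ 6 * (M : ℝ) ≤ 16 * κ ^ 6 * (κ ^ 4 * s) := by
            apply mul_le_mul_of_nonneg_left hM1; positivity
        _ = (16 * κ ^ 10) * s := by ring
        _ ≤ (α * s / 2) * s := by
            apply mul_le_mul_of_nonneg_right _ hs0
            have : (0:ℝ) ≤ κ ^ 10 := by positivity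
            linarith
        _ = α * s ^ 2 / 2 := by ring
        _ ≤ S.card := hSge
    exact_mod_cast this
  have h4S : 4 * k ^ 2 ≤ S.card := by
    have : ((4 * k ^ 2 : ℕ) : ℝ) ≤ (S.card : ℝ) := by
      push_cast; exact le_trans g2 hSge
    exact_mod_cast this
  have hP := pairs_ge' R k hkpos hR3 S S M hSK hSK
    (fun u _ => Nat.le_floor (hposn u.1)) (fun l u _ _ => Nat.le_floor (hline l)) hMS h4S
  set P := ((S ×ˢ S).filter (fun p => p.1.1 ≠ p.2.1 ∧ Avoids (Kset R) (thru p.1 p.2))) with hPdef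
  have hPge : α ^ 2 * s ^ 4 / (8 * κ ^ 2) ≤ (P.card : ℝ) := by
    have h1 : (S.card : ℝ) * (S.card : ℝ) ≤ 2 * κ ^ 2 * (P.card : ℝ) := by
      rw [hκ]; exact_mod_cast hP
    have h2 : (α * s ^ 2 / 2) * (α * s ^ 2 / 2) ≤ (S.card : ℝ) * (S.card : ℝ) :=
      mul_le_mul hSge hSge (by positivity) (by positivity)
    rw [div_le_iff₀ (by positivity)]
    have h3 : (α * s ^ 2 / 2) * (α * s ^ 2 / 2) = α ^ 2 * s ^ 4 / 4 := by ring
    linarith
  -- poor pairs
  set L : ℕ := k ^ 4 with hL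
  have hLr : (L : ℝ) = κ ^ 4 := by rw [hL]; push_cast; rfl
  set poor := ((S ×ˢ S).filter (fun p => p.1.1 ≠ p.2.1 ∧ Avoids (Kset R) (thru p.1 p.2) ∧
      (nn S (thru p.1 p.2) : ℝ) < s / κ ^ 4)) with hpoor
  have hpoorle : (poor.card : ℝ) ≤ 3 * s ^ 4 / κ ^ 3 := by
    have h1 := poor_le R S (s / κ ^ 4) (by positivity)
    refine le_trans h1 ?_
    calc s / κ ^ 4 * (EE R S : ℝ) ≤ s / κ ^ 4 * (3 * κ * s ^ 3) := by
          apply mul_le_mul_of_nonneg_left hE; positivity
      _ = 3 * s ^ 4 / κ ^ 3 := by field_simp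
  set rich := ((S ×ˢ S).filter (fun p => p.1.1 ≠ p.2.1 ∧
        Real.sqrt (ord F) ≤ L * ((S.filter (fun z => On z (thru p.1 p.2))).card : ℝ))) with hrich
  have hunion : P ⊆ poor ∪ rich := by
    intro p hp
    rw [hPdef, Finset.mem_filter] at hp
    rw [Finset.mem_union, hpoor, hrich, Finset.mem_filter, Finset.mem_filter]
    by_cases h : (nn S (thru p.1 p.2) : ℝ) < s / κ ^ 4
    · exact Or.inl ⟨hp.1, hp.2.1, hp.2.2, h⟩
    · right
      refine ⟨hp.1, hp.2.1, ?_⟩
      rw [not_lt, div_le_iff₀ (by positivity)] at h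
      rw [hLr, mul_comm]
      exact h
  have hcards : (P.card : ℝ) ≤ (poor.card : ℝ) + (rich.card : ℝ) := by
    exact_mod_cast le_trans (Finset.card_le_card hunion) (Finset.card_union_le _ _)
  have hfin : (ord F : ℝ) ^ 2 ≤ L * (rich.card : ℝ) := by
    rw [hLr, ← hs2]
    have h1 : α ^ 2 * s ^ 4 / (8 * κ ^ 2) - 3 * s ^ 4 / κ ^ 3 ≤ (rich.card : ℝ) := by linarith
    have h2 : κ ^ 4 * (α ^ 2 * s ^ 4 / (8 * κ ^ 2) - 3 * s ^ 4 / κ ^ 3)
        = s ^ 4 * (κ * (α ^ 2 * κ / 8 - 3)) := by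
      field_simp
    calc (s ^ 2) ^ 2 = s ^ 4 * 1 := by ring
      _ ≤ s ^ 4 * (κ * (α ^ 2 * κ / 8 - 3)) := by
          apply mul_le_mul_of_nonneg_left _ (by positivity)
          exact one_le_mul_of_one_le_of_one_le hκ1 (by linarith)
      _ = κ ^ 4 * (α ^ 2 * s ^ 4 / (8 * κ ^ 2) - 3 * s ^ 4 / κ ^ 3) := h2.symm
      _ ≤ κ ^ 4 * (rich.card : ℝ) := mul_le_mul_of_nonneg_left h1 (by positivity)
  have hL2 : 2 ≤ L := by
    rw [hL]
    have hk2 : 2 ≤ k := by
      have : (2:ℝ) ≤ (k:ℝ) := by rw [← hκ]; linarith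
      exact_mod_cast this
    calc 2 ≤ k := hk2
      _ = k ^ 1 := (pow_one k).symm
      _ ≤ k ^ 4 := Nat.pow_le_pow_right hkpos (by norm_num)
  have hconc := hBKT F hsq L hL2 S hScard (by intro l; rw [hLr]; exact hline l)
    (by intro i; rw [hLr]; exact hposn i) hfin
  have hk2 : 1 < k := by
    have : (1:ℝ) < (k:ℝ) := by rw [← hκ]; linarith
    exact_mod_cast this
  exact hfinal hk2 hconc

end Stab

end Crest.Agent.R034
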