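import Crest.Agent.R034.Defs

/-! Basic lemmas about the plane model. -/

set_option autoImplicit false

namespace Crest.Agent.R034

open Finset

variable {F : Type} [Field F]

@[simp] theorem val_none (l : Ln F) : val l none = l.1 := rfl
@[simp] theorem val_some (l : Ln F) (x : F) : val l (some x) = l.1 * x + l.2 := rfl

theorem on_iff (z : Pt F) (l : Ln F) : On z l ↔ val l z.1 = z.2 := Iff.rfl

theorem on_mk (l : Ln F) (i : Option F) : On (i, val l i) l := rfl

theorem on_mk_iff (l : Ln F) (i : Option F) (y : F) : On (i, y) l ↔ val l i = y := Iff.rfl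

theorem eq_of_val_eq {l l' : Ln F} {i j : Option F} (hij : i ≠ j)
    (hi : val l i = val l' i) (hj : val l j = val l' j) : l = l' := by
  obtain ⟨m, b⟩ := l
  obtain ⟨m', b'⟩ := l'
  rcases i with _ | x <;> rcases j with _ | y
  · exact absurd rfl hij
  · simp only [val_none, val_some] at hi hj
    subst hi
    simpa using hj
  · simp only [val_none, val_some] at hi hj
    subst hj
    simpa using hi
  · simp only [val_some] at hi hj
    have hxy : x - y ≠ 0 := sub_ne_zero.mpr (fun h => hij (by rw [h]))
    have h1 : (m - m') * (x - y) = 0 := by linear_combination hi - hj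
    have h2 : m = m' := by
      rcases mul_eq_zero.mp h1 with h | h
      · exact sub_eq_zero.mp h
      · exact absurd h hxy
    subst h2
    simpa using hi

theorem on_thru_left {a b : Pt F} (h : a.1 ≠ b.1) : On a (thru a b) := by
  obtain ⟨a1, a2⟩ := a
  obtain ⟨b1, b2⟩ := b
  rcases a1 with _ | x <;> rcases b1 with _ | y
  · exact absurd rfl h
  · simp [On, thru]
  · simp [On, thru]
  · simp [On, thru]

theorem on_thru_right {a b : Pt F} (h : a.1 ≠ b.1) : On b (thru a b) := by
  obtain ⟨a1, a2⟩ := a
  obtain ⟨b1, b2⟩ := b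
  rcases a1 with _ | x <;> rcases b1 with _ | y
  · exact absurd rfl h
  · simp [On, thru]
  · simp [On, thru]
  · have hxy : y - x ≠ 0 := sub_ne_zero.mpr (fun h' => h (by simp [h']))
    simp only [On, thru, val_some]
    field_simp
    ring

theorem val_thru_left {a b : Pt F} (h : a.1 ≠ b.1) : val (thru a b) a.1 = a.2 := on_thru_left h
theorem val_thru_right {a b : Pt F} (h : a.1 ≠ b.1) : val (thru a b) b.1 = b.2 := on_thru_right h

theorem val_thru_right' {a : Pt F} {j : Option F} {y : F} (h : a.1 ≠ j) :
    val (thru a (j, y)) j = y := val_thru_right (b := (j, y)) h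

theorem eq_of_on {a b : Pt F} {l l' : Ln F} (h : a.1 ≠ b.1) (ha : On a l) (ha' : On a l')
    (hb : On b l) (hb' : On b l') : l = l' :=
  eq_of_val_eq h (ha.trans ha'.symm) (hb.trans hb'.symm)

theorem eq_thru {a b : Pt F} {l : Ln F} (h : a.1 ≠ b.1) (ha : On a l) (hb : On b l) :
    l = thru a b := eq_of_on h ha (on_thru_left h) hb (on_thru_right h)

theorem thru_comm {a b : Pt F} (h : a.1 ≠ b.1) : thru a b = thru b a :=
  eq_thru h.symm (on_thru_right h) (on_thru_left h)

theorem pos_ne_of_on {a b : Pt F} {l : Ln F} (ha : On a l) (hb : On b l) (h : a ≠ b) :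
    a.1 ≠ b.1 := by
  intro h'
  apply h
  apply Prod.ext h'
  rw [← ha, ← hb, h']

theorem thru_val {z : Pt F} {l : Ln F} {j : Option F} (h : z.1 ≠ j) (hz : On z l) :
    thru z (j, val l j) = l := (eq_thru (b := (j, val l j)) h hz rfl).symm

/-- any two lines meet -/
theorem exists_val_eq (l l' : Ln F) : ∃ i, val l i = val l' i := by
  by_cases h : l.1 = l'.1
  · exact ⟨none, h⟩
  · refine ⟨some ((l'.2 - l.2) / (l.1 - l'.1)), ?_⟩
    have h' : l.1 - l'.1 ≠ 0 := sub_ne_zero.mpr h
    simp only [val_some]
    field_simp
    ring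

theorem pos_unique {l l' : Ln F} (h : l ≠ l') {i j : Option F} (hi : val l i = val l' i)
    (hj : val l j = val l' j) : i = j := by
  by_contra hij
  exact h (eq_of_val_eq hij hi hj)

/-- `y ↦ val (thru z (j,y)) i` is injective for `i ≠ z.1` -/
theorem val_thru_injective {z : Pt F} {i j : Option F} (hi : i ≠ z.1) (hj : j ≠ z.1) :
    Function.Injective (fun y : F => val (thru z (j, y)) i) := by
  intro y y' h
  have hj' : z.1 ≠ j := fun h => hj h.symm
  have : thru z (j, y) = thru z (j, y') :=
    eq_of_val_eq (Ne.symm hi) ((val_thru_left (b := (j, y)) hj').trans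
      (val_thru_left (b := (j, y')) hj').symm) h
  have h2 := val_thru_right' (a := z) (y := y) hj'
  rw [this, val_thru_right' hj'] at h2
  exact h2.symm

variable [Fintype F]

theorem val_thru_bijective {z : Pt F} {i j : Option F} (hi : i ≠ z.1) (hj : j ≠ z.1) :
    Function.Bijective (fun y : F => val (thru z (j, y)) i) :=
  Finite.injective_iff_bijective.mp (val_thru_injective hi hj)

variable [DecidableEq F]

/-- the lines through `z`, parametrized by the value in another position -/
theorem filter_on_eq_image (z : Pt F) {j : Option F} (h : z.1 ≠ j) :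
    univ.filter (fun l : Ln F => On z l) = univ.image (fun y : F => thru z (j, y)) := by
  ext l
  simp only [mem_filter, mem_univ, true_and, mem_image]
  constructor
  · intro hl
    exact ⟨val l j, thru_val h hl⟩
  · rintro ⟨y, rfl⟩
    exact on_thru_left (b := (j, y)) h

omit [Fintype F] [DecidableEq F] in
theorem thru_injective (z : Pt F) {j : Option F} (h : z.1 ≠ j) :
    Function.Injective (fun y : F => thru z (j, y)) := by
  intro y y' hy
  have h1 := val_thru_right' (a := z) (y := y) h
  simp only at hy
  rw [hy, val_thru_right' h] at h1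
  exact h1.symm

omit [Fintype F] [DecidableEq F] in
theorem exists_pos_ne (i : Option F) : ∃ j : Option F, i ≠ j := by
  rcases i with _ | x
  · exact ⟨some 0, by simp⟩
  · exact ⟨none, by simp⟩

theorem card_lines_through (z : Pt F) :
    (univ.filter (fun l : Ln F => On z l)).card = ord F := by
  obtain ⟨j, hj⟩ := exists_pos_ne z.1
  rw [filter_on_eq_image z hj, card_image_of_injective _ (thru_injective z hj)]
  rfl

/-- lines through `z` with a property, counted by the parameter `y` -/
theorem card_filter_through (z : Pt F) {j : Option F} (h : z.1 ≠ j) (P : Ln F → Prop)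
    [DecidablePred P] :
    (univ.filter (fun l : Ln F => On z l ∧ P l)).card
      = (univ.filter (fun y : F => P (thru z (j, y)))).card := by
  rw [← card_image_of_injective (univ.filter (fun y : F => P (thru z (j, y))))
    (thru_injective z h)]
  congr 1
  ext l
  simp only [mem_filter, mem_univ, true_and, mem_image]
  constructor
  · rintro ⟨hl, hP⟩
    exact ⟨val l j, by rwa [thru_val h hl], thru_val h hl⟩
  · rintro ⟨y, hy, rfl⟩
    exact ⟨on_thru_left (b := (j, y)) h, hy⟩

/-- the points of a line -/
def pts (l : Ln F) : Finset (Pt F) := univ.image (fun i : Option F => (i, val l i))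

theorem mem_pts {l : Ln F} {z : Pt F} : z ∈ pts l ↔ On z l := by
  simp only [pts, mem_image, mem_univ, true_and]
  constructor
  · rintro ⟨i, rfl⟩
    rfl
  · intro h
    exact ⟨z.1, Prod.ext rfl h⟩

theorem card_pts (l : Ln F) : (pts l).card = ord F + 1 := by
  rw [pts, card_image_of_injective]
  · simp [Fintype.card_option]
  · intro i j h
    exact (Prod.ext_iff.mp h).1

omit [Field F] [DecidableEq F] in
theorem card_Pt : Fintype.card (Pt F) = (ord F + 1) * ord F := by
  simp [Pt, Fintype.card_prod, Fintype.card_option]

omit [Field F] [DecidableEq F] in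
theorem card_Ln : Fintype.card (Ln F) = ord F * ord F := by
  simp [Ln, Fintype.card_prod]

omit [Field F] in
theorem mem_Kset {R : RR F} {z : Pt F} : z ∈ Kset R ↔ ∃ r, R z.1 r = z.2 := by
  simp [Kset]

omit [Field F] in
theorem main_mem_Kset (R : RR F) (i : Option F) : (i, R i 0) ∈ Kset R :=
  mem_Kset.mpr ⟨0, rfl⟩

omit [Field F] in
theorem card_Kset_pos_le (R : RR F) (i : Option F) :
    ((Kset R).filter (fun z => z.1 = i)).card ≤ kap := by
  have h : (Kset R).filter (fun z => z.1 = i) ⊆ univ.image (fun r : Fin kap => (i, R i r)) := by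
    intro z hz
    simp only [mem_filter, mem_Kset] at hz
    obtain ⟨⟨r, hr⟩, hi⟩ := hz
    simp only [mem_image, mem_univ, true_and]
    refine ⟨r, ?_⟩
    subst hi
    exact Prod.ext rfl hr
  calc _ ≤ (univ.image (fun r : Fin kap => (i, R i r))).card := card_le_card h
    _ ≤ (univ : Finset (Fin kap)).card := card_image_le
    _ = kap := by simp

theorem mem_hits {R : RR F} {l : Ln F} {i j : Option F} :
    j ∈ hits R l i ↔ j ≠ i ∧ (j, val l j) ∈ Kset R := by
  simp [hits]

theorem mem_mhits {R : RR F} {l : Ln F} {i j : Option F} :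
    j ∈ mhits R l i ↔ j ≠ i ∧ val l j = R j 0 := by
  simp [mhits]

/-- two distinct lines share at most one point: number of positions of agreement -/
theorem card_agree_le {l l' : Ln F} (h : l ≠ l') :
    (univ.filter (fun i : Option F => val l i = val l' i)).card ≤ 1 := by
  rw [card_le_one]
  intro i hi j hj
  simp only [mem_filter, mem_univ, true_and] at hi hj
  exact pos_unique h hi hj

end Crest.Agent.R034
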