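import Crest.Agent.R034.WDefs
import Crest.Agent.R034.Plane
import Crest.Agent.R034.FirstMoment

set_option autoImplicit false

/-! M11b: `SpecW2` (first moment for the flags). helper615 -/

open Finset

namespace Crest.Agent.R034

namespace W2

variable {F : Type} [Field F] [Fintype F] [DecidableEq F]

/-- `v` is a special point of gadget `i` -/
def Sp (R : RR F) (X : Option F → Bool → Ln F) (i : Option F) (v : Pt F) : Prop :=
  v = mp R i ∨ ∃ s a, v = vp R X i s a

/-- `u` is designated for `v` in gadget `i` with parameters `t` -/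
def Des (R : RR F) (X : Option F → Bool → Ln F) (i : Option F) (t : Fin 9 → F)
    (v : Pt F) (u : Ln F) : Prop :=
  (v = mp R i ∧ ∃ c : Fin 9, c ≠ 8 ∧ u = thru (mp R i) (W R X i t true c)) ∨
    (∃ s a, v = vp R X i s a ∧ ∃ c : Fin 9, c ≠ a ∧ u = thru (vp R X i s a) (W R X i t s c))

theorem mem_UU {R : RR F} {X : Option F → Bool → Ln F} {y : Option F → Fin 9 → F} {v : Pt F}
    {u : Ln F} : u ∈ UU R X y v ↔ ∃ i, Des R X i (y i) v u := by
  unfold UU Des
  simp only [mem_filter, mem_univ, true_and]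
  constructor
  · rintro (⟨i, h⟩ | ⟨i, s, a, h⟩)
    · exact ⟨i, Or.inl h⟩
    · exact ⟨i, Or.inr ⟨s, a, h⟩⟩
  · rintro ⟨i, h | ⟨s, a, h⟩⟩
    · exact Or.inl ⟨i, h⟩
    · exact Or.inr ⟨i, s, a, h⟩

theorem Des.sp {R : RR F} {X : Option F → Bool → Ln F} {i : Option F} {t : Fin 9 → F}
    {v : Pt F} {u : Ln F} (h : Des R X i t v u) : Sp R X i v := by
  rcases h with ⟨h, _⟩ | ⟨s, a, h, _⟩
  · exact Or.inl h
  · exact Or.inr ⟨s, a, h⟩

section geom

variable {R : RR F} {X : Option F → Bool → Ln F} (gx : GoodX R X)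

include gx

theorem hpos_mem (i : Option F) (s : Bool) (a : Fin 9) :
    hpos R X i s a ∈ hits R (X i s) i := by
  unfold hpos
  rw [dif_pos (gx.nine i s)]
  exact Subtype.prop _

theorem hpos_ne (i : Option F) (s : Bool) (a : Fin 9) : hpos R X i s a ≠ i :=
  (mem_hits.1 (hpos_mem gx i s a)).1

theorem hpos_inj (i : Option F) (s : Bool) {a b : Fin 9} (h : hpos R X i s a = hpos R X i s b) :
    a = b := by
  unfold hpos at h
  rw [dif_pos (gx.nine i s), dif_pos (gx.nine i s)] at h
  exact (((hits R (X i s) i).equivFinOfCardEq (gx.nine i s)).symm).injective (Subtype.ext h)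

theorem vp_Kset (i : Option F) (s : Bool) (a : Fin 9) : vp R X i s a ∈ Kset R :=
  (mem_hits.1 (hpos_mem gx i s a)).2

omit gx in
theorem vp_on (i : Option F) (s : Bool) (a : Fin 9) : On (vp R X i s a) (X i s) := rfl

theorem mp_on (i : Option F) (s : Bool) : On (mp R i) (X i s) := gx.on_main i s

theorem Sp.on {i : Option F} {v : Pt F} (h : Sp R X i v) :
    On v (X i true) ∨ On v (X i false) := by
  rcases h with rfl | ⟨s, a, rfl⟩
  · exact Or.inl (mp_on gx i true)
  · cases s
    · exact Or.inr (vp_on i false a)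
    · exact Or.inl (vp_on i true a)

theorem Sp.mem {i : Option F} {v : Pt F} (h : Sp R X i v) : v ∈ Kset R := by
  rcases h with rfl | ⟨s, a, rfl⟩
  · exact main_mem_Kset R i
  · exact vp_Kset gx i s a

theorem Sp.unique {i j : Option F} {v : Pt F} (h : Sp R X i v) (h' : Sp R X j v) : i = j := by
  by_contra hij
  rcases h with rfl | ⟨s, a, rfl⟩
  · rcases h' with h' | ⟨s', a', h'⟩
    · exact hij (congrArg Prod.fst h')
    · have h1 : i = hpos R X j s' a' := congrArg Prod.fst h'
      have h2 : R i 0 = val (X j s') (hpos R X j s' a') := congrArg Prod.snd h'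
      rw [← h1] at h2
      exact gx.no_main j s' i hij h2.symm
  · rcases h' with h' | ⟨s', a', h'⟩
    · have h1 : hpos R X i s a = j := congrArg Prod.fst h'
      have h2 : val (X i s) (hpos R X i s a) = R j 0 := congrArg Prod.snd h'
      rw [h1] at h2
      exact gx.no_main i s j (Ne.symm hij) h2
    · have h1 : hpos R X i s a = hpos R X j s' a' := congrArg Prod.fst h'
      have h2 : val (X i s) (hpos R X i s a) = val (X j s') (hpos R X j s' a') :=
        congrArg Prod.snd h'
      rw [← h1] at h2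
      exact gx.priv i s j s' _ hij h2 (vp_Kset gx i s a)

/-- number of special points of gadget `i` on a non-altered line -/
theorem card_sp_line {i : Option F} {l : Ln F} (hl : ∀ s, X i s ≠ l) (S : Finset (Pt F))
    (hS : ∀ v ∈ S, Sp R X i v ∧ On v l) : S.card ≤ 2 := by
  classical
  have hsub : S ⊆ S.filter (fun v => On v (X i true)) ∪ S.filter (fun v => On v (X i false)) := by
    intro v hv
    rw [mem_union, mem_filter, mem_filter]
    rcases (hS v hv).1.on gx with h | h
    · exact Or.inl ⟨hv, h⟩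
    · exact Or.inr ⟨hv, h⟩
  have h1 : ∀ s, (S.filter (fun v => On v (X i s))).card ≤ 1 := by
    intro s
    rw [card_le_one]
    intro a ha b hb
    rw [mem_filter] at ha hb
    by_contra hab
    have hne := pos_ne_of_on (hS a ha.1).2 (hS b hb.1).2 hab
    exact hl s (eq_of_on hne ha.2 (hS a ha.1).2 hb.2 (hS b hb.1).2)
  calc S.card ≤ _ := card_le_card hsub
    _ ≤ _ := card_union_le _ _
    _ ≤ 2 := by have := h1 true; have := h1 false; omega

/-- number of special points of gadget `j` in a position -/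
theorem card_sp_pos {i j : Option F} (S : Finset (Pt F))
    (hS : ∀ v ∈ S, Sp R X j v ∧ v.1 = i) : S.card ≤ 2 := by
  classical
  have hsub : S ⊆ {(i, val (X j true) i), (i, val (X j false) i)} := by
    intro v hv
    obtain ⟨h1, h2⟩ := hS v hv
    simp only [mem_insert, mem_singleton]
    rcases h1.on gx with h | h
    · left; rw [← h2]; exact Prod.ext rfl h.symm
    · right; rw [← h2]; exact Prod.ext rfl h.symm
  exact (card_le_card hsub).trans card_le_two

/-- the representations of a designated line: `inl c` = main point, slot `c`;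
`inr (s,a,c)` = special point `(s,a)`, slot `c`. -/
abbrev Rep := Fin 9 ⊕ (Bool × Fin 9 × Fin 9)

omit gx in
theorem card_Rep : Fintype.card Rep = 171 := by
  simp [Rep]

/-- the event that the designated line of representation `ρ` goes through `z` -/
def Ev (R : RR F) (X : Option F → Bool → Ln F) (i : Option F) (z : Pt F) (ρ : Rep)
    (t : Fin 9 → F) : Prop :=
  match ρ with
  | Sum.inl c => c ≠ 8 ∧ mp R i ≠ z ∧ On z (thru (mp R i) (W R X i t true c))
  | Sum.inr (s, a, c) => c ≠ a ∧ vp R X i s a ≠ z ∧ On z (thru (vp R X i s a) (W R X i t s c))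

/-- the value of the slot `(s,c)` is determined by one coordinate of `t` -/
theorem wv_coord (i : Option F) (s : Bool) (c : Fin 9) (α : F) :
    ∃ m : Fin 9, ∃ β : F, ∀ t : Fin 9 → F, wv R X i t s c = α → t m = β := by
  unfold wv
  cases s
  · refine ⟨c, val (thru (mp R i) (hpos R X i false c, α)) (hpos R X i true c),
        fun t h => ?_⟩
    simp only [Bool.false_eq_true, if_false] at h
    have hne1 : (mp R i).1 ≠ (hpos R X i true c, t c).1 :=
      fun h' => hpos_ne gx i true c h'.symm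
    have hne2 : (mp R i).1 ≠ (hpos R X i false c, α).1 :=
      fun h' => hpos_ne gx i false c h'.symm
    have : thru (mp R i) (hpos R X i true c, t c) =
        thru (mp R i) (hpos R X i false c, α) :=
      eq_of_on (a := mp R i) (b := (hpos R X i false c, α)) hne2 (on_thru_left hne1)
        (on_thru_left hne2) h (on_thru_right hne2)
    rw [← this]
    exact (on_thru_right hne1).symm
  · exact ⟨c, α, fun t h => by simpa using h⟩

theorem thru_coord (i : Option F) (s : Bool) (c : Fin 9) (v z : Pt F) (hvz : v ≠ z)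
    (hv : v.1 ≠ hpos R X i s c) :
    ∃ m : Fin 9, ∃ β : F, ∀ t : Fin 9 → F, On z (thru v (W R X i t s c)) → t m = β := by
  obtain ⟨m, β, h⟩ := wv_coord gx i s c (val (thru v z) (hpos R X i s c))
  refine ⟨m, β, fun t ht => h t ?_⟩
  have h1 : v.1 ≠ (W R X i t s c).1 := hv
  have h2 := on_thru_left h1
  have h3 := on_thru_right h1
  have h4 : v.1 ≠ z.1 := pos_ne_of_on h2 ht hvz
  rw [← eq_thru h4 h2 ht]
  exact h3.symm

theorem Ev_coord (i : Option F) (z : Pt F) (ρ : Rep) :
    ∃ m : Fin 9, ∃ β : F, ∀ t : Fin 9 → F, Ev R X i z ρ t → t m = β := by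
  rcases ρ with c | ⟨s, a, c⟩
  · by_cases h : mp R i ≠ z
    · obtain ⟨m, β, h'⟩ := thru_coord gx i true c (mp R i) z h
        (fun h' => hpos_ne gx i true c h'.symm)
      exact ⟨m, β, fun t ht => h' t ht.2.2⟩
    · exact ⟨0, 0, fun t ht => absurd ht.2.1 h⟩
  · by_cases h : vp R X i s a ≠ z
    · by_cases hca : c = a
      · exact ⟨0, 0, fun t ht => absurd hca ht.1⟩
      · obtain ⟨m, β, h'⟩ := thru_coord gx i s c (vp R X i s a) z h
          (fun h' => hca (hpos_inj gx i s (h' : hpos R X i s a = _)).symm)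
        exact ⟨m, β, fun t ht => h' t ht.2.2⟩
    · exact ⟨0, 0, fun t ht => absurd ht.2.1 h⟩

omit gx in
theorem card_coord (m : Fin 9) (β : F) :
    (univ.filter (fun t : Fin 9 → F => t m = β)).card ≤ ord F ^ 8 := by
  classical
  have h : univ.filter (fun t : Fin 9 → F => t m = β) =
      Fintype.piFinset (fun j => if j = m then ({β} : Finset F) else univ) := by
    ext t
    simp only [mem_filter, mem_univ, true_and, Fintype.mem_piFinset]
    constructor
    · intro ht j
      by_cases hj : j = m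
      · subst hj; simp [ht]
      · simp [hj]
    · intro ht
      simpa using ht m
  rw [h, Fintype.card_piFinset]
  have : ∀ j : Fin 9, (if j = m then ({β} : Finset F) else univ).card =
      if j = m then 1 else ord F := by
    intro j
    by_cases hj : j = m <;> simp [hj, ord]
  rw [prod_congr rfl (fun j _ => this j), prod_ite]
  simp only [prod_const_one, one_mul, prod_const]
  refine Nat.pow_le_pow_right (Fintype.card_pos) ?_
  have : (univ.filter (fun j : Fin 9 => ¬ j = m)).card = 8 := by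
    have h2 : univ.filter (fun j : Fin 9 => ¬ j = m) = univ.erase m := by
      ext j; simp
    rw [h2, card_erase_of_mem (mem_univ m)]
    simp
  exact this.le

open Classical in
/-- number of parameters with a flag at `z` -/
theorem card_flag (i : Option F) (z : Pt F) (S : Set (Pt F)) (hz : z ∉ S) (G : Finset (Fin 9 → F)) :
    (G.filter (fun t => ∃ v ∈ S, ∃ u, Des R X i t v u ∧ On z u)).card ≤ 171 * ord F ^ 8 := by
  have hsub : G.filter (fun t => ∃ v ∈ S, ∃ u, Des R X i t v u ∧ On z u) ⊆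
      (univ : Finset Rep).biUnion (fun ρ => univ.filter (fun t => Ev R X i z ρ t)) := by
    intro t ht
    rw [mem_filter] at ht
    obtain ⟨_, v, hv, u, hd, hz'⟩ := ht
    simp only [mem_biUnion, mem_filter, mem_univ, true_and]
    have hvz : v ≠ z := fun h => hz (h ▸ hv)
    rcases hd with ⟨hvm, c, hc, hu⟩ | ⟨s, a, hvm, c, hc, hu⟩
    · exact ⟨Sum.inl c, hc, hvm ▸ hvz, hu ▸ hz'⟩
    · exact ⟨Sum.inr (s, a, c), hc, hvm ▸ hvz, hu ▸ hz'⟩
  calc _ ≤ _ := card_le_card hsub
    _ ≤ ∑ ρ : Rep, (univ.filter (fun t => Ev R X i z ρ t)).card := card_biUnion_le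
    _ ≤ ∑ ρ : Rep, ord F ^ 8 := by
        refine sum_le_sum fun ρ _ => ?_
        obtain ⟨m, β, h⟩ := Ev_coord gx i z ρ
        refine le_trans (card_le_card ?_) (card_coord m β)
        intro t ht
        simp only [mem_filter, mem_univ, true_and] at ht ⊢
        exact h t ht
    _ = 171 * ord F ^ 8 := by rw [sum_const, card_univ, card_Rep, smul_eq_mul]

/-- gadgets with a special point on `l` -/
noncomputable def Il (R : RR F) (X : Option F → Bool → Ln F) (l : Ln F) : Finset (Option F) := by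
  classical
  exact univ.filter (fun i => ∃ v, Sp R X i v ∧ On v l)

/-- gadgets with a special point in position `i` -/
noncomputable def Ip (R : RR F) (X : Option F → Bool → Ln F) (i : Option F) :
    Finset (Option F) := by
  classical
  exact univ.filter (fun j => ∃ v, Sp R X j v ∧ v.1 = i)

theorem card_Il (l : Ln F) :
    (Il R X l).card ≤ (univ.filter (fun j => (j, val l j) ∈ Kset R)).card := by
  classical
  have h : ∀ i ∈ Il R X l, ∃ v, Sp R X i v ∧ On v l := by
    intro i hi
    simpa [Il] using hi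
  choose! v hv using h
  refine card_le_card_of_injOn (fun i => (v i).1) ?_ ?_
  · intro i hi
    obtain ⟨h1, h2⟩ := hv i hi
    simp only [coe_filter, mem_univ, true_and, Set.mem_ofPred_eq]
    have : ((v i).1, val l (v i).1) = v i := Prod.ext rfl h2
    rw [this]
    exact h1.mem gx
  · intro i hi j hj hij
    have hi' := hv i hi
    have hj' := hv j hj
    have : v i = v j := by
      by_contra hne
      exact pos_ne_of_on hi'.2 hj'.2 hne hij
    rw [this] at hi'
    exact hi'.1.unique gx hj'.1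

theorem card_Ip (i : Option F) : (Ip R X i).card ≤ kap := by
  classical
  have h : ∀ j ∈ Ip R X i, ∃ v, Sp R X j v ∧ v.1 = i := by
    intro j hj
    simpa [Ip] using hj
  choose! v hv using h
  refine le_trans ?_ (card_Kset_pos_le R i)
  refine card_le_card_of_injOn v ?_ ?_
  · intro j hj
    obtain ⟨h1, h2⟩ := hv j hj
    simp only [coe_filter, Set.mem_ofPred_eq]
    exact ⟨h1.mem gx, h2⟩
  · intro j hj j' hj' hjj
    have h1 := (hv j hj).1
    rw [hjj] at h1
    exact h1.unique gx (hv j' hj').1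

open Classical in
/-- from flags to bad gadgets (line case) -/
theorem flags_le {l : Ln F} (hl : ∀ i s, X i s ≠ l) (y : Option F → Fin 9 → F) (z : Pt F) :
    flags (KK R X) (UU R X y) l z ≤ 2 * ((Il R X l).filter (fun i =>
      ∃ v ∈ {v : Pt F | On v l}, ∃ u, Des R X i (y i) v u ∧ On z u)).card := by
  set Bad := (Il R X l).filter (fun i =>
      ∃ v ∈ {v : Pt F | On v l}, ∃ u, Des R X i (y i) v u ∧ On z u) with hBad
  have hsub : (KK R X).filter (fun v => On v l ∧ ∃ u ∈ UU R X y v, On z u) ⊆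
      Bad.biUnion (fun i => univ.filter (fun v => Sp R X i v ∧ On v l)) := by
    intro v hv
    rw [mem_filter] at hv
    obtain ⟨_, hvl, u, hu, hzu⟩ := hv
    obtain ⟨i, hd⟩ := mem_UU.1 hu
    simp only [mem_biUnion, mem_filter, mem_univ, true_and]
    refine ⟨i, ?_, hd.sp, hvl⟩
    rw [hBad, mem_filter]
    refine ⟨?_, v, hvl, u, hd, hzu⟩
    simp only [Il, mem_filter, mem_univ, true_and]
    exact ⟨v, hd.sp, hvl⟩
  unfold flags
  calc _ = ((KK R X).filter (fun v => On v l ∧ ∃ u ∈ UU R X y v, On z u)).card := by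
          congr 1
    _ ≤ _ := card_le_card hsub
    _ ≤ ∑ i ∈ Bad, (univ.filter (fun v => Sp R X i v ∧ On v l)).card := card_biUnion_le
    _ ≤ ∑ i ∈ Bad, 2 := by
        refine sum_le_sum fun i _ => card_sp_line gx (hl i) _ fun v hv => ?_
        simpa using hv
    _ = 2 * Bad.card := by rw [sum_const, smul_eq_mul, mul_comm]

open Classical in
/-- from flags to bad gadgets (position case) -/
theorem pflags_le (i : Option F) (y : Option F → Fin 9 → F) (z : Pt F) :
    pflags (KK R X) (UU R X y) i z ≤ 2 * ((Ip R X i).filter (fun j =>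
      ∃ v ∈ {v : Pt F | v.1 = i}, ∃ u, Des R X j (y j) v u ∧ On z u)).card := by
  set Bad := (Ip R X i).filter (fun j =>
      ∃ v ∈ {v : Pt F | v.1 = i}, ∃ u, Des R X j (y j) v u ∧ On z u) with hBad
  have hsub : (KK R X).filter (fun v => v.1 = i ∧ ∃ u ∈ UU R X y v, On z u) ⊆
      Bad.biUnion (fun j => univ.filter (fun v => Sp R X j v ∧ v.1 = i)) := by
    intro v hv
    rw [mem_filter] at hv
    obtain ⟨_, hvl, u, hu, hzu⟩ := hv
    obtain ⟨j, hd⟩ := mem_UU.1 hu
    simp only [mem_biUnion, mem_filter, mem_univ, true_and]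
    refine ⟨j, ?_, hd.sp, hvl⟩
    rw [hBad, mem_filter]
    refine ⟨?_, v, hvl, u, hd, hzu⟩
    simp only [Ip, mem_filter, mem_univ, true_and]
    exact ⟨v, hd.sp, hvl⟩
  unfold pflags
  calc _ = ((KK R X).filter (fun v => v.1 = i ∧ ∃ u ∈ UU R X y v, On z u)).card := by
          congr 1
    _ ≤ _ := card_le_card hsub
    _ ≤ ∑ j ∈ Bad, (univ.filter (fun v => Sp R X j v ∧ v.1 = i)).card := card_biUnion_le
    _ ≤ ∑ j ∈ Bad, 2 := by
        refine sum_le_sum fun j _ => ?_
        refine card_sp_pos gx (i := i) (j := j) _ (fun v hv => ?_)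
        simpa using hv
    _ = 2 * Bad.card := by rw [sum_const, smul_eq_mul, mul_comm]

open Classical in
/-- bad configurations, line case -/
noncomputable def TT1 (R : RR F) (X : Option F → Bool → Ln F) :
    Finset (Ln F × Pt F × Finset (Option F)) :=
  ((univ : Finset (Ln F)) ×ˢ (univ : Finset (Pt F)) ×ˢ (univ : Finset (Finset (Option F)))).filter
      (fun t => ¬ On t.2.1 t.1 ∧ t.2.2 ∈ powersetCard 5 (Il R X t.1))

open Classical in
/-- bad configurations, position case -/
noncomputable def TT2 (R : RR F) (X : Option F → Bool → Ln F) :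
    Finset (Option F × Pt F × Finset (Option F)) :=
  ((univ : Finset (Option F)) ×ˢ (univ : Finset (Pt F)) ×ˢ
      (univ : Finset (Finset (Option F)))).filter
      (fun t => t.2.1.1 ≠ t.1 ∧ t.2.2 ∈ powersetCard 4 (Ip R X t.1))

omit gx in
theorem mem_TT1 {t : Ln F × Pt F × Finset (Option F)} : t ∈ TT1 R X ↔
    ¬ On t.2.1 t.1 ∧ t.2.2 ∈ powersetCard 5 (Il R X t.1) := by
  simp [TT1]

omit gx in
theorem mem_TT2 {t : Option F × Pt F × Finset (Option F)} : t ∈ TT2 R X ↔
    t.2.1.1 ≠ t.1 ∧ t.2.2 ∈ powersetCard 4 (Ip R X t.1) := by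
  simp [TT2]

theorem card_TT1 {k : ℕ} (hR5 : R5 R k) (hq1 : (1 : ℝ) ≤ ord F) :
    ((TT1 R X).card : ℝ) ≤ 2 * (ord F : ℝ) ^ 4 * (k : ℝ) ^ 5 := by
  classical
  have hqpos : (0 : ℝ) < ord F := by linarith
  have h1 : TT1 R X ⊆ ((univ : Finset (Ln F)) ×ˢ (univ : Finset (Pt F))).biUnion
      (fun p => (powersetCard 5 (Il R X p.1)).image (fun J => (p.1, p.2, J))) := by
    intro t ht
    rw [mem_TT1] at ht
    simp only [mem_biUnion, mem_image]
    exact ⟨(t.1, t.2.1), by simp, t.2.2, ht.2, rfl⟩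
  have h2 : (TT1 R X).card ≤
      ∑ p ∈ ((univ : Finset (Ln F)) ×ˢ (univ : Finset (Pt F))), k ^ 5 := by
    refine (card_le_card h1).trans (card_biUnion_le.trans (sum_le_sum fun p _ => ?_))
    refine card_image_le.trans ?_
    rw [card_powersetCard]
    refine (Nat.choose_le_pow _ _).trans ?_
    exact Nat.pow_le_pow_left ((card_Il gx p.1).trans (hR5 p.1)) 5
  have h3 : ∑ p ∈ ((univ : Finset (Ln F)) ×ˢ (univ : Finset (Pt F))), k ^ 5 =
      (ord F * ord F * ((ord F + 1) * ord F)) * k ^ 5 := by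
    rw [sum_const, smul_eq_mul, card_product, card_univ, card_univ, card_Pt, card_Ln]
  rw [h3] at h2
  have h4 : ((TT1 R X).card : ℝ) ≤ ((ord F : ℝ) * ord F * ((ord F + 1) * ord F)) * (k : ℝ) ^ 5 := by
    exact_mod_cast h2
  refine h4.trans ?_
  refine mul_le_mul_of_nonneg_right ?_ (by positivity)
  nlinarith [mul_nonneg (mul_nonneg (mul_nonneg hqpos.le hqpos.le) hqpos.le) (sub_nonneg.2 hq1)]

theorem card_TT2 (hq1 : (1 : ℝ) ≤ ord F) :
    ((TT2 R X).card : ℝ) ≤ 4 * (ord F : ℝ) ^ 3 * 1000 ^ 4 := by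
  classical
  have hqpos : (0 : ℝ) < ord F := by linarith
  have h1 : TT2 R X ⊆ ((univ : Finset (Option F)) ×ˢ (univ : Finset (Pt F))).biUnion
      (fun p => (powersetCard 4 (Ip R X p.1)).image (fun J => (p.1, p.2, J))) := by
    intro t ht
    rw [mem_TT2] at ht
    simp only [mem_biUnion, mem_image]
    exact ⟨(t.1, t.2.1), by simp, t.2.2, ht.2, rfl⟩
  have h2 : (TT2 R X).card ≤
      ∑ p ∈ ((univ : Finset (Option F)) ×ˢ (univ : Finset (Pt F))), 1000 ^ 4 := by
    refine (card_le_card h1).trans (card_biUnion_le.trans (sum_le_sum fun p _ => ?_))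
    refine card_image_le.trans ?_
    rw [card_powersetCard]
    refine (Nat.choose_le_pow _ _).trans ?_
    exact Nat.pow_le_pow_left (card_Ip gx p.1) 4
  have h3 : ∑ p ∈ ((univ : Finset (Option F)) ×ˢ (univ : Finset (Pt F))), 1000 ^ 4 =
      ((ord F + 1) * ((ord F + 1) * ord F)) * 1000 ^ 4 := by
    rw [sum_const, smul_eq_mul, card_product, card_univ, card_univ, card_Pt,
      Fintype.card_option]
  rw [h3] at h2
  have h4 : ((TT2 R X).card : ℝ) ≤
      (((ord F : ℝ) + 1) * ((ord F + 1) * ord F)) * (1000 : ℝ) ^ 4 := by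
    exact_mod_cast h2
  refine h4.trans ?_
  refine mul_le_mul_of_nonneg_right ?_ (by positivity)
  have e1 : ((ord F : ℝ) + 1) * (ord F + 1) ≤ 4 * (ord F : ℝ) ^ 2 := by nlinarith
  nlinarith [mul_le_mul_of_nonneg_right e1 hqpos.le]

end geom

/-- the numerical estimate -/
theorem num {C q k : ℝ} (hC : 0 < C) (_hk0 : 0 ≤ k)
    (hq : (4 * C ^ 5) ^ 4 + 8 * 1000 ^ 4 * C ^ 4 + 1 < q) (hk : k ^ 20 ≤ q) :
    2 * C ^ 5 * k ^ 5 / q < 1 / 2 ∧ 4 * 1000 ^ 4 * C ^ 4 / q < 1 / 2 := by
  have h8 : (0 : ℝ) ≤ 8 * 1000 ^ 4 * C ^ 4 := by positivity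
  have h45 : (0 : ℝ) ≤ (4 * C ^ 5) ^ 4 := by positivity
  have hq1 : (1 : ℝ) ≤ q := by linarith
  have hqpos : (0 : ℝ) < q := by linarith
  constructor
  · rw [div_lt_iff₀ hqpos]
    by_contra hcon
    push Not at hcon
    have e1 : q ≤ (4 * C ^ 5) * k ^ 5 := by linarith
    have e2 : q ^ 4 ≤ (4 * C ^ 5) ^ 4 * k ^ 20 := by
      calc q ^ 4 ≤ ((4 * C ^ 5) * k ^ 5) ^ 4 := pow_le_pow_left₀ hqpos.le e1 4
        _ = _ := by ring
    have e4 : q ^ 4 ≤ (4 * C ^ 5) ^ 4 * q :=
      e2.trans (mul_le_mul_of_nonneg_left hk h45)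
    have e5 : (4 * C ^ 5) ^ 4 < q := by linarith
    have e6 : (4 * C ^ 5) ^ 4 * q < q * q := mul_lt_mul_of_pos_right e5 hqpos
    have e7 : q * q ≤ q ^ 4 := by
      have h2 : (1 : ℝ) ≤ q ^ 2 := one_le_pow₀ hq1
      have h3 : (q * q) * 1 ≤ (q * q) * q ^ 2 :=
        mul_le_mul_of_nonneg_left h2 (mul_nonneg hqpos.le hqpos.le)
      calc q * q = (q * q) * 1 := by ring
        _ ≤ (q * q) * q ^ 2 := h3
        _ = q ^ 4 := by ring
    linarith
  · rw [div_lt_iff₀ hqpos]
    linarith

end W2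

open W2

set_option maxHeartbeats 1000000 in
theorem specW2 : SpecW2 := by
  intro c hc
  -- constants
  set C : ℝ := 171 / c with hC
  have hCpos : 0 < C := by positivity
  obtain ⟨q0, hq0⟩ := exists_nat_gt ((4 * C ^ 5) ^ 4 + 8 * 1000 ^ 4 * C ^ 4 + 1)
  refine ⟨q0, ?_⟩
  intro F _ _ _ hqF k hk R X hR5 gx G hG
  classical
  set q : ℕ := ord F with hq
  have hq0q : (q0 : ℝ) ≤ q := by exact_mod_cast hqF
  have hq1 : (1 : ℝ) ≤ q := by
    have : (0 : ℝ) ≤ (4 * C ^ 5) ^ 4 := by positivity
    have : (0 : ℝ) ≤ 8 * 1000 ^ 4 * C ^ 4 := by positivity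
    linarith
  have hqpos : (0 : ℝ) < q := by linarith
  have hGne : ∀ i, (G i).Nonempty := by
    intro i
    rw [← card_pos]
    have h1 : (0 : ℝ) < c * (q : ℝ) ^ 9 := by positivity
    have := hG i
    exact_mod_cast lt_of_lt_of_le h1 this
  -- density bound of one gadget
  have hdens : ∀ (i : Option F) (z : Pt F) (S : Set (Pt F)), z ∉ S →
      ∀ (P : (Fin 9 → F) → Prop) (_ : DecidablePred P),
      (∀ t, P t → ∃ v ∈ S, ∃ u, Des R X i t v u ∧ On z u) →
      (((G i).filter P).card : ℝ) ≤ (C / q) * ((G i).card : ℝ) := by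
    intro i z S hz P _ hP
    have h0 : ((G i).filter P).card ≤ 171 * q ^ 8 := by
      refine le_trans (card_le_card ?_) (card_flag gx i z S hz (G i))
      intro t ht
      rw [mem_filter] at ht ⊢
      exact ⟨ht.1, hP t ht.2⟩
    have h1 : (((G i).filter P).card : ℝ) ≤ 171 * (q : ℝ) ^ 8 := by exact_mod_cast h0
    refine h1.trans ?_
    have h2 := mul_le_mul_of_nonneg_left (hG i) (by positivity : (0 : ℝ) ≤ C / q)
    refine le_trans (le_of_eq ?_) h2
    rw [hC]
    field_simp
  -- the bad configurations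
  have hT1card := card_TT1 (X := X) gx hR5 hq1
  have hT2card := card_TT2 (X := X) gx hq1
  rw [← hq] at hT1card hT2card
  -- selection
  obtain ⟨y, hy1, hy2⟩ := exists_avoid (ι := Option F) (α := Fin 9 → F)
    (τ := (Ln F × Pt F × Finset (Option F)) ⊕ (Option F × Pt F × Finset (Option F)))
    G hGne ((TT1 R X).disjSum (TT2 R X))
    (fun t => Sum.elim (fun t => t.2.2) (fun t => t.2.2) t)
    (fun t i p => Sum.elim
      (fun t => ∃ v ∈ {v : Pt F | On v t.1}, ∃ u, Des R X i p v u ∧ On t.2.1 u)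
      (fun t => ∃ v ∈ {v : Pt F | v.1 = t.1}, ∃ u, Des R X i p v u ∧ On t.2.1 u) t)
    (fun _ => C / q)
    (by
      rintro (t | t) ht i hi
      · rw [inl_mem_disjSum, mem_TT1] at ht
        exact hdens i t.2.1 {v : Pt F | On v t.1} ht.1 _ _ (fun _ h => h)
      · rw [inr_mem_disjSum, mem_TT2] at ht
        exact hdens i t.2.1 {v : Pt F | v.1 = t.1} ht.1 _ _ (fun _ h => h))
    (by
      rw [sum_disjSum]
      simp only [Sum.elim_inl, Sum.elim_inr]
      have h1 : ∑ t ∈ TT1 R X, (C / (q : ℝ)) ^ (t.2.2).card ≤ (TT1 R X).card * (C / q) ^ 5 := by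
        rw [← nsmul_eq_mul]
        refine sum_le_card_nsmul _ _ _ fun t ht => ?_
        rw [mem_TT1] at ht
        rw [(mem_powersetCard.1 ht.2).2]
      have h2 : ∑ t ∈ TT2 R X, (C / (q : ℝ)) ^ (t.2.2).card ≤ (TT2 R X).card * (C / q) ^ 4 := by
        rw [← nsmul_eq_mul]
        refine sum_le_card_nsmul _ _ _ fun t ht => ?_
        rw [mem_TT2] at ht
        rw [(mem_powersetCard.1 ht.2).2]
      have h3 : ((TT1 R X).card : ℝ) * (C / q) ^ 5 ≤ 2 * C ^ 5 * (k : ℝ) ^ 5 / q := by
        refine (mul_le_mul_of_nonneg_right hT1card (by positivity)).trans (le_of_eq ?_)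
        field_simp
      have h4 : ((TT2 R X).card : ℝ) * (C / q) ^ 4 ≤ 4 * 1000 ^ 4 * C ^ 4 / q := by
        refine (mul_le_mul_of_nonneg_right hT2card (by positivity)).trans (le_of_eq ?_)
        field_simp
      have hkq : (k : ℝ) ^ 20 ≤ q := by exact_mod_cast hk
      obtain ⟨h5, h6⟩ := num (q := q) hCpos (Nat.cast_nonneg k) (lt_of_lt_of_le hq0 hq0q) hkq
      linarith)
  refine ⟨y, hy1, ?_, ?_⟩
  · intro l hl z hz
    by_contra hcon
    push Not at hcon
    have h1 := flags_le gx hl y z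
    set Bad := (Il R X l).filter (fun i =>
      ∃ v ∈ {v : Pt F | On v l}, ∃ u, Des R X i (y i) v u ∧ On z u) with hBad
    have h5 : 5 ≤ Bad.card := by omega
    obtain ⟨J, hJ, hJc⟩ := exists_subset_card_eq h5
    obtain ⟨i, hi, hni⟩ := hy2 (Sum.inl (l, z, J)) (by
      rw [inl_mem_disjSum, mem_TT1]
      refine ⟨hz, ?_⟩
      rw [mem_powersetCard]
      exact ⟨hJ.trans (filter_subset _ _), hJc⟩)
    simp only [Sum.elim_inl] at hi hni
    have := hJ hi
    rw [hBad, mem_filter] at this
    exact hni this.2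
  · intro i z hz
    by_contra hcon
    push Not at hcon
    have h1 := pflags_le gx i y z
    set Bad := (Ip R X i).filter (fun j =>
      ∃ v ∈ {v : Pt F | v.1 = i}, ∃ u, Des R X j (y j) v u ∧ On z u) with hBad
    have h5 : 4 ≤ Bad.card := by omega
    obtain ⟨J, hJ, hJc⟩ := exists_subset_card_eq h5
    obtain ⟨j, hj, hnj⟩ := hy2 (Sum.inr (i, z, J)) (by
      rw [inr_mem_disjSum, mem_TT2]
      refine ⟨hz, ?_⟩
      rw [mem_powersetCard]
      exact ⟨hJ.trans (filter_subset _ _), hJc⟩)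
    simp only [Sum.elim_inr] at hj hnj
    have := hJ hj
    rw [hBad, mem_filter] at this
    exact hnj this.2

end Crest.Agent.R034
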