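import Crest.Agent.R034.WLocal

/-! # Row 34: local analysis of the gadgets (M11a), part 2: `SpecW2 → SpecW` -/

set_option autoImplicit false

namespace Crest.Agent.R034

open Finset

variable {F : Type} [Field F] [Fintype F] [DecidableEq F]

section

variable {R : RR F} {X : Option F → Bool → Ln F}

theorem mem_KK {v : Pt F} :
    v ∈ KK R X ↔ (∃ i, v = mp R i) ∨ ∃ i s a, v = vp R X i s a := by
  simp [KK]

theorem mp_mem_KK (i : Option F) : mp R i ∈ KK R X := mem_KK.mpr (Or.inl ⟨i, rfl⟩)

theorem pt_mem_KK (i : Option F) (s : Bool) (a : Option (Fin 9)) : pt R X i s a ∈ KK R X := by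
  rcases a with _ | a
  · exact mp_mem_KK i
  · exact mem_KK.mpr (Or.inr ⟨i, s, a, rfl⟩)

/-- validity of a slot for a special point -/
def vld (a : Option (Fin 9)) (c : Fin 9) : Prop := some c ≠ a ∧ (a = none → c ≠ 8)

variable (hX : GoodX R X)

include hX

theorem KK_subset : KK R X ⊆ Kset R := by
  intro v hv
  rcases mem_KK.mp hv with ⟨i, rfl⟩ | ⟨i, s, a, rfl⟩
  · exact main_mem_Kset R i
  · exact vp_mem_Kset hX i s a

theorem X_ne {i : Option F} {s s' : Bool} (h : s ≠ s') : X i s ≠ X i s' := by
  rcases s with _ | _ <;> rcases s' with _ | _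
  · exact absurd rfl h
  · exact (hX.ne i).symm
  · exact hX.ne i
  · exact absurd rfl h

theorem vp_ne_mp (i : Option F) (s : Bool) (a : Fin 9) (i' : Option F) :
    vp R X i s a ≠ mp R i' := by
  intro h
  have h1 : hpos R X i s a = i' := congrArg Prod.fst h
  have h2 : val (X i s) (hpos R X i s a) = R i' 0 := congrArg Prod.snd h
  rw [h1] at h2
  exact hX.no_main i s i' (h1 ▸ hpos_ne hX i s a) h2

/-- a special point on `X i s` is one of the ten -/
theorem exists_pt {v : Pt F} (hv : v ∈ KK R X) {i : Option F} {s : Bool} (h : On v (X i s)) :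
    ∃ a, v = pt R X i s a := by
  rcases mem_KK.mp hv with ⟨i', rfl⟩ | ⟨i', s', a, rfl⟩
  · by_cases hi : i' = i
    · subst hi
      exact ⟨none, rfl⟩
    · exact absurd h (hX.no_main i s i' hi)
  · by_cases hi : i' = i
    · subst hi
      by_cases hs : s' = s
      · subst hs
        exact ⟨some a, rfl⟩
      · exfalso
        apply X_ne hX (i := i') hs
        apply eq_of_on (a := mp R i') (b := vp R X i' s' a)
        · exact (hpos_ne hX i' s' a).symm
        · exact mp_on hX i' s'
        · exact mp_on hX i' s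
        · rfl
        · exact h
    · exact absurd (vp_mem_Kset hX i' s' a) (hX.priv i' s' i s _ hi h.symm)

theorem vp_inj {i : Option F} {s : Bool} {a : Fin 9} {i' : Option F} {s' : Bool} {a' : Fin 9}
    (h : vp R X i s a = vp R X i' s' a') : i = i' ∧ s = s' ∧ a = a' := by
  have hon : On (vp R X i s a) (X i' s') := by
    rw [h]
    rfl
  have hon' : On (vp R X i s a) (X i s) := rfl
  have hi : i = i' := by
    by_contra hne
    exact hX.priv i s i' s' _ hne hon.symm (vp_mem_Kset hX i s a)
  subst hi
  have hs : s = s' := by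
    by_contra hne
    apply X_ne hX (i := i) hne
    exact eq_of_on (a := mp R i) (b := vp R X i s a) (hpos_ne hX i s a).symm (mp_on hX i s)
      (mp_on hX i s') hon' hon
  subst hs
  exact ⟨rfl, rfl, hpos_injective hX i s (congrArg Prod.fst h)⟩

theorem mem_UU_pt {y : Option F → Fin 9 → F} {i : Option F} {s : Bool} {a : Option (Fin 9)}
    {u : Ln F} :
    u ∈ UU R X y (pt R X i s a) ↔ ∃ c, vld a c ∧ u = dl R X i (y i) s a c := by
  simp only [UU, mem_filter, mem_univ, true_and]
  rcases a with _ | a
  · constructor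
    · rintro (⟨i', h, c, hc, rfl⟩ | ⟨i', s', a', h, -⟩)
      · have hi : i = i' := congrArg Prod.fst h
        subst hi
        exact ⟨c, ⟨by simp, fun _ => hc⟩, (dl_none hX i (y i) s c).symm⟩
      · exact absurd h.symm (vp_ne_mp hX i' s' a' i)
    · rintro ⟨c, ⟨-, hc⟩, rfl⟩
      exact Or.inl ⟨i, rfl, c, hc rfl, dl_none hX i (y i) s c⟩
  · constructor
    · rintro (⟨i', h, -⟩ | ⟨i', s', a', h, c, hc, rfl⟩)
      · exact absurd h (vp_ne_mp hX i s a i')
      · obtain ⟨rfl, rfl, rfl⟩ := vp_inj hX h
        exact ⟨c, ⟨by simpa using hc, by simp⟩, rfl⟩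
    · rintro ⟨c, ⟨hc, -⟩, rfl⟩
      exact Or.inr ⟨i, s, a, rfl, c, by simpa using hc, rfl⟩

theorem LL_hpos (y : Option F → Fin 9 → F) (i : Option F) (s : Bool) (c : Fin 9) :
    LL R X y i s (hpos R X i s c) = wv R X i (y i) s c := by
  unfold LL
  have h : ∃ a, hpos R X i s a = hpos R X i s c := ⟨c, rfl⟩
  rw [dif_pos h]
  rw [hpos_injective hX i s h.choose_spec]

omit hX in
theorem LL_of_not (y : Option F → Fin 9 → F) {i : Option F} {s : Bool} {j : Option F}
    (h : ¬ ∃ a, hpos R X i s a = j) : LL R X y i s j = val (X i s) j := by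
  unfold LL
  rw [dif_neg h]

theorem not_hpos_other (i : Option F) (s : Bool) (c : Fin 9) :
    ¬ ∃ a, hpos R X i (!s) a = hpos R X i s c := by
  rintro ⟨a, ha⟩
  have h1 := hpos_mem hX i (!s) a
  have h2 := hpos_mem hX i s c
  rw [ha] at h1
  rcases s with _ | _
  · exact hX.disj i _ h1 h2
  · exact hX.disj i _ h2 h1

/-- the label points are not on either altered line -/
theorem W_not_on {i : Option F} {y : Fin 9 → F} (hy : Av R X i y) (s : Bool) (c : Fin 9)
    (t : Bool) : ¬ On (W R X i y s c) (X i t) := by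
  intro h
  have h1 : some c ≠ (none : Option (Fin 9)) := by simp
  apply dl_ne_X hX hy (s := t) (a := none) (b := c) h1
  rw [dl_none hX, ← dl_none hX i y s c]
  apply eq_of_on (a := mp R i) (b := W R X i y s c) (hpos_ne hX i s c).symm
  · exact pt_on_dl hX (a := none) h1
  · exact mp_on hX i t
  · exact W_on_dl hX h1
  · exact h

theorem val_dl_hpos {i : Option F} {y : Fin 9 → F} {s : Bool} {a : Option (Fin 9)} {b : Fin 9}
    (h : some b ≠ a) : val (dl R X i y s a b) (hpos R X i s b) = wv R X i y s b :=
  W_on_dl hX h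

/-- the special points of `X i s` with a designated line through `z` -/
def Az (R : RR F) (X : Option F → Bool → Ln F) (i : Option F) (y : Fin 9 → F) (s : Bool)
    (z : Pt F) (a : Option (Fin 9)) : Prop := ∃ c, vld a c ∧ On z (dl R X i y s a c)

open Classical in
theorem flags_le (y : Option F → Fin 9 → F) (i : Option F) (s : Bool) (z : Pt F) :
    flags (KK R X) (UU R X y) (X i s) z ≤
      (univ.filter (fun a => Az R X i (y i) s z a)).card := by
  unfold flags
  have : (KK R X).filter (fun v => On v (X i s) ∧ ∃ u ∈ UU R X y v, On z u) ⊆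
      (univ.filter (fun a => Az R X i (y i) s z a)).image (pt R X i s) := by
    intro v hv
    simp only [mem_filter] at hv
    obtain ⟨hv, hon, u, hu, hz⟩ := hv
    obtain ⟨a, rfl⟩ := exists_pt hX hv hon
    rw [mem_UU_pt hX] at hu
    obtain ⟨c, hc, rfl⟩ := hu
    simp only [mem_image, mem_filter, mem_univ, true_and]
    exact ⟨a, ⟨c, hc, hz⟩, rfl⟩
  refine le_trans ?_ ((card_le_card this).trans card_image_le)
  apply le_of_eq
  congr

open Classical in
/-- a label point sees only its own slot -/
theorem Az_W {i : Option F} {y : Fin 9 → F} (hL : Loc R X i y) {s : Bool} {b : Fin 9}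
    {a : Option (Fin 9)} (h : Az R X i y s (W R X i y s b) a) : vld a b := by
  obtain ⟨c, hc, hon⟩ := h
  by_cases hcb : c = b
  · subst hcb
    exact hc
  · exfalso
    by_cases hab : some b = a
    · subst hab
      -- `W b` and `vp b` are in the same position of the line
      have h1 : On (vp R X i s b) (dl R X i y s (some b) c) :=
        pt_on_dl hX (a := some b) hc.1
      have h2 : wv R X i y s b = val (X i s) (hpos R X i s b) := by
        rw [← (show val (dl R X i y s (some b) c) (hpos R X i s b) = wv R X i y s b from hon)]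
        exact h1
      apply W_not_on hX hL.av s b s
      exact h2.symm
    · apply hL.g2 s a c b hc.1 hab hcb
      apply eq_of_on (a := pt R X i s a) (b := W R X i y s b) (pt_pos_ne_hpos hX hab)
      · exact pt_on_dl hX hc.1
      · exact pt_on_dl hX hab
      · exact hon
      · exact W_on_dl hX hab

omit hX in
open Classical in
theorem card_vld_le (b : Fin 9) : (univ.filter (fun a => vld a b)).card ≤ 9 := by
  have : (univ.filter (fun a : Option (Fin 9) => vld a b)) ⊆ univ.erase (some b) := by
    intro a ha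
    simp only [mem_filter, mem_univ, true_and] at ha
    simp only [mem_erase, mem_univ, and_true]
    exact ha.1.symm
  refine (card_le_card this).trans ?_
  rw [card_erase_of_mem (mem_univ _)]
  simp

omit hX in
open Classical in
theorem card_vld_eight_le : (univ.filter (fun a => vld a 8)).card ≤ 8 := by
  have : (univ.filter (fun a : Option (Fin 9) => vld a 8)) ⊆
      (univ.erase (some 8)).erase none := by
    intro a ha
    simp only [mem_filter, mem_univ, true_and] at ha
    simp only [mem_erase, mem_univ, and_true]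
    exact ⟨fun h => ha.2 h rfl, ha.1.symm⟩
  refine (card_le_card this).trans ?_
  rw [card_erase_of_mem (by simp), card_erase_of_mem (mem_univ _)]
  simp

open Classical in
/-- every other point is on at most two designated lines -/
theorem card_Az_le_two {i : Option F} {y : Fin 9 → F} (hL : Loc R X i y) {s : Bool} {z : Pt F}
    (hz : ∀ b, z ≠ W R X i y s b) : (univ.filter (fun a => Az R X i y s z a)).card ≤ 2 := by
  by_contra hcon
  push Not at hcon
  obtain ⟨a, ha, a', ha', a'', ha'', h1, h2, h3⟩ := Finset.two_lt_card.mp hcon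
  simp only [mem_filter, mem_univ, true_and] at ha ha' ha''
  obtain ⟨b, hb, hzb⟩ := ha
  obtain ⟨b', hb', hzb'⟩ := ha'
  obtain ⟨b'', hb'', hzb''⟩ := ha''
  have key : ∀ (a a' : Option (Fin 9)) (b b' : Fin 9), a ≠ a' → vld a b → vld a' b' →
      On z (dl R X i y s a b) → On z (dl R X i y s a' b') → b ≠ b' := by
    intro a a' b b' haa hb hb' hz1 hz2 hbb
    subst hbb
    apply dl_ne_dl hX hL.av hb.1 hb'.1 haa (s := s)
    have h4 := W_on_dl hX (i := i) (y := y) (s := s) hb.1
    have h5 := W_on_dl hX (i := i) (y := y) (s := s) hb'.1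
    exact eq_of_on (pos_ne_of_on hz1 h4 (hz b)) hz1 hz2 h4 h5
  exact hL.g3 s a a' a'' b b' b'' h1 h2 h3 (key a a' b b' h1 hb hb' hzb hzb')
    (key a a'' b b'' h2 hb hb'' hzb hzb'') (key a' a'' b' b'' h3 hb' hb'' hzb' hzb'')
    hb.1 hb'.1 hb''.1 z ⟨hzb, hzb', hzb''⟩

/-- value of `cov` -/
theorem cov_bound {y : Option F → Fin 9 → F} {i : Option F} (hL : Loc R X i (y i)) (s : Bool)
    (z : Pt F) : cov (KK R X) X (LL R X y) (UU R X y) i s z ≤ 9 ∧
      (cov (KK R X) X (LL R X y) (UU R X y) i s z = 9 →
        ∃ b, b ≠ 8 ∧ z = W R X i (y i) s b) := by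
  classical
  by_cases hz : ∃ b, z = W R X i (y i) s b
  · obtain ⟨b, rfl⟩ := hz
    have hind : ¬ ((W R X i (y i) s b).1 ≠ i ∧
        LL R X y i (!s) (W R X i (y i) s b).1 = (W R X i (y i) s b).2) := by
      rintro ⟨-, h⟩
      rw [show (W R X i (y i) s b).1 = hpos R X i s b from rfl,
        LL_of_not y (not_hpos_other hX i s b)] at h
      exact W_not_on hX hL.av s b (!s) h
    have hf := flags_le hX y i s (W R X i (y i) s b)
    have hsub : (univ.filter (fun a => Az R X i (y i) s (W R X i (y i) s b) a)) ⊆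
        univ.filter (fun a => vld a b) := by
      intro a ha
      simp only [mem_filter, mem_univ, true_and] at ha ⊢
      exact Az_W hX hL ha
    have hc := card_le_card hsub
    unfold cov
    rw [if_neg hind]
    constructor
    · have := card_vld_le b
      omega
    · intro h9
      refine ⟨b, ?_, rfl⟩
      rintro rfl
      have := card_vld_eight_le
      omega
  · push Not at hz
    have hf := flags_le hX y i s z
    have hc := card_Az_le_two hX hL hz
    have hi : (if z.1 ≠ i ∧ LL R X y i (!s) z.1 = z.2 then 1 else 0) ≤ 1 := by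
      split_ifs <;> simp
    constructor
    · unfold cov
      omega
    · intro h9
      exfalso
      unfold cov at h9
      omega

theorem gadget_of_Loc {y : Option F → Fin 9 → F} (hL : ∀ i, Loc R X i (y i))
    (h1 : ∀ l, (∀ i s, X i s ≠ l) → ∀ z, ¬ On z l → flags (KK R X) (UU R X y) l z ≤ 8)
    (h2 : ∀ i, ∀ z : Pt F, z.1 ≠ i → pflags (KK R X) (UU R X y) i z ≤ 6) :
    Gadget (KK R X) X (LL R X y) (UU R X y) := by
  classical
  have hKK := KK_subset hX
  -- every special point is some `pt`
  have hpt : ∀ v ∈ KK R X, ∃ i s a, v = pt R X i s a := by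
    intro v hv
    rcases mem_KK.mp hv with ⟨i, rfl⟩ | ⟨i, s, a, rfl⟩
    · exact ⟨i, true, none, rfl⟩
    · exact ⟨i, s, some a, rfl⟩
  refine ⟨?_, ?_, hX.ne, ?_, ?_, ?_, ?_, ?_, ?_, h1, ?_, ?_, ?_, ?_, ?_⟩
  · intro i
    rw [hX.on_main, hX.on_main]
  · intro i s
    rw [hX.on_main]
    exact mp_mem_KK i
  · intro i s i' s' j hi h hK
    exact hX.priv i s i' s' j hi h (hKK hK)
  · intro i s j hj hK
    apply LL_of_not
    rintro ⟨a, rfl⟩
    exact hK (pt_mem_KK i s (some a))
  · intro v hv u hu
    obtain ⟨i, s, a, rfl⟩ := hpt v hv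
    rw [mem_UU_pt hX] at hu
    obtain ⟨c, hc, rfl⟩ := hu
    exact pt_on_dl hX hc.1
  · intro v hv u hu
    obtain ⟨i, s, a, rfl⟩ := hpt v hv
    rw [mem_UU_pt hX] at hu
    obtain ⟨c, hc, rfl⟩ := hu
    intro j hj hK
    exact (hL i).av s a c hc.1 j hj (hKK hK)
  · intro v hv
    obtain ⟨i, s, a, rfl⟩ := hpt v hv
    have : UU R X y (pt R X i s a) =
        (univ.filter (fun c => vld a c)).image (dl R X i (y i) s a) := by
      ext u
      rw [mem_UU_pt hX]
      simp only [mem_image, mem_filter, mem_univ, true_and]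
      constructor
      · rintro ⟨c, hc, rfl⟩
        exact ⟨c, hc, rfl⟩
      · rintro ⟨c, hc, rfl⟩
        exact ⟨c, hc, rfl⟩
    rw [this, card_image_of_injOn]
    · rcases a with _ | a
      · have : (univ.filter (fun c : Fin 9 => vld none c)) = univ.erase 8 := by
          ext c
          simp [vld]
        rw [this, card_erase_of_mem (mem_univ _)]
        simp
      · have : (univ.filter (fun c : Fin 9 => vld (some a) c)) = univ.erase a := by
          ext c
          simp [vld]
        rw [this, card_erase_of_mem (mem_univ _)]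
        simp
    · intro c hc c' hc' h
      simp only [coe_filter, mem_univ, true_and, Set.mem_ofPred_eq] at hc hc'
      by_contra hne
      exact (hL i).g2 s a c c' hc.1 hc'.1 hne h
  · intro i s v hv hon u hu
    obtain ⟨a, rfl⟩ := exists_pt hX hv hon
    rw [mem_UU_pt hX] at hu
    obtain ⟨c, hc, rfl⟩ := hu
    refine ⟨hpos R X i s c, hpos_ne hX i s c, ?_⟩
    rw [LL_hpos hX, val_dl_hpos hX hc.1]
  · intro i z hz
    have h3 := h2 i z hz
    have h4 : (if LL R X y i true z.1 = z.2 then 1 else 0) ≤ 1 := by split_ifs <;> simp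
    have h5 : (if LL R X y i false z.1 = z.2 then 1 else 0) ≤ 1 := by split_ifs <;> simp
    omega
  · intro i s
    have hne : pt R X i s none ≠ pt R X i s (some 0) := (vp_ne_mp hX i s 0 i).symm
    have : ({pt R X i s none, pt R X i s (some 0)} : Finset (Pt F)) ⊆
        (KK R X).filter (fun v => On v (X i s)) := by
      intro v hv
      simp only [mem_insert, mem_singleton] at hv
      rw [mem_filter]
      rcases hv with rfl | rfl
      · exact ⟨pt_mem_KK i s none, pt_on hX i s none⟩
      · exact ⟨pt_mem_KK i s (some 0), pt_on hX i s (some 0)⟩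
    calc 2 = ({pt R X i s none, pt R X i s (some 0)} : Finset (Pt F)).card :=
          (card_pair hne).symm
      _ ≤ _ := card_le_card this
  · intro i s j hj h
    by_cases hh : ∃ a, hpos R X i (!s) a = j
    · obtain ⟨a, rfl⟩ := hh
      rw [LL_hpos hX] at h
      exact W_not_on hX (hL i).av (!s) a s h.symm
    · rw [LL_of_not y hh] at h
      have hss : (!s) ≠ s := by
        rcases s with _ | _ <;> simp
      exact X_ne hX (i := i) hss (eq_of_val_eq hj.symm
        ((mp_on hX i (!s)).trans (mp_on hX i s).symm) h)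
  · intro i s z _
    exact (cov_bound hX (hL i) s z).1
  · intro i s
    have : (univ.filter (fun z : Pt F => ¬ On z (X i s) ∧
        cov (KK R X) X (LL R X y) (UU R X y) i s z = 9)) ⊆
        (univ.erase 8).image (W R X i (y i) s) := by
      intro z hz
      simp only [mem_filter, mem_univ, true_and] at hz
      obtain ⟨b, hb, rfl⟩ := (cov_bound hX (hL i) s z).2 hz.2
      simp only [mem_image, mem_erase, mem_univ, and_true]
      exact ⟨b, hb, rfl⟩
    refine (card_le_card this).trans (card_image_le.trans ?_)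
    rw [card_erase_of_mem (mem_univ _)]
    simp

end

theorem specW_of_specW2 (h : SpecW2) : SpecW := by
  classical
  intro c hc
  obtain ⟨q1, hq1⟩ := h (c ^ 9 / 2) (by positivity)
  obtain ⟨q2, hq2⟩ := exists_nat_ge (2 * (NPat : ℝ) / c ^ 9)
  refine ⟨max q1 q2, ?_⟩
  intro F _ _ _ hq k hk R X h4 h5 hX
  have hq1' : q1 ≤ ord F := (le_max_left _ _).trans hq
  have hq2' : q2 ≤ ord F := (le_max_right _ _).trans hq
  have hN : 2 * (NPat : ℝ) ≤ c ^ 9 * ord F := by
    have h6 : 2 * (NPat : ℝ) / c ^ 9 ≤ ord F := hq2.trans (by exact_mod_cast hq2')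
    rw [div_le_iff₀ (by positivity)] at h6
    linarith
  obtain ⟨y, hy, hf1, hf2⟩ := hq1 F hq1' k hk R X h5 hX
    (fun i => univ.filter (fun y => Loc R X i y)) (fun i => card_Loc_ge hX hc h4 i hN)
  refine ⟨KK R X, LL R X y, UU R X y, KK_subset hX, ?_⟩
  apply gadget_of_Loc hX _ hf1 hf2
  intro i
  have := hy i
  simpa using this

end Crest.Agent.R034
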