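import Mathlib

set_option autoImplicit false
set_option linter.unusedSectionVars false

/-!
# Rosenfeld's counting argument (independent transversals)
Written by helper615.
-/

open Finset

namespace Crest.Agent.R034

section

variable {ι α : Type*} [Fintype ι] [DecidableEq ι] [DecidableEq α]

/-- Conflict-free partial choices on `S` (outside `S` the value is the default `c0`). -/
noncomputable def rosG (C : ι → Finset α) (conf : ι → α → ι → α → Prop) (c0 : ι → α)
    (S : Finset ι) : Finset (ι → α) := by
  classical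
  exact (Fintype.piFinset (fun i => if i ∈ S then C i else {c0 i})).filter
    (fun f => ∀ i ∈ S, ∀ j ∈ S, i ≠ j → ¬ conf i (f i) j (f j))

theorem mem_rosG {C : ι → Finset α} {conf : ι → α → ι → α → Prop} {c0 : ι → α}
    {S : Finset ι} {f : ι → α} :
    f ∈ rosG C conf c0 S ↔ (∀ i ∈ S, f i ∈ C i) ∧ (∀ i, i ∉ S → f i = c0 i) ∧
      ∀ i ∈ S, ∀ j ∈ S, i ≠ j → ¬ conf i (f i) j (f j) := by
  classical
  unfold rosG
  simp only [mem_filter, Fintype.mem_piFinset]
  constructor
  · rintro ⟨h1, h2⟩
    refine ⟨fun i hi => by simpa [hi] using h1 i, fun i hi => by simpa [hi] using h1 i, h2⟩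
  · rintro ⟨h1, h2, h3⟩
    refine ⟨fun i => ?_, h3⟩
    by_cases hi : i ∈ S
    · simpa [hi] using h1 i hi
    · simpa [hi] using h2 i hi

theorem rosG_erase_bound {C : ι → Finset α} {conf : ι → α → ι → α → Prop} {c0 : ι → α}
    {S : Finset ι} {i : ι} (hi : i ∈ S) (Y : Finset α) :
    ((rosG C conf c0 S).filter (fun f => f i ∈ Y)).card ≤
      Y.card * (rosG C conf c0 (S.erase i)).card := by
  classical
  rw [← card_product]
  refine card_le_card_of_injOn (fun f => (f i, Function.update f i (c0 i))) ?_ ?_
  · intro f hf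
    simp only [coe_filter, Set.mem_ofPred_eq, mem_rosG] at hf
    obtain ⟨⟨h1, h2, h3⟩, h4⟩ := hf
    simp only [coe_product, Set.mem_prod, mem_coe, mem_rosG]
    refine ⟨h4, ?_, ?_, ?_⟩
    · intro j hj
      rw [mem_erase] at hj
      rw [Function.update_of_ne hj.1]
      exact h1 j hj.2
    · intro j hj
      by_cases hji : j = i
      · subst hji; simp
      · rw [Function.update_of_ne hji]
        exact h2 j (fun h => hj (mem_erase.2 ⟨hji, h⟩))
    · intro j hj k hk hjk
      rw [mem_erase] at hj hk
      rw [Function.update_of_ne hj.1, Function.update_of_ne hk.1]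
      exact h3 j hj.2 k hk.2 hjk
  · intro f hf g hg hfg
    simp only [Prod.mk.injEq] at hfg
    obtain ⟨h1, h2⟩ := hfg
    funext k
    by_cases hk : k = i
    · subst hk; exact h1
    · have := congrFun h2 k
      rwa [Function.update_of_ne hk, Function.update_of_ne hk] at this

theorem rosG_step {C : ι → Finset α} {conf : ι → α → ι → α → Prop} {c0 : ι → α}
    (hsymm : ∀ i x j y, conf i x j y → conf j y i x)
    (w : ι → α → ι → ℕ)
    (hw : ∀ j x i, ∃ Y : Finset α, Y.card ≤ w j x i ∧ ∀ y ∈ C i, conf j x i y → y ∈ Y)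
    (hD : ∀ j, ∀ x ∈ C j, ∑ i ∈ univ.erase j, (w j x i : ℝ) / ((C i).card : ℝ) ≤ 1 / 4)
    (hne : ∀ i, (C i).Nonempty) :
    ∀ (n : ℕ) (S : Finset ι), S.card = n → ∀ j, j ∉ S →
      ((C j).card : ℝ) * ((rosG C conf c0 S).card : ℝ) ≤
        2 * ((rosG C conf c0 (insert j S)).card : ℝ) := by
  classical
  intro n
  induction n using Nat.strong_induction_on with
  | _ n ih =>
  intro S hS j hj
  set G := rosG C conf c0 S with hG
  -- pairs
  set P : Finset ((ι → α) × α) := G ×ˢ C j with hP
  set Good := P.filter (fun p => ∀ i ∈ S, ¬ conf j p.2 i (p.1 i)) with hGood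
  set Bad := P.filter (fun p => ¬ ∀ i ∈ S, ¬ conf j p.2 i (p.1 i)) with hBad
  have hsplit : Good.card + Bad.card = P.card := by
    rw [hGood, hBad, card_filter_add_card_filter_not]
  have hPcard : P.card = G.card * (C j).card := card_product _ _
  -- good pairs inject
  have hgood : Good.card ≤ (rosG C conf c0 (insert j S)).card := by
    refine card_le_card_of_injOn (fun p => Function.update p.1 j p.2) ?_ ?_
    · intro p hp
      simp only [hGood, hP, coe_filter, mem_product, Set.mem_ofPred_eq, hG, mem_rosG] at hp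
      obtain ⟨⟨⟨h1, h2, h3⟩, h4⟩, h5⟩ := hp
      simp only [mem_coe, mem_rosG]
      refine ⟨?_, ?_, ?_⟩
      · intro i hi
        by_cases hij : i = j
        · subst hij; simpa using h4
        · rw [Function.update_of_ne hij]
          exact h1 i (by simpa [hij] using hi)
      · intro i hi
        have hij : i ≠ j := fun h => hi (by simp [h])
        rw [Function.update_of_ne hij]
        exact h2 i (fun h => hi (mem_insert_of_mem h))
      · intro i hi k hk hik
        by_cases hij : i = j
        · subst hij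
          have hki : k ≠ i := fun h => hik h.symm
          rw [Function.update_self, Function.update_of_ne hki]
          exact h5 k (by simpa [hki] using hk)
        · by_cases hkj : k = j
          · subst hkj
            rw [Function.update_self, Function.update_of_ne hij]
            intro hc
            exact h5 i (by simpa [hij] using hi) (hsymm _ _ _ _ hc)
          · rw [Function.update_of_ne hij, Function.update_of_ne hkj]
            exact h3 i (by simpa [hij] using hi) k (by simpa [hkj] using hk) hik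
    · intro p hp p' hp' hpp
      simp only [hGood, hP, coe_filter, mem_product, Set.mem_ofPred_eq, hG, mem_rosG] at hp hp'
      obtain ⟨⟨⟨h1, h2, h3⟩, h4⟩, h5⟩ := hp
      obtain ⟨⟨⟨h1', h2', h3'⟩, h4'⟩, h5'⟩ := hp'
      simp only at hpp
      apply Prod.ext
      · funext i
        by_cases hij : i = j
        · subst hij
          rw [h2 i hj, h2' i hj]
        · have := congrFun hpp i
          rwa [Function.update_of_ne hij, Function.update_of_ne hij] at this
      · have := congrFun hpp j
        rwa [Function.update_self, Function.update_self] at this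
  -- bad pairs
  choose Y hY1 hY2 using hw
  have hbad : (Bad.card : ℝ) ≤ ∑ x ∈ C j, ∑ i ∈ S, (w j x i : ℝ) *
      ((rosG C conf c0 (S.erase i)).card : ℝ) := by
    have h1 : Bad ⊆ (C j).biUnion (fun x => S.biUnion (fun i =>
        (G.filter (fun f => f i ∈ Y j x i)).image (fun f => (f, x)))) := by
      intro p hp
      simp only [hBad, hP, mem_filter, mem_product, not_forall, not_not] at hp
      obtain ⟨⟨hpG, hpx⟩, i, hi, hc⟩ := hp
      simp only [mem_biUnion, mem_image, mem_filter]
      refine ⟨p.2, hpx, i, hi, p.1, ⟨hpG, ?_⟩, rfl⟩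
      have hpG' := hpG
      rw [hG, mem_rosG] at hpG'
      exact hY2 j p.2 i (p.1 i) (hpG'.1 i hi) hc
    have h2 : Bad.card ≤ ∑ x ∈ C j, ∑ i ∈ S, w j x i * (rosG C conf c0 (S.erase i)).card := by
      refine (card_le_card h1).trans (card_biUnion_le.trans (sum_le_sum fun x _ => ?_))
      refine card_biUnion_le.trans (sum_le_sum fun i hi => ?_)
      refine card_image_le.trans ((rosG_erase_bound hi (Y j x i)).trans ?_)
      exact Nat.mul_le_mul_right _ (hY1 j x i)
    calc (Bad.card : ℝ) ≤ ((∑ x ∈ C j, ∑ i ∈ S, w j x i *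
          (rosG C conf c0 (S.erase i)).card : ℕ) : ℝ) := by exact_mod_cast h2
      _ = _ := by push_cast; rfl
  have hrec : ∀ i ∈ S, ((rosG C conf c0 (S.erase i)).card : ℝ) ≤ 2 * (G.card : ℝ) / ((C i).card : ℝ) := by
    intro i hi
    have hpos : (0 : ℝ) < ((C i).card : ℝ) := by
      exact_mod_cast (hne i).card_pos
    rw [le_div_iff₀ hpos]
    have hlt : (S.erase i).card < n := by
      rw [← hS]; exact card_erase_lt_of_mem hi
    have := ih _ hlt (S.erase i) rfl i (notMem_erase i S)
    rw [insert_erase hi] at this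
    linarith [this]
  have hbad2 : (Bad.card : ℝ) ≤ ((C j).card : ℝ) * ((G.card : ℝ) / 2) := by
    refine hbad.trans ?_
    have : ∀ x ∈ C j, ∑ i ∈ S, (w j x i : ℝ) * ((rosG C conf c0 (S.erase i)).card : ℝ) ≤
        (G.card : ℝ) / 2 := by
      intro x hx
      calc ∑ i ∈ S, (w j x i : ℝ) * ((rosG C conf c0 (S.erase i)).card : ℝ)
          ≤ ∑ i ∈ S, (w j x i : ℝ) * (2 * (G.card : ℝ) / ((C i).card : ℝ)) := by
            refine sum_le_sum fun i hi => ?_
            exact mul_le_mul_of_nonneg_left (hrec i hi) (Nat.cast_nonneg _)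
        _ = (∑ i ∈ S, (w j x i : ℝ) / ((C i).card : ℝ)) * (2 * (G.card : ℝ)) := by
            rw [sum_mul]
            refine sum_congr rfl fun i _ => ?_
            ring
        _ ≤ (∑ i ∈ univ.erase j, (w j x i : ℝ) / ((C i).card : ℝ)) * (2 * (G.card : ℝ)) := by
            refine mul_le_mul_of_nonneg_right ?_ (by positivity)
            refine sum_le_sum_of_subset_of_nonneg ?_ fun i _ _ => by positivity
            intro i hi
            exact mem_erase.2 ⟨fun h => hj (h ▸ hi), mem_univ _⟩
        _ ≤ 1 / 4 * (2 * (G.card : ℝ)) :=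
            mul_le_mul_of_nonneg_right (hD j x hx) (by positivity)
        _ = (G.card : ℝ) / 2 := by ring
    calc _ ≤ ∑ x ∈ C j, (G.card : ℝ) / 2 := sum_le_sum this
      _ = _ := by rw [sum_const, nsmul_eq_mul]
  have hs : (Good.card : ℝ) + (Bad.card : ℝ) = (G.card : ℝ) * ((C j).card : ℝ) := by
    rw [← Nat.cast_add, hsplit, hPcard, Nat.cast_mul]
  have hg : (Good.card : ℝ) ≤ ((rosG C conf c0 (insert j S)).card : ℝ) := by exact_mod_cast hgood
  nlinarith [hs, hg, hbad2]

/-- **Rosenfeld counting**, general form.  `w j x i` bounds the number of elements of `C i` in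
conflict with `x ∈ C j`. -/
theorem exists_transversal' (C : ι → Finset α) (conf : ι → α → ι → α → Prop)
    (hsymm : ∀ i x j y, conf i x j y → conf j y i x)
    (w : ι → α → ι → ℕ)
    (hw : ∀ j x i, ∃ Y : Finset α, Y.card ≤ w j x i ∧ ∀ y ∈ C i, conf j x i y → y ∈ Y)
    (hD : ∀ j, ∀ x ∈ C j, ∑ i ∈ univ.erase j, (w j x i : ℝ) / ((C i).card : ℝ) ≤ 1 / 4)
    (hne : ∀ i, (C i).Nonempty) :
    ∃ f : ι → α, (∀ i, f i ∈ C i) ∧ ∀ i j, i ≠ j → ¬ conf i (f i) j (f j) := by
  classical
  choose c0 hc0 using hne
  have hpos : ∀ S : Finset ι, (rosG C conf c0 S).Nonempty := by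
    intro S
    induction S using Finset.induction_on with
    | empty =>
      refine ⟨c0, mem_rosG.2 ⟨by simp, by simp, by simp⟩⟩
    | insert j S hj ih =>
      have h := rosG_step hsymm w hw hD (fun i => ⟨c0 i, hc0 i⟩) (c0 := c0) _ S rfl j hj
      have h1 : (0 : ℝ) < ((C j).card : ℝ) * ((rosG C conf c0 S).card : ℝ) := by
        have a1 : 0 < (C j).card := Finset.card_pos.2 ⟨c0 j, hc0 j⟩
        have a2 : 0 < (rosG C conf c0 S).card := ih.card_pos
        positivity
      rw [← card_pos]
      have h2 : (0 : ℝ) < ((rosG C conf c0 (insert j S)).card : ℝ) := by linarith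
      exact_mod_cast h2
  obtain ⟨f, hf⟩ := hpos univ
  rw [mem_rosG] at hf
  exact ⟨f, fun i => hf.1 i (mem_univ i), fun i j hij => hf.2.2 i (mem_univ i) j (mem_univ j) hij⟩

/-- **Rosenfeld counting**: if every element `x ∈ C j` is in conflict with at most `D` elements of
the other families altogether, and all families have at least `4 * D` (and at least one) elements,
there is a conflict-free transversal. -/
theorem exists_transversal (C : ι → Finset α) (conf : ι → α → ι → α → Prop)
    [∀ i x j, DecidablePred (conf i x j)]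
    (hsymm : ∀ i x j y, conf i x j y → conf j y i x) (D : ℕ)
    (hD : ∀ j, ∀ x ∈ C j, ∑ i ∈ univ.erase j, ((C i).filter (conf j x i)).card ≤ D)
    (hC : ∀ i, 4 * D ≤ (C i).card) (hne : ∀ i, (C i).Nonempty) :
    ∃ f : ι → α, (∀ i, f i ∈ C i) ∧ ∀ i j, i ≠ j → ¬ conf i (f i) j (f j) := by
  classical
  refine exists_transversal' C conf hsymm (fun j x i => ((C i).filter (conf j x i)).card)
    (fun j x i => ⟨(C i).filter (conf j x i), le_rfl, fun y hy hc => mem_filter.2 ⟨hy, hc⟩⟩) ?_ hne
  intro j x hx
  rcases Nat.eq_zero_or_pos D with hD0 | hD0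
  · have h := hD j x hx
    rw [hD0, Nat.le_zero, sum_eq_zero_iff] at h
    have : ∑ i ∈ univ.erase j, (((C i).filter (conf j x i)).card : ℝ) / ((C i).card : ℝ) = 0 :=
      sum_eq_zero fun i hi => by rw [h i hi]; simp
    rw [this]; norm_num
  · have hDpos : (0 : ℝ) < (D : ℝ) := by exact_mod_cast hD0
    calc ∑ i ∈ univ.erase j, (((C i).filter (conf j x i)).card : ℝ) / ((C i).card : ℝ)
        ≤ ∑ i ∈ univ.erase j, (((C i).filter (conf j x i)).card : ℝ) / (4 * (D : ℝ)) := by
          refine sum_le_sum fun i _ => ?_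
          have h4 : (4 * (D : ℝ)) ≤ ((C i).card : ℝ) := by exact_mod_cast hC i
          exact div_le_div_of_nonneg_left (Nat.cast_nonneg _) (by positivity) h4
      _ = (∑ i ∈ univ.erase j, (((C i).filter (conf j x i)).card : ℝ)) / (4 * (D : ℝ)) := by
          rw [sum_div]
      _ ≤ (D : ℝ) / (4 * (D : ℝ)) := by
          refine div_le_div_of_nonneg_right ?_ (by positivity)
          exact_mod_cast hD j x hx
      _ = 1 / 4 := by field_simp

end

end Crest.Agent.R034
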