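import Crest.Agent.R034.Spec
import Crest.Agent.R034.Rosenfeld

set_option autoImplicit false
set_option linter.unusedSectionVars false

/-! M10: `SpecX` (Selection 1, Rosenfeld counting). helper615 -/

open Finset

namespace Crest.Agent.R034

namespace XSel

variable {F : Type} [Field F] [Fintype F] [DecidableEq F]

/-- two lines agreeing in two different positions are equal -/
theorem eq_of_val_eq {l l' : Ln F} {i j : Option F} (hij : i ≠ j)
    (h1 : val l i = val l' i) (h2 : val l j = val l' j) : l = l' := by
  obtain ⟨m, b⟩ := l
  obtain ⟨m', b'⟩ := l'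
  rcases i with _ | x <;> rcases j with _ | y
  · exact absurd rfl hij
  · simp only [val] at h1 h2
    subst h1
    have : b = b' := by linear_combination h2
    rw [this]
  · simp only [val] at h1 h2
    subst h2
    have : b = b' := by linear_combination h1
    rw [this]
  · simp only [val] at h1 h2
    have hxy : x ≠ y := fun h => hij (by rw [h])
    have h3 : (m - m') * (x - y) = 0 := by linear_combination h1 - h2
    rcases mul_eq_zero.1 h3 with h | h
    · have hm : m = m' := by linear_combination h
      subst hm
      have : b = b' := by linear_combination h1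
      rw [this]
    · exact absurd (by linear_combination h) hxy

variable (R : RR F)

/-- candidates in position `i` -/
def cand (i : Option F) : Finset (Ln F) :=
  univ.filter (fun l : Ln F => On (i, R i 0) l ∧ (hits R l i).card = 9 ∧ (mhits R l i).card = 0)

/-- the lines counted by `N2 R z` -/
def two (z : Pt F) : Finset (Ln F) :=
  univ.filter (fun l : Ln F => On z l ∧ (hits R l z.1).card = 9 ∧ (mhits R l z.1).card = 1)

theorem card_cand (i : Option F) : (cand R i).card = N1 R (i, R i 0) := rfl
theorem card_two (z : Pt F) : (two R z).card = N2 R z := rfl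

variable {R}

theorem main_mem_Kset (i : Option F) : (i, R i 0) ∈ Kset R := by
  simp only [Kset, mem_filter, mem_univ, true_and]
  exact ⟨0, rfl⟩

theorem mem_cand {i : Option F} {l : Ln F} : l ∈ cand R i ↔
    val l i = R i 0 ∧ (hits R l i).card = 9 ∧ (mhits R l i).card = 0 := by
  unfold cand
  rw [mem_filter]
  constructor
  · rintro ⟨-, h⟩; exact h
  · intro h; exact ⟨mem_univ _, h⟩

theorem cand_val {i : Option F} {l : Ln F} (h : l ∈ cand R i) : val l i = R i 0 :=
  (mem_cand.1 h).1

theorem cand_nine {i : Option F} {l : Ln F} (h : l ∈ cand R i) : (hits R l i).card = 9 :=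
  (mem_cand.1 h).2.1

theorem cand_nomain {i : Option F} {l : Ln F} (h : l ∈ cand R i) (j : Option F) (hj : j ≠ i) :
    val l j ≠ R j 0 := by
  intro hc
  have h3 := (mem_cand.1 h).2.2
  rw [card_eq_zero] at h3
  have : j ∈ mhits R l i := by simp [mhits, hj, hc]
  rw [h3] at this
  simp at this

/-- if `b` is a candidate for `j` and goes through the special point `z`, `z.1 ≠ j`, then it is
counted in `N2 R z`, with main position `j`. -/
theorem cand_two {j : Option F} {b : Ln F} (hb : b ∈ cand R j) {z : Pt F} (hz : z ∈ Kset R)
    (hzb : On z b) (hzj : z.1 ≠ j) : b ∈ two R z ∧ mhits R b z.1 = {j} := by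
  have hm : mhits R b z.1 = {j} := by
    ext p
    simp only [mhits, mem_filter, mem_univ, true_and, mem_singleton]
    constructor
    · rintro ⟨h1, h2⟩
      by_contra hpj
      exact cand_nomain hb p hpj h2
    · rintro rfl
      exact ⟨fun h => hzj h.symm, cand_val hb⟩
  refine ⟨?_, hm⟩
  simp only [two, mem_filter, mem_univ, true_and]
  refine ⟨hzb, ?_, by rw [hm]; simp⟩
  have h9 := cand_nine hb
  -- hits R b z.1 = insert j ((hits R b j).erase z.1)
  have hzmem : z.1 ∈ hits R b j := by
    simp only [hits, mem_filter, mem_univ, true_and]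
    refine ⟨hzj, ?_⟩
    have : val b z.1 = z.2 := hzb
    rw [this]
    exact hz
  have : hits R b z.1 = insert j ((hits R b j).erase z.1) := by
    ext p
    simp only [hits, mem_filter, mem_univ, true_and, mem_insert, mem_erase]
    constructor
    · rintro ⟨h1, h2⟩
      by_cases hpj : p = j
      · exact Or.inl hpj
      · exact Or.inr ⟨h1, hpj, h2⟩
    · rintro (rfl | ⟨h1, h2, h3⟩)
      · refine ⟨fun h => hzj h.symm, ?_⟩
        rw [cand_val hb]
        exact main_mem_Kset p
      · exact ⟨h1, h3⟩
  rw [this, card_insert_of_notMem (by simp [hits]), card_erase_of_mem hzmem, h9]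

variable (R)

/-- the conflict relation -/
def conf (c : Option F × Bool) (a : Ln F) (c' : Option F × Bool) (b : Ln F) : Prop :=
  (c.1 ≠ c'.1 ∧ ∃ p, val a p = val b p ∧ (p, val a p) ∈ Kset R) ∨
  (c.1 = c'.1 ∧ ∃ j, j ∈ hits R a c.1 ∧ j ∈ hits R b c.1)

theorem conf_symm (c : Option F × Bool) (a : Ln F) (c' : Option F × Bool) (b : Ln F)
    (h : conf R c a c' b) : conf R c' b c a := by
  rcases h with ⟨h1, p, h2, h3⟩ | ⟨h1, j, h2, h3⟩
  · exact Or.inl ⟨h1.symm, p, h2.symm, h2 ▸ h3⟩
  · exact Or.inr ⟨h1.symm, j, h1 ▸ h3, h1 ▸ h2⟩

variable {R}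

/-- conflicts with other positions -/
theorem bound_other {i : Option F} {a : Ln F} (ha : a ∈ cand R i) (M : ℕ)
    (hM : ∀ z, N2 R z ≤ M) :
    ∑ j ∈ univ.erase i, ((cand R j).filter
      (fun b => ∃ p, val a p = val b p ∧ (p, val a p) ∈ Kset R)).card ≤ 9 * M := by
  classical
  -- the sets
  have hsub : ∀ j ∈ univ.erase i, (cand R j).filter
      (fun b => ∃ p, val a p = val b p ∧ (p, val a p) ∈ Kset R) ⊆
      (hits R a i).biUnion (fun p => (two R (p, val a p)).filter
        (fun b => mhits R b p = {j})) := by
    intro j hj b hb
    simp only [mem_filter] at hb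
    obtain ⟨hb, p, hp1, hp2⟩ := hb
    have hji : j ≠ i := (mem_erase.1 hj).1
    have hpi : p ≠ i := by
      rintro rfl
      have := cand_nomain hb p hji.symm
      exact this (by rw [← hp1, cand_val ha])
    have hpj : p ≠ j := by
      rintro rfl
      have := cand_nomain ha p hji
      exact this (by rw [hp1, cand_val hb])
    have h := cand_two hb (z := (p, val a p)) hp2 (by simpa [On] using hp1.symm) hpj
    simp only [mem_biUnion, mem_filter]
    refine ⟨p, ?_, h.1, h.2⟩
    simp [hits, hpi, hp2]
  calc ∑ j ∈ univ.erase i, ((cand R j).filter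
      (fun b => ∃ p, val a p = val b p ∧ (p, val a p) ∈ Kset R)).card
      ≤ ∑ j ∈ univ.erase i, ∑ p ∈ hits R a i, ((two R (p, val a p)).filter
        (fun b => mhits R b p = {j})).card := by
        refine sum_le_sum fun j hj => (card_le_card (hsub j hj)).trans card_biUnion_le
    _ = ∑ p ∈ hits R a i, ∑ j ∈ univ.erase i, ((two R (p, val a p)).filter
        (fun b => mhits R b p = {j})).card := sum_comm
    _ ≤ ∑ p ∈ hits R a i, M := by
        refine sum_le_sum fun p _ => ?_
        rw [← card_biUnion]
        · refine le_trans (card_le_card ?_) (hM (p, val a p))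
          intro b hb
          simp only [mem_biUnion, mem_filter] at hb
          obtain ⟨_, _, h, _⟩ := hb
          exact h
        · intro j _ j' _ hjj
          rw [Function.onFun, disjoint_left]
          intro b hb hb'
          simp only [mem_filter] at hb hb'
          have := hb.2.symm.trans hb'.2
          exact hjj (singleton_injective this)
    _ = 9 * M := by rw [sum_const, cand_nine ha, smul_eq_mul]

/-- conflicts within the same position -/
theorem bound_same {i : Option F} {a : Ln F} (ha : a ∈ cand R i) :
    ((cand R i).filter (fun b => ∃ j, j ∈ hits R a i ∧ j ∈ hits R b i)).card ≤ 9000 := by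
  classical
  have hsub : (cand R i).filter (fun b => ∃ j, j ∈ hits R a i ∧ j ∈ hits R b i) ⊆
      (hits R a i ×ˢ (univ : Finset (Fin kap))).biUnion (fun p =>
        (cand R i).filter (fun b => val b p.1 = R p.1 p.2)) := by
    intro b hb
    simp only [mem_filter] at hb
    obtain ⟨hb, j, hj1, hj2⟩ := hb
    have hj3 := hj2
    simp only [hits, mem_filter, mem_univ, true_and, Kset] at hj3
    obtain ⟨_, r, hr⟩ := hj3
    simp only [mem_biUnion, mem_filter, mem_product, mem_univ, and_true]
    exact ⟨(j, r), hj1, hb, hr.symm⟩
  refine (card_le_card hsub).trans (card_biUnion_le.trans ?_)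
  calc ∑ p ∈ hits R a i ×ˢ (univ : Finset (Fin kap)),
        ((cand R i).filter (fun b => val b p.1 = R p.1 p.2)).card
      ≤ ∑ p ∈ hits R a i ×ˢ (univ : Finset (Fin kap)), 1 := by
        refine sum_le_sum fun p hp => ?_
        rw [card_le_one]
        intro b hb b' hb'
        simp only [mem_filter] at hb hb'
        have hpi : i ≠ p.1 := by
          have := (mem_product.1 hp).1
          simp only [hits, mem_filter, mem_univ, true_and] at this
          exact fun h => this.1 h.symm
        exact eq_of_val_eq hpi ((cand_val hb.1).trans (cand_val hb'.1).symm)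
          (hb.2.trans hb'.2.symm)
    _ = 9000 := by
        rw [sum_const, card_product, cand_nine ha, card_univ, Fintype.card_fin]
        rfl

end XSel

open XSel

theorem specX : SpecX := by
  intro F _ _ _ R hR2
  classical
  -- maximal value of N2
  obtain ⟨z0, -, hz0⟩ := exists_max_image (univ : Finset (Pt F)) (N2 R) ⟨(none, 0), mem_univ _⟩
  set M := N2 R z0 with hM
  have hMle : ∀ z, N2 R z ≤ M := fun z => hz0 z (mem_univ z)
  have hcard : ∀ i, 4 * (18 * M + 9000) ≤ (cand R i).card := by
    intro i
    rw [card_cand]
    exact hR2 _ _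
  obtain ⟨f, hf1, hf2⟩ := exists_transversal (ι := Option F × Bool) (α := Ln F)
    (fun c => cand R c.1) (conf R) (conf_symm R) (18 * M + 9000) (by
      intro c a ha
      obtain ⟨i, s⟩ := c
      simp only at ha
      have hsplit : (univ : Finset (Option F × Bool)).erase (i, s) =
          insert (i, !s) ((univ.erase i) ×ˢ (univ : Finset Bool)) := by
        ext ⟨j, t⟩
        simp only [mem_erase, ne_eq, Prod.mk.injEq, mem_univ, and_true, mem_insert, mem_product]
        constructor
        · intro h
          by_cases hji : j = i
          · left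
            refine ⟨hji, ?_⟩
            have : t ≠ s := fun h' => h ⟨hji, h'⟩
            cases s <;> cases t <;> simp_all
          · right; exact hji
        · rintro (⟨h1, h2⟩ | h)
          · rintro ⟨-, h4⟩
            rw [h2] at h4
            cases s <;> simp at h4
          · exact fun h' => h h'.1
      rw [hsplit, sum_insert (by simp), sum_product]
      have h1 : ((cand R i).filter (conf R (i, s) a (i, !s))).card ≤ 9000 := by
        refine le_trans (card_le_card ?_) (bound_same ha)
        intro b hb
        simp only [mem_filter, conf] at hb ⊢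
        rcases hb with ⟨hb, ⟨h, _⟩ | ⟨_, h⟩⟩
        · exact absurd rfl h
        · exact ⟨hb, h⟩
      have h2 : ∑ j ∈ univ.erase i, ∑ t : Bool,
          ((cand R j).filter (conf R (i, s) a (j, t))).card ≤ 18 * M := by
        calc _ ≤ ∑ j ∈ univ.erase i, ∑ t : Bool, ((cand R j).filter
              (fun b => ∃ p, val a p = val b p ∧ (p, val a p) ∈ Kset R)).card := by
              refine sum_le_sum fun j hj => sum_le_sum fun t _ => card_le_card ?_
              intro b hb
              simp only [mem_filter, conf] at hb ⊢
              rcases hb with ⟨hb, ⟨_, h⟩ | ⟨h, _⟩⟩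
              · exact ⟨hb, h⟩
              · exact absurd h.symm (mem_erase.1 hj).1
          _ = 2 * ∑ j ∈ univ.erase i, ((cand R j).filter
              (fun b => ∃ p, val a p = val b p ∧ (p, val a p) ∈ Kset R)).card := by
              rw [mul_sum]
              refine sum_congr rfl fun j _ => ?_
              rw [sum_const, card_univ, Fintype.card_bool, smul_eq_mul]
          _ ≤ 2 * (9 * M) := Nat.mul_le_mul_left _ (bound_other ha M hMle)
          _ = 18 * M := by ring
      simp only at h1 h2 ⊢
      omega)
    (fun c => hcard c.1)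
    (fun c => by
      rw [← card_pos]
      have := hcard c.1
      omega)
  refine ⟨fun i s => f (i, s), ?_, ?_, ?_, ?_, ?_, ?_⟩
  · intro i s
    exact cand_val (hf1 (i, s))
  · intro i s
    exact cand_nine (hf1 (i, s))
  · intro i s j hj
    exact cand_nomain (hf1 (i, s)) j hj
  · intro i j h1 h2
    exact hf2 (i, true) (i, false) (by simp) (Or.inr ⟨rfl, j, h1, h2⟩)
  · intro i heq
    have h9 := cand_nine (hf1 (i, true))
    have hne : (hits R (f (i, true)) i).Nonempty := by
      rw [← card_pos]
      have h9' : (hits R (f (i, true)) i).card = 9 := h9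
      omega
    obtain ⟨j, hj⟩ := hne
    have heq' : f (i, true) = f (i, false) := heq
    exact hf2 (i, true) (i, false) (by simp) (Or.inr ⟨rfl, j, hj, by
      rw [← heq']; exact hj⟩)
  · intro i s i' s' j hii hval hK
    exact hf2 (i, s) (i', s') (by simp [hii]) (Or.inl ⟨hii, j, hval, hK⟩)

end Crest.Agent.R034
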