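import Crest.Agent.R034.Final
import Crest.Agent.R034.BKT
import Crest.Agent.R034.Stab
import Crest.Agent.R034.R1
import Crest.Agent.R034.R2
import Crest.Agent.R034.R3
import Crest.Agent.R034.R4
import Crest.Agent.R034.R5
import Crest.Agent.R034.X
import Crest.Agent.R034.W2
import Crest.Agent.R034.WFinal
import Crest.Agent.R034.Cover

/-! All modules of row 34 combined. -/

set_option autoImplicit false

namespace Crest.Agent.R034

theorem goodFamily_main :
    ∃ q0 : ℕ, ∀ (F : Type) [Field F] [Fintype F] [DecidableEq F], ¬ IsSquare (ord F) →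
      q0 ≤ ord F → GoodFamily F :=
  exists_goodFamily (Stab.specStab specBKT) specR1 R2M.specR2 specR3 R4.specR4 specR5 specX
    (specW_of_specW2 specW2) specCover

end Crest.Agent.R034
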