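import Mathlib

set_option autoImplicit false

namespace Crest.Agent.R034.Unhit

open Finset

/-- Resampling one coordinate of a finite product. -/
theorem sum_resample {ι : Type*} [Fintype ι] [DecidableEq ι] {Ω : ι → Type*}
    [∀ i, Fintype (Ω i)] (i : ι) (f : (∀ i, Ω i) → ℝ) :
    ∑ ω : (∀ i, Ω i), ∑ x : Ω i, f (Function.update ω i x)
      = (Fintype.card (Ω i) : ℝ) * ∑ ω : (∀ i, Ω i), f ω := by
  classical
  have h1 : ∑ ω : (∀ i, Ω i), ∑ x : Ω i, f (Function.update ω i x)
      = ∑ p : (∀ i, Ω i) × Ω i, f (Function.update p.1 i p.2) := by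
    rw [Fintype.sum_prod_type]
  have h2 : ∑ p : (∀ i, Ω i) × Ω i, f (Function.update p.1 i p.2)
      = ∑ p : (∀ i, Ω i) × Ω i, f p.1 := by
    let e : (∀ i, Ω i) × Ω i ≃ (∀ i, Ω i) × Ω i :=
      { toFun := fun p => (Function.update p.1 i p.2, p.1 i)
        invFun := fun p => (Function.update p.1 i p.2, p.1 i)
        left_inv := by
          rintro ⟨ω, x⟩
          simp
        right_inv := by
          rintro ⟨ω, x⟩
          simp }
    exact Equiv.sum_comp e (fun p => f p.1)
  rw [h1, h2, Fintype.sum_prod_type]
  simp [Finset.sum_const, Finset.mul_sum]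

/-- The targets in `T` not hit by the balls in `s`. -/
noncomputable def unhit {ι : Type*} {Ω : ι → Type*} {G : Type*}
    (T : Finset G) (hit : ∀ i, Ω i → G → Prop) (s : Finset ι) (ω : ∀ i, Ω i) : Finset G := by
  classical
  exact T.filter (fun g => ∀ i ∈ s, ¬ hit i (ω i) g)

theorem mem_unhit {ι : Type*} {Ω : ι → Type*} {G : Type*}
    {T : Finset G} {hit : ∀ i, Ω i → G → Prop} {s : Finset ι} {ω : ∀ i, Ω i} {g : G} :
    g ∈ unhit T hit s ω ↔ g ∈ T ∧ ∀ i ∈ s, ¬ hit i (ω i) g := by
  classical
  simp [unhit]

theorem exp_sub_one_le (y : ℝ) : Real.exp y - 1 ≤ y * Real.exp y := by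
  have h := Real.add_one_le_exp (-y)
  have h2 : Real.exp y * (-y + 1) ≤ Real.exp y * Real.exp (-y) :=
    mul_le_mul_of_nonneg_left h (Real.exp_pos y).le
  rw [← Real.exp_add] at h2
  simp at h2
  nlinarith

/-- One step of the process. -/
theorem one_step {X G : Type*} [Fintype X] (T : Finset G)
    (hit : X → G → Prop) (a : ℕ) (δ : ℝ) (hδ : 0 ≤ δ)
    (N : X → ℕ) (T' : Finset G) (hN : ∀ x, N x ≤ a)
    (hT' : T' ⊆ T)
    (hNs : ∀ x, ∀ [DecidablePred (hit x)], N x = (T'.filter (hit x)).card)
    (hp : ∀ g ∈ T, ∀ [DecidablePred (fun x => hit x g)],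
      ((Finset.univ.filter (fun x => hit x g)).card : ℝ) ≤ δ * Fintype.card X)
    (t : ℝ) (ht0 : 0 ≤ t) (ht1 : t ≤ 1) :
    ∑ x : X, Real.exp (-t * ((T'.card : ℝ) - N x))
      ≤ Fintype.card X * Real.exp (-t * (1 - δ * Real.exp a) * T'.card) := by
  classical
  have hsumN : ∑ x : X, (N x : ℝ) ≤ δ * Fintype.card X * T'.card := by
    have h1 : ∑ x : X, (N x : ℝ) = ∑ g ∈ T', ((Finset.univ.filter (fun x => hit x g)).card : ℝ) := by
      have : ∀ x : X, (N x : ℝ) = ∑ g ∈ T', (if hit x g then (1:ℝ) else 0) := by
        intro x
        rw [hNs x]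
        simp [Finset.sum_ite]
      simp_rw [this]
      rw [Finset.sum_comm]
      refine Finset.sum_congr rfl (fun g _ => ?_)
      simp [Finset.sum_ite]
    rw [h1]
    calc ∑ g ∈ T', ((Finset.univ.filter (fun x => hit x g)).card : ℝ)
        ≤ ∑ g ∈ T', δ * Fintype.card X := by
          refine Finset.sum_le_sum (fun g hg => ?_)
          exact hp g (hT' hg)
      _ = δ * Fintype.card X * T'.card := by
          simp [Finset.sum_const]; ring
  have hterm : ∀ x : X, Real.exp (-t * ((T'.card : ℝ) - N x))
      ≤ Real.exp (-t * T'.card) * (1 + t * Real.exp a * N x) := by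
    intro x
    have h1 : Real.exp (-t * ((T'.card : ℝ) - N x))
        = Real.exp (-t * T'.card) * Real.exp (t * N x) := by
      rw [← Real.exp_add]; ring_nf
    rw [h1]
    refine mul_le_mul_of_nonneg_left ?_ (Real.exp_pos _).le
    have h2 := exp_sub_one_le (t * N x)
    have h3 : Real.exp (t * N x) ≤ Real.exp a := by
      refine Real.exp_le_exp.mpr ?_
      have : (N x : ℝ) ≤ a := by exact_mod_cast hN x
      calc t * (N x : ℝ) ≤ 1 * (N x : ℝ) := by
            exact mul_le_mul_of_nonneg_right ht1 (Nat.cast_nonneg _)
        _ ≤ a := by simpa using this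
    have h4 : t * N x * Real.exp (t * N x) ≤ t * N x * Real.exp a :=
      mul_le_mul_of_nonneg_left h3 (by positivity)
    nlinarith
  calc ∑ x : X, Real.exp (-t * ((T'.card : ℝ) - N x))
      ≤ ∑ x : X, Real.exp (-t * T'.card) * (1 + t * Real.exp a * N x) :=
        Finset.sum_le_sum (fun x _ => hterm x)
    _ = Real.exp (-t * T'.card) * (Fintype.card X + t * Real.exp a * ∑ x : X, (N x : ℝ)) := by
        rw [← Finset.mul_sum, Finset.sum_add_distrib, ← Finset.mul_sum]
        simp
    _ ≤ Real.exp (-t * T'.card) * (Fintype.card X + t * Real.exp a * (δ * Fintype.card X * T'.card)) := by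
        refine mul_le_mul_of_nonneg_left ?_ (Real.exp_pos _).le
        have : t * Real.exp a * ∑ x : X, (N x : ℝ) ≤ t * Real.exp a * (δ * Fintype.card X * T'.card) :=
          mul_le_mul_of_nonneg_left hsumN (by positivity)
        linarith
    _ = Fintype.card X * (Real.exp (-t * T'.card) * (t * (δ * Real.exp a) * T'.card + 1)) := by ring
    _ ≤ Fintype.card X * (Real.exp (-t * T'.card) * Real.exp (t * (δ * Real.exp a) * T'.card)) := by
        refine mul_le_mul_of_nonneg_left ?_ (Nat.cast_nonneg _)
        refine mul_le_mul_of_nonneg_left ?_ (Real.exp_pos _).le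
        exact Real.add_one_le_exp _
    _ = Fintype.card X * Real.exp (-t * (1 - δ * Real.exp a) * T'.card) := by
        rw [← Real.exp_add]; ring_nf

/-- Exponential moment of the number of unhit targets, for independent balls, each hitting at
most `a` targets and each target with probability at most `δ`. -/
theorem exp_unhit {ι : Type*} [Fintype ι] [DecidableEq ι] {Ω : ι → Type*}
    [∀ i, Fintype (Ω i)] {G : Type*}
    (T : Finset G) (hit : ∀ i, Ω i → G → Prop) (a : ℕ) (δ : ℝ) (hδ : 0 ≤ δ)
    (hδ1 : δ * Real.exp a ≤ 1)
    (h1 : ∀ i, ∀ x : Ω i, ∀ [DecidablePred (hit i x)], (T.filter (hit i x)).card ≤ a)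
    (hp : ∀ i, ∀ g ∈ T, ∀ [DecidablePred (fun x => hit i x g)],
      ((Finset.univ.filter (fun x => hit i x g)).card : ℝ) ≤ δ * Fintype.card (Ω i))
    (s : Finset ι) :
    ∀ t : ℝ, 0 ≤ t → t ≤ 1 →
      ∑ ω : (∀ i, Ω i), Real.exp (-t * ((unhit T hit s ω).card : ℝ))
        ≤ Fintype.card (∀ i, Ω i) *
          Real.exp (-t * (1 - δ * Real.exp a) ^ s.card * T.card) := by
  classical
  induction s using Finset.induction_on with
  | empty =>
    intro t _ _
    have : ∀ ω : (∀ i, Ω i), unhit T hit ∅ ω = T := by
      intro ω; ext g; simp [mem_unhit]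
    simp [this]
  | insert i s his ih =>
    intro t ht0 ht1
    set r : ℝ := 1 - δ * Real.exp a with hr
    have hr0 : 0 ≤ r := by rw [hr]; linarith
    have hr1 : r ≤ 1 := by
      rw [hr]
      have : 0 ≤ δ * Real.exp a := by positivity
      linarith
    by_cases hΩ : Fintype.card (Ω i) = 0
    · have : IsEmpty (∀ i, Ω i) := by
        have hi : IsEmpty (Ω i) := Fintype.card_eq_zero_iff.mp hΩ
        exact ⟨fun ω => hi.false (ω i)⟩
      simp
    have hΩpos : (0 : ℝ) < Fintype.card (Ω i) := by
      exact_mod_cast Nat.pos_of_ne_zero hΩ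
    have key : ∀ ω : (∀ i, Ω i),
        ∑ x : Ω i, Real.exp (-t * ((unhit T hit (insert i s) (Function.update ω i x)).card : ℝ))
          ≤ Fintype.card (Ω i) * Real.exp (-(t * r) * ((unhit T hit s ω).card : ℝ)) := by
      intro ω
      set T' := unhit T hit s ω with hT'
      have hsub : T' ⊆ T := by
        intro g hg
        exact (mem_unhit.mp hg).1
      have hun : ∀ x : Ω i, ((unhit T hit (insert i s) (Function.update ω i x)).card : ℝ)
          = (T'.card : ℝ) - ((T'.filter (hit i x)).card : ℕ) := by
        intro x
        have e1 : unhit T hit (insert i s) (Function.update ω i x)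
            = T'.filter (fun g => ¬ hit i x g) := by
          ext g
          simp only [mem_unhit, Finset.mem_filter, hT', Finset.forall_mem_insert,
            Function.update_self]
          constructor
          · rintro ⟨hg, hx, hs⟩
            refine ⟨⟨hg, ?_⟩, hx⟩
            intro j hj
            have hji : j ≠ i := by
              rintro rfl; exact his hj
            have := hs j hj
            rwa [Function.update_of_ne hji] at this
          · rintro ⟨⟨hg, hs⟩, hx⟩
            refine ⟨hg, hx, ?_⟩
            intro j hj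
            have hji : j ≠ i := by
              rintro rfl; exact his hj
            rw [Function.update_of_ne hji]
            exact hs j hj
        rw [e1]
        have := Finset.card_filter_add_card_filter_not (s := T') (hit i x)
        have h' : ((T'.filter (hit i x)).card : ℝ) + ((T'.filter (fun g => ¬ hit i x g)).card : ℝ)
            = (T'.card : ℝ) := by exact_mod_cast this
        linarith
      simp_rw [hun]
      have := one_step (X := Ω i) T (hit i) a δ hδ (fun x => (T'.filter (hit i x)).card) T'
        (by
          intro x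
          refine le_trans ?_ (h1 i x)
          exact Finset.card_le_card (Finset.filter_subset_filter _ hsub))
        hsub
        (by
          intro x inst
          congr)
        (hp i) t ht0 ht1
      refine this.trans (le_of_eq ?_)
      rw [hr]; ring_nf
    have h2 := sum_resample (Ω := Ω) i
      (fun ω => Real.exp (-t * ((unhit T hit (insert i s) ω).card : ℝ)))
    have h3 : (Fintype.card (Ω i) : ℝ) *
        ∑ ω : (∀ i, Ω i), Real.exp (-t * ((unhit T hit (insert i s) ω).card : ℝ))
        ≤ Fintype.card (Ω i) *
          ∑ ω : (∀ i, Ω i), Real.exp (-(t * r) * ((unhit T hit s ω).card : ℝ)) := by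
      rw [← h2, Finset.mul_sum]
      exact Finset.sum_le_sum (fun ω _ => key ω)
    have h4 := le_of_mul_le_mul_left h3 hΩpos
    refine h4.trans ?_
    have h5 := ih (t * r) (by positivity) (by nlinarith)
    refine h5.trans (le_of_eq ?_)
    rw [Finset.card_insert_of_notMem his]
    congr 1
    rw [pow_succ]
    ring_nf


/-- Exponential upper moment of the number of unhit targets, for independent balls, each hitting
at most one target and each target with probability at least `δ`. -/
theorem pow_unhit {ι : Type*} [Fintype ι] [DecidableEq ι] {Ω : ι → Type*}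
    [∀ i, Fintype (Ω i)] {G : Type*}
    (T : Finset G) (hit : ∀ i, Ω i → G → Prop) (δ : ℝ) (hδ : 0 ≤ δ) (hδ1 : δ ≤ 1)
    (s : Finset ι)
    (h1 : ∀ i ∈ s, ∀ x : Ω i, ∀ g ∈ T, ∀ g' ∈ T, hit i x g → hit i x g' → g = g')
    (hp : ∀ i ∈ s, ∀ g ∈ T, ∀ [DecidablePred (fun x => hit i x g)],
      δ * Fintype.card (Ω i) ≤ ((Finset.univ.filter (fun x => hit i x g)).card : ℝ)) :
    ∀ t : ℝ, 0 ≤ t →
      ∑ ω : (∀ i, Ω i), (1 + t) ^ (unhit T hit s ω).card
        ≤ Fintype.card (∀ i, Ω i) * (1 + t * (1 - δ) ^ s.card) ^ T.card := by
  classical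
  induction s using Finset.induction_on with
  | empty =>
    intro t _
    have : ∀ ω : (∀ i, Ω i), unhit T hit ∅ ω = T := by
      intro ω; ext g; simp [mem_unhit]
    simp [this]
  | insert i s his ih =>
    intro t ht0
    have ih' := ih (fun j hj => h1 j (Finset.mem_insert_of_mem hj))
      (fun j hj => hp j (Finset.mem_insert_of_mem hj))
    have h1i := h1 i (Finset.mem_insert_self i s)
    have hpi := hp i (Finset.mem_insert_self i s)
    by_cases hΩ : Fintype.card (Ω i) = 0
    · have : IsEmpty (∀ i, Ω i) := by
        have hi : IsEmpty (Ω i) := Fintype.card_eq_zero_iff.mp hΩ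
        exact ⟨fun ω => hi.false (ω i)⟩
      simp
    have hΩpos : (0 : ℝ) < Fintype.card (Ω i) := by
      exact_mod_cast Nat.pos_of_ne_zero hΩ
    have key : ∀ ω : (∀ i, Ω i),
        ∑ x : Ω i, (1 + t) ^ (unhit T hit (insert i s) (Function.update ω i x)).card
          ≤ Fintype.card (Ω i) * (1 + t * (1 - δ)) ^ (unhit T hit s ω).card := by
      intro ω
      set T' := unhit T hit s ω with hT'
      have hsub : T' ⊆ T := by
        intro g hg
        exact (mem_unhit.mp hg).1
      have hun : ∀ x : Ω i, unhit T hit (insert i s) (Function.update ω i x)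
          = T'.filter (fun g => ¬ hit i x g) := by
        intro x
        ext g
        simp only [mem_unhit, Finset.mem_filter, hT', Finset.forall_mem_insert,
          Function.update_self]
        constructor
        · rintro ⟨hg, hx, hs⟩
          refine ⟨⟨hg, ?_⟩, hx⟩
          intro j hj
          have hji : j ≠ i := by
            rintro rfl; exact his hj
          have := hs j hj
          rwa [Function.update_of_ne hji] at this
        · rintro ⟨⟨hg, hs⟩, hx⟩
          refine ⟨hg, hx, ?_⟩
          intro j hj
          have hji : j ≠ i := by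
            rintro rfl; exact his hj
          rw [Function.update_of_ne hji]
          exact hs j hj
      have ht1 : (0 : ℝ) < 1 + t := by linarith
      -- each term
      have hterm : ∀ x : Ω i, (1 + t) ^ (unhit T hit (insert i s) (Function.update ω i x)).card
          = (1 + t) ^ T'.card * (1 - t / (1 + t) * ∑ g ∈ T', (if hit i x g then (1:ℝ) else 0)) := by
        intro x
        rw [hun x]
        by_cases hx : ∃ g ∈ T', hit i x g
        · obtain ⟨g, hg, hgx⟩ := hx
          have e1 : T'.filter (fun g => ¬ hit i x g) = T'.erase g := by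
            ext g'
            simp only [Finset.mem_filter, Finset.mem_erase]
            constructor
            · rintro ⟨hg', hn⟩
              exact ⟨by rintro rfl; exact hn hgx, hg'⟩
            · rintro ⟨hne, hg'⟩
              exact ⟨hg', fun hh => hne (h1i x g' (hsub hg') g (hsub hg) hh hgx)⟩
          have e2 : ∑ g' ∈ T', (if hit i x g' then (1:ℝ) else 0) = 1 := by
            rw [Finset.sum_eq_single_of_mem g hg]
            · simp [hgx]
            · intro g' hg' hne
              have : ¬ hit i x g' := fun hh => hne (h1i x g' (hsub hg') g (hsub hg) hh hgx)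
              simp [this]
          rw [e1, e2, Finset.card_erase_of_mem hg]
          have hc : T'.card = (T'.card - 1) + 1 := by
            have := Finset.card_pos.mpr ⟨g, hg⟩
            omega
          conv_rhs => rw [hc, pow_succ]
          field_simp
          ring
        · push Not at hx
          have e1 : T'.filter (fun g => ¬ hit i x g) = T' := by
            rw [Finset.filter_true_of_mem]
            exact hx
          have e2 : ∑ g' ∈ T', (if hit i x g' then (1:ℝ) else 0) = 0 := by
            refine Finset.sum_eq_zero (fun g hg => ?_)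
            simp [hx g hg]
          rw [e1, e2]
          simp
      have hS : ∑ x : Ω i, ∑ g ∈ T', (if hit i x g then (1:ℝ) else 0)
          = ∑ g ∈ T', ((Finset.univ.filter (fun x => hit i x g)).card : ℝ) := by
        rw [Finset.sum_comm]
        refine Finset.sum_congr rfl (fun g _ => ?_)
        simp
      have hS2 : δ * Fintype.card (Ω i) * T'.card
          ≤ ∑ x : Ω i, ∑ g ∈ T', (if hit i x g then (1:ℝ) else 0) := by
        rw [hS]
        calc δ * Fintype.card (Ω i) * T'.card = ∑ g ∈ T', δ * Fintype.card (Ω i) := by
              simp [Finset.sum_const]; ring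
          _ ≤ _ := Finset.sum_le_sum (fun g hg => hpi g (hsub hg))
      calc ∑ x : Ω i, (1 + t) ^ (unhit T hit (insert i s) (Function.update ω i x)).card
          = ∑ x : Ω i, (1 + t) ^ T'.card *
              (1 - t / (1 + t) * ∑ g ∈ T', (if hit i x g then (1:ℝ) else 0)) :=
            Finset.sum_congr rfl (fun x _ => hterm x)
        _ = (1 + t) ^ T'.card * (Fintype.card (Ω i) -
              t / (1 + t) * ∑ x : Ω i, ∑ g ∈ T', (if hit i x g then (1:ℝ) else 0)) := by
            rw [← Finset.mul_sum, Finset.sum_sub_distrib, ← Finset.mul_sum]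
            simp
        _ ≤ (1 + t) ^ T'.card * (Fintype.card (Ω i) -
              t / (1 + t) * (δ * Fintype.card (Ω i) * T'.card)) := by
            refine mul_le_mul_of_nonneg_left ?_ (by positivity)
            have : t / (1 + t) * (δ * Fintype.card (Ω i) * T'.card)
                ≤ t / (1 + t) * ∑ x : Ω i, ∑ g ∈ T', (if hit i x g then (1:ℝ) else 0) :=
              mul_le_mul_of_nonneg_left hS2 (by positivity)
            linarith
        _ = Fintype.card (Ω i) * ((1 + t) ^ T'.card * (1 + (T'.card : ℝ) * (-(t / (1 + t) * δ)))) := by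
            ring
        _ ≤ Fintype.card (Ω i) * ((1 + t) ^ T'.card * (1 + (-(t / (1 + t) * δ))) ^ T'.card) := by
            refine mul_le_mul_of_nonneg_left ?_ (Nat.cast_nonneg _)
            refine mul_le_mul_of_nonneg_left ?_ (by positivity)
            refine one_add_mul_le_pow ?_ _
            have h3 : t / (1 + t) * δ ≤ 1 := by
              have h4 : t / (1 + t) ≤ 1 := by
                rw [div_le_one ht1]; linarith
              have h5 : 0 ≤ t / (1 + t) := by positivity
              nlinarith
            linarith
        _ = Fintype.card (Ω i) * (1 + t * (1 - δ)) ^ T'.card := by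
            rw [← mul_pow]
            congr 2
            field_simp
            ring
    have h2 := sum_resample (Ω := Ω) i
      (fun ω => (1 + t) ^ (unhit T hit (insert i s) ω).card)
    have h3 : (Fintype.card (Ω i) : ℝ) *
        ∑ ω : (∀ i, Ω i), (1 + t) ^ (unhit T hit (insert i s) ω).card
        ≤ Fintype.card (Ω i) *
          ∑ ω : (∀ i, Ω i), (1 + t * (1 - δ)) ^ (unhit T hit s ω).card := by
      rw [← h2, Finset.mul_sum]
      exact Finset.sum_le_sum (fun ω _ => key ω)
    have h4 := le_of_mul_le_mul_left h3 hΩpos
    refine h4.trans ?_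
    have h5 := ih' (t * (1 - δ)) (mul_nonneg ht0 (by linarith))
    refine h5.trans (le_of_eq ?_)
    rw [Finset.card_insert_of_notMem his]
    congr 2
    rw [pow_succ]
    ring

end Crest.Agent.R034.Unhit
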