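import Crest.Agent.R034.Spec

/-!
# Row 34: explicit data of Selection 2 (labels), interface between M11a and M11b

For every position `i` there are nine parameters `y i : Fin 9 → F`.
* `mp R i = (i, R i 0)` is the main point;
* `hpos R X i s a` (`a : Fin 9`) enumerates the nine hit positions of the altered line `X i s`,
  `vp R X i s a` is the special point of `X i s` there;
* slot `c : Fin 9`: `W i true c = (hpos i true c, y c)`, and `W i false c` is the point of the line
  `thru (mp i) (W i true c)` in position `hpos i false c`.
Designated lines: `thru (mp i) (W i true c)` (`c ≠ 8`) for the main point, and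
`thru (vp i s a) (W i s c)` (`c ≠ a`) for the special point `vp i s a`.
-/

set_option autoImplicit false

namespace Crest.Agent.R034

open Finset

variable {F : Type} [Field F] [Fintype F] [DecidableEq F]

/-- main point of position `i` -/
def mp (R : RR F) (i : Option F) : Pt F := (i, R i 0)

/-- enumeration of the nine hit positions of `X i s` -/
noncomputable def hpos (R : RR F) (X : Option F → Bool → Ln F) (i : Option F) (s : Bool)
    (a : Fin 9) : Option F :=
  if h : (hits R (X i s) i).card = 9 then (((hits R (X i s) i).equivFinOfCardEq h).symm a).1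
  else none

/-- the special point of `X i s` in its `a`-th hit position -/
noncomputable def vp (R : RR F) (X : Option F → Bool → Ln F) (i : Option F) (s : Bool)
    (a : Fin 9) : Pt F := (hpos R X i s a, val (X i s) (hpos R X i s a))

/-- value of the `c`-th label of `X i s` -/
noncomputable def wv (R : RR F) (X : Option F → Bool → Ln F) (i : Option F) (y : Fin 9 → F)
    (s : Bool) (c : Fin 9) : F :=
  if s = true then y c
  else val (thru (mp R i) (hpos R X i true c, y c)) (hpos R X i false c)

/-- the `c`-th label point of `X i s` -/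
noncomputable def W (R : RR F) (X : Option F → Bool → Ln F) (i : Option F) (y : Fin 9 → F)
    (s : Bool) (c : Fin 9) : Pt F := (hpos R X i s c, wv R X i y s c)

open Classical in
/-- all used special points -/
noncomputable def KK (R : RR F) (X : Option F → Bool → Ln F) : Finset (Pt F) :=
  univ.filter (fun v => (∃ i, v = mp R i) ∨ ∃ i s a, v = vp R X i s a)

open Classical in
/-- labels of the altered edges -/
noncomputable def LL (R : RR F) (X : Option F → Bool → Ln F) (y : Option F → Fin 9 → F)
    (i : Option F) (s : Bool) (j : Option F) : F :=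
  if h : ∃ a, hpos R X i s a = j then wv R X i (y i) s h.choose else val (X i s) j

open Classical in
/-- designated lines -/
noncomputable def UU (R : RR F) (X : Option F → Bool → Ln F) (y : Option F → Fin 9 → F)
    (v : Pt F) : Finset (Ln F) :=
  univ.filter (fun u =>
    (∃ i, v = mp R i ∧ ∃ c : Fin 9, c ≠ 8 ∧ u = thru (mp R i) (W R X i (y i) true c)) ∨
    (∃ i s a, v = vp R X i s a ∧ ∃ c : Fin 9, c ≠ a ∧
      u = thru (vp R X i s a) (W R X i (y i) s c)))

/-- M11b: choice of the parameters such that no point sees too many flags. -/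
def SpecW2 : Prop :=
  ∀ c : ℝ, 0 < c → ∃ q0 : ℕ, ∀ (F : Type) [Field F] [Fintype F] [DecidableEq F],
    q0 ≤ ord F → ∀ k : ℕ, k ^ 20 ≤ ord F → ∀ (R : RR F) (X : Option F → Bool → Ln F),
    R5 R k → GoodX R X → ∀ G : Option F → Finset (Fin 9 → F),
    (∀ i, c * (ord F : ℝ) ^ 9 ≤ ((G i).card : ℝ)) →
    ∃ y : Option F → Fin 9 → F, (∀ i, y i ∈ G i) ∧
      (∀ l, (∀ i s, X i s ≠ l) → ∀ z, ¬ On z l → flags (KK R X) (UU R X y) l z ≤ 8) ∧
      (∀ i, ∀ z : Pt F, z.1 ≠ i → pflags (KK R X) (UU R X y) i z ≤ 6)

end Crest.Agent.R034
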