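import Crest.Agent.R034.WDefs
import Crest.Agent.R034.Plane

/-! # Row 34: local analysis of the gadgets (M11a), part 1: basic facts and counting -/

set_option autoImplicit false

namespace Crest.Agent.R034

open Finset

variable {F : Type} [Field F] [Fintype F] [DecidableEq F]

/-- the special points of `X i s`: main point and the nine others -/
noncomputable def pt (R : RR F) (X : Option F → Bool → Ln F) (i : Option F) (s : Bool) :
    Option (Fin 9) → Pt F
  | none => mp R i
  | some a => vp R X i s a

/-- the designated lines of side `(i,s)` -/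
noncomputable def dl (R : RR F) (X : Option F → Bool → Ln F) (i : Option F) (y : Fin 9 → F)
    (s : Bool) (a : Option (Fin 9)) (b : Fin 9) : Ln F :=
  thru (pt R X i s a) (W R X i y s b)

/-- admissible parameters -/
structure Loc (R : RR F) (X : Option F → Bool → Ln F) (i : Option F) (y : Fin 9 → F) : Prop where
  av : ∀ s a c, some c ≠ a → AvoidsOff (Kset R) (pt R X i s a) (dl R X i y s a c)
  g2 : ∀ s a c c', some c ≠ a → some c' ≠ a → c ≠ c' → dl R X i y s a c ≠ dl R X i y s a c'
  g3 : ∀ s a a' a'' b b' b'', a ≠ a' → a ≠ a'' → a' ≠ a'' → b ≠ b' → b ≠ b'' → b' ≠ b'' →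
    some b ≠ a → some b' ≠ a' → some b'' ≠ a'' →
    ∀ z, ¬ (On z (dl R X i y s a b) ∧ On z (dl R X i y s a' b') ∧ On z (dl R X i y s a'' b''))

section basic

variable {R : RR F} {X : Option F → Bool → Ln F} (hX : GoodX R X)

include hX

theorem hpos_mem (i : Option F) (s : Bool) (a : Fin 9) :
    hpos R X i s a ∈ hits R (X i s) i := by
  unfold hpos
  rw [dif_pos (hX.nine i s)]
  exact Subtype.property _

theorem hpos_injective (i : Option F) (s : Bool) : Function.Injective (hpos R X i s) := by
  intro a b h
  unfold hpos at h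
  rw [dif_pos (hX.nine i s), dif_pos (hX.nine i s)] at h
  exact Equiv.injective _ (Subtype.ext h)

theorem exists_hpos {i : Option F} {s : Bool} {j : Option F} (h : j ∈ hits R (X i s) i) :
    ∃ a, hpos R X i s a = j := by
  refine ⟨(hits R (X i s) i).equivFinOfCardEq (hX.nine i s) ⟨j, h⟩, ?_⟩
  unfold hpos
  rw [dif_pos (hX.nine i s)]
  simp

theorem hpos_ne (i : Option F) (s : Bool) (a : Fin 9) : hpos R X i s a ≠ i :=
  (mem_hits.mp (hpos_mem hX i s a)).1

theorem vp_mem_Kset (i : Option F) (s : Bool) (a : Fin 9) : vp R X i s a ∈ Kset R :=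
  (mem_hits.mp (hpos_mem hX i s a)).2

theorem mp_on (i : Option F) (s : Bool) : On (mp R i) (X i s) := hX.on_main i s

theorem pt_on (i : Option F) (s : Bool) (a : Option (Fin 9)) : On (pt R X i s a) (X i s) := by
  rcases a with _ | a
  · exact mp_on hX i s
  · rfl

theorem pt_mem_Kset (i : Option F) (s : Bool) (a : Option (Fin 9)) :
    pt R X i s a ∈ Kset R := by
  rcases a with _ | a
  · exact main_mem_Kset R i
  · exact vp_mem_Kset hX i s a

theorem pt_pos_injective (i : Option F) (s : Bool) :
    Function.Injective (fun a => (pt R X i s a).1) := by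
  intro a b h
  rcases a with _ | a <;> rcases b with _ | b
  · rfl
  · exact absurd h.symm (hpos_ne hX i s b)
  · exact absurd h (hpos_ne hX i s a)
  · exact congrArg some (hpos_injective hX i s h)

theorem pt_pos_ne_hpos {i : Option F} {s : Bool} {a : Option (Fin 9)} {b : Fin 9}
    (h : some b ≠ a) : (pt R X i s a).1 ≠ hpos R X i s b := by
  intro h'
  exact h (pt_pos_injective hX i s (a₁ := some b) (a₂ := a) h'.symm)

theorem W_on_dl {i : Option F} {y : Fin 9 → F} {s : Bool} {a : Option (Fin 9)} {b : Fin 9}
    (h : some b ≠ a) : On (W R X i y s b) (dl R X i y s a b) :=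
  on_thru_right (pt_pos_ne_hpos hX h)

theorem pt_on_dl {i : Option F} {y : Fin 9 → F} {s : Bool} {a : Option (Fin 9)} {b : Fin 9}
    (h : some b ≠ a) : On (pt R X i s a) (dl R X i y s a b) :=
  on_thru_left (b := W R X i y s b) (pt_pos_ne_hpos hX h)

/-- both labels of slot `b` define the same line through the main point -/
theorem dl_none (i : Option F) (y : Fin 9 → F) (s : Bool) (b : Fin 9) :
    dl R X i y s none b = thru (mp R i) (W R X i y true b) := by
  rcases s with _ | _
  · symm
    have h1 : (mp R i).1 ≠ (W R X i y true b).1 := (hpos_ne hX i true b).symm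
    have h2 : (mp R i).1 ≠ (W R X i y false b).1 := (hpos_ne hX i false b).symm
    apply eq_thru (a := pt R X i false none) (b := W R X i y false b) h2
    · exact on_thru_left h1
    · show val _ _ = _
      simp [W, wv]
  · rfl

theorem wv_true (i : Option F) (y : Fin 9 → F) (c : Fin 9) : wv R X i y true c = y c := by
  simp [wv]

omit hX in
/-- the label depends only on the parameter of its slot -/
theorem W_congr {i : Option F} {y y' : Fin 9 → F} {c : Fin 9} (h : y c = y' c) (s : Bool) :
    W R X i y s c = W R X i y' s c := by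
  simp [W, wv, h]

/-- and determines it -/
theorem wv_inj {i : Option F} {y y' : Fin 9 → F} {c : Fin 9} {s : Bool}
    (h : wv R X i y s c = wv R X i y' s c) : y c = y' c := by
  rcases s with _ | _
  · simp only [wv] at h
    simp only [Bool.false_eq_true, if_false] at h
    exact val_thru_injective (z := mp R i) (hpos_ne hX i false c) (hpos_ne hX i true c) h
  · simpa [wv] using h

end basic

/-! ## counting -/

theorem card_bad_le (c : Fin 9) (P : (Fin 9 → F) → Prop) [DecidablePred P]
    (h : ∀ y y', P y → P y' → (∀ c', c' ≠ c → y c' = y' c') → y c = y' c) :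
    (univ.filter P).card ≤ (ord F) ^ 8 := by
  have h1 : (univ.filter P).card = ((univ.filter P).image (fun y : Fin 9 → F =>
      (Fin.removeNth c y : Fin 8 → F))).card := by
    rw [card_image_of_injOn]
    intro y hy y' hy' hyy
    simp only [coe_filter, mem_univ, true_and, Set.mem_ofPred_eq] at hy hy'
    have hne : ∀ c', c' ≠ c → y c' = y' c' := by
      intro c' hc'
      obtain ⟨j, rfl⟩ := Fin.exists_succAbove_eq hc'
      exact congrFun hyy j
    funext c'
    by_cases hc : c' = c
    · subst hc
      exact h y y' hy hy' hne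
    · exact hne c' hc
  rw [h1]
  calc _ ≤ (univ : Finset (Fin 8 → F)).card := card_le_card (subset_univ _)
    _ = _ := by simp [ord]

section count

variable {R : RR F} {X : Option F → Bool → Ln F} (hX : GoodX R X)

/-- the avoidance part of `Loc` -/
def Av (R : RR F) (X : Option F → Bool → Ln F) (i : Option F) (y : Fin 9 → F) : Prop :=
  ∀ s a c, some c ≠ a → AvoidsOff (Kset R) (pt R X i s a) (dl R X i y s a c)

include hX

theorem dl_ne_X {i : Option F} {y : Fin 9 → F} (hy : Av R X i y) {s : Bool}
    {a : Option (Fin 9)} {b : Fin 9} (hab : some b ≠ a) : dl R X i y s a b ≠ X i s := by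
  intro h
  -- another special point of `X i s`
  have h1 := hy s a b hab
  rw [h] at h1
  have h2 : (hpos R X i s b) ≠ (pt R X i s a).1 := (pt_pos_ne_hpos hX hab).symm
  exact h1 _ h2 (vp_mem_Kset hX i s b)

theorem dl_ne_dl {i : Option F} {y : Fin 9 → F} (hy : Av R X i y) {s : Bool}
    {a a' : Option (Fin 9)} {b b' : Fin 9} (hab : some b ≠ a) (hab' : some b' ≠ a')
    (haa : a ≠ a') : dl R X i y s a b ≠ dl R X i y s a' b' := by
  intro h
  apply dl_ne_X hX hy hab (s := s)
  apply eq_of_on (a := pt R X i s a) (b := pt R X i s a')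
  · exact fun h => haa (pt_pos_injective hX i s h)
  · exact pt_on_dl hX hab
  · exact pt_on hX i s a
  · rw [h]
    exact pt_on_dl hX hab'
  · exact pt_on hX i s a'

omit hX in
theorem dl_congr {i : Option F} {y y' : Fin 9 → F} {b : Fin 9} (h : y b = y' b) (s : Bool)
    (a : Option (Fin 9)) : dl R X i y s a b = dl R X i y' s a b := by
  unfold dl
  rw [W_congr h]

/-- equality of the lines determines the parameter -/
theorem dl_inj {i : Option F} {y y' : Fin 9 → F} {s : Bool} {a : Option (Fin 9)} {b : Fin 9}
    (hab : some b ≠ a) (h : dl R X i y s a b = dl R X i y' s a b) : y b = y' b := by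
  have h1 : On (W R X i y s b) (dl R X i y s a b) := W_on_dl hX hab
  have h2 : On (W R X i y' s b) (dl R X i y s a b) := by
    rw [h]
    exact W_on_dl hX hab
  have h3 : wv R X i y s b = wv R X i y' s b := h1.symm.trans h2
  exact wv_inj hX h3

end count

/-- patterns of degenerate coincidences -/
abbrev Pat : Type := (Bool × Option (Fin 9) × Fin 9 × Fin 9) ⊕
  (Bool × (Option (Fin 9) × Option (Fin 9) × Option (Fin 9)) × (Fin 9 × Fin 9 × Fin 9))

theorem exists_npat : ∃ N : ℕ, ∀ (f : Pat → ℕ) (M : ℕ), (∀ p, f p ≤ M) →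
    ∑ p, f p ≤ N * M :=
  ⟨(univ : Finset Pat).card, fun _ _ h => Finset.sum_le_card_nsmul _ _ _ (fun p _ => h p)⟩

/-- (a bound for) the number of patterns -/
noncomputable def NPat : ℕ := exists_npat.choose

theorem sum_pat_le (f : Pat → ℕ) (M : ℕ) (h : ∀ p, f p ≤ M) : ∑ p, f p ≤ NPat * M :=
  exists_npat.choose_spec f M h

/-- degenerate coincidence of pattern `p` -/
def BadPat (R : RR F) (X : Option F → Bool → Ln F) (i : Option F) (y : Fin 9 → F) : Pat → Prop
  | Sum.inl (s, a, c, c') => Av R X i y ∧ some c ≠ a ∧ some c' ≠ a ∧ c ≠ c' ∧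
      dl R X i y s a c = dl R X i y s a c'
  | Sum.inr (s, (a, a', a''), (b, b', b'')) => Av R X i y ∧ a ≠ a' ∧ a ≠ a'' ∧ a' ≠ a'' ∧
      b ≠ b' ∧ b ≠ b'' ∧ b' ≠ b'' ∧ some b ≠ a ∧ some b' ≠ a' ∧ some b'' ≠ a'' ∧
      ∃ z, On z (dl R X i y s a b) ∧ On z (dl R X i y s a' b') ∧ On z (dl R X i y s a'' b'')

section count2

variable {R : RR F} {X : Option F → Bool → Ln F} (hX : GoodX R X)

include hX

open Classical in
theorem card_badPat_le (i : Option F) (p : Pat) :
    (univ.filter (fun y => BadPat R X i y p)).card ≤ (ord F) ^ 8 := by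
  rcases p with ⟨s, a, c, c'⟩ | ⟨s, ⟨a, a', a''⟩, ⟨b, b', b''⟩⟩
  · apply card_bad_le c'
    rintro y y' ⟨-, h1, h2, h3, h4⟩ ⟨-, -, -, -, h4'⟩ hyy
    apply dl_inj hX h2 (s := s)
    rw [← h4, ← h4']
    exact dl_congr (hyy c h3) s a
  · apply card_bad_le b''
    rintro y y' ⟨hA, h1, h2, h3, h4, h5, h6, h7, h8, h9, z, hz, hz', hz''⟩
      ⟨hA', -, -, -, -, -, -, -, -, -, w, hw, hw', hw''⟩ hyy
    rw [← dl_congr (hyy b h5) s a] at hw
    rw [← dl_congr (hyy b' h6) s a'] at hw'
    have hne := dl_ne_dl hX hA h7 h8 h1 (s := s)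
    have hzw : z = w := by
      by_contra hzw
      have h10 := pos_ne_of_on hz hw hzw
      exact hne (eq_of_on h10 hz hz' hw hw')
    subst hzw
    -- z is not `pt a''`
    have hzne : z ≠ pt R X i s a'' := by
      intro h
      apply dl_ne_X hX hA h7 (s := s)
      apply eq_of_on (a := pt R X i s a) (b := pt R X i s a'')
      · exact fun h => h2 (pt_pos_injective hX i s h)
      · exact pt_on_dl hX h7
      · exact pt_on hX i s a
      · rw [← h]
        exact hz
      · exact pt_on hX i s a''
    have h11 : z.1 ≠ (pt R X i s a'').1 := pos_ne_of_on hz'' (pt_on_dl hX h9) hzne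
    apply dl_inj hX h9 (s := s)
    exact eq_of_on h11 hz'' hw'' (pt_on_dl hX h9) (pt_on_dl hX h9)

open Classical in
/-- `R4` gives many tuples satisfying the avoidance part. -/
theorem card_Av_ge {c : ℝ} (hc : 0 < c) (h4 : R4 R c) (i : Option F) :
    (c * ord F) ^ 9 ≤ ((univ.filter (fun y => Av R X i y)).card : ℝ) := by
  -- the admissible values in slot `b`
  set Y : Fin 9 → Finset F := fun b => univ.filter (fun t : F =>
    AvoidsOff (Kset R) (mp R i) (thru (mp R i) (hpos R X i true b, t)) ∧
    (∀ v ∈ (univ.erase b).image (fun a => vp R X i true a),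
      AvoidsOff (Kset R) v (thru v (hpos R X i true b, t))) ∧
    (∀ v ∈ (univ.erase b).image (fun a => vp R X i false a),
      AvoidsOff (Kset R) v (thru v (hpos R X i false b,
        val (thru (mp R i) (hpos R X i true b, t)) (hpos R X i false b))))) with hY
  have hYc : ∀ b, c * ord F ≤ ((Y b).card : ℝ) := by
    intro b
    have hb : ∀ s : Bool, ∀ v ∈ (univ.erase b).image (fun a => vp R X i s a),
        v.1 ≠ hpos R X i s b := by
      intro s v hv
      simp only [mem_image, mem_erase, mem_univ, and_true] at hv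
      obtain ⟨a, hab, rfl⟩ := hv
      exact fun h => hab (hpos_injective hX i s h)
    have hcard : ∀ s : Bool, ((univ.erase b).image (fun a => vp R X i s a)).card ≤ 8 := by
      intro s
      refine card_image_le.trans ?_
      rw [card_erase_of_mem (mem_univ _)]
      simp
    exact h4 (hpos R X i true b) (hpos R X i false b) (mp R i)
      ((univ.erase b).image (fun a => vp R X i true a))
      ((univ.erase b).image (fun a => vp R X i false a))
      (fun h => hX.disj i _ (hpos_mem hX i true b) (h ▸ hpos_mem hX i false b))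
      (hpos_ne hX i true b).symm (hpos_ne hX i false b).symm (hb true) (hb false)
      (hcard true) (hcard false)
  have hsub : Fintype.piFinset Y ⊆ univ.filter (fun y => Av R X i y) := by
    intro y hy
    rw [Fintype.mem_piFinset] at hy
    simp only [mem_filter, mem_univ, true_and]
    intro s a b hab
    have hyb := hy b
    simp only [hY, mem_filter, mem_univ, true_and, mem_image, mem_erase, and_true,
      forall_exists_index, and_imp] at hyb
    obtain ⟨h1, h2, h3⟩ := hyb
    rcases a with _ | a
    · rw [dl_none hX]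
      have : W R X i y true b = (hpos R X i true b, y b) := by simp [W, wv]
      rw [this]
      exact h1
    · have hab' : a ≠ b := fun h => hab (by rw [h])
      rcases s with _ | _
      · have := h3 _ a hab' rfl
        have hW : W R X i y false b = (hpos R X i false b,
            val (thru (mp R i) (hpos R X i true b, y b)) (hpos R X i false b)) := by
          simp [W, wv]
        show AvoidsOff (Kset R) _ (thru _ (W R X i y false b))
        rw [hW]
        exact this
      · have := h2 _ a hab' rfl
        have hW : W R X i y true b = (hpos R X i true b, y b) := by simp [W, wv]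
        show AvoidsOff (Kset R) _ (thru _ (W R X i y true b))
        rw [hW]
        exact this
  have hq : (0 : ℝ) ≤ ord F := Nat.cast_nonneg _
  calc (c * ord F) ^ 9 = ∏ _b : Fin 9, (c * ord F) := by simp
    _ ≤ ∏ b : Fin 9, ((Y b).card : ℝ) :=
        prod_le_prod (fun b _ => by positivity) (fun b _ => hYc b)
    _ = ((Fintype.piFinset Y).card : ℝ) := by
        rw [Fintype.card_piFinset]
        push_cast
        rfl
    _ ≤ _ := by
        exact_mod_cast card_le_card hsub

open Classical in
theorem card_Loc_ge {c : ℝ} (hc : 0 < c) (h4 : R4 R c) (i : Option F)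
    (hq : 2 * (NPat : ℝ) ≤ c ^ 9 * ord F) :
    c ^ 9 / 2 * (ord F : ℝ) ^ 9 ≤ ((univ.filter (fun y => Loc R X i y)).card : ℝ) := by
  have hsub : univ.filter (fun y => Av R X i y) ⊆ univ.filter (fun y => Loc R X i y) ∪
      (univ : Finset Pat).biUnion (fun p => univ.filter (fun y => BadPat R X i y p)) := by
    intro y hy
    simp only [mem_filter, mem_univ, true_and] at hy
    simp only [mem_union, mem_filter, mem_univ, true_and, mem_biUnion]
    by_contra hcon
    push Not at hcon
    obtain ⟨hL, hB⟩ := hcon
    apply hL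
    refine ⟨hy, ?_, ?_⟩
    · intro s a c c' h1 h2 h3 h4
      exact hB (Sum.inl (s, a, c, c')) ⟨hy, h1, h2, h3, h4⟩
    · intro s a a' a'' b b' b'' h1 h2 h3 h4 h5 h6 h7 h8 h9 z hz
      exact hB (Sum.inr (s, (a, a', a''), (b, b', b'')))
        ⟨hy, h1, h2, h3, h4, h5, h6, h7, h8, h9, z, hz⟩
  have h1 : (univ.filter (fun y => Av R X i y)).card ≤
      (univ.filter (fun y => Loc R X i y)).card + NPat * (ord F) ^ 8 := by
    refine (card_le_card hsub).trans ((card_union_le _ _).trans ?_)
    refine Nat.add_le_add_left ?_ _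
    refine card_biUnion_le.trans ?_
    exact sum_pat_le _ _ (fun p => card_badPat_le hX i p)
  have h2 := card_Av_ge hX hc h4 i
  have h3 : ((univ.filter (fun y => Av R X i y)).card : ℝ) ≤
      (univ.filter (fun y => Loc R X i y)).card + NPat * (ord F : ℝ) ^ 8 := by
    exact_mod_cast h1
  have h5 : (NPat : ℝ) * (ord F : ℝ) ^ 8 ≤ c ^ 9 / 2 * (ord F : ℝ) ^ 9 := by
    have : (0 : ℝ) ≤ (ord F : ℝ) ^ 8 := by positivity
    calc (NPat : ℝ) * (ord F : ℝ) ^ 8 ≤ (c ^ 9 * ord F / 2) * (ord F : ℝ) ^ 8 := by
          apply mul_le_mul_of_nonneg_right _ this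
          linarith
      _ = _ := by ring
  have h6 : (c * ord F) ^ 9 = c ^ 9 * (ord F : ℝ) ^ 9 := by ring
  linarith [h2, h3, h5, h6]

end count2

end Crest.Agent.R034
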